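import Vale.Agent.P050.H177.Gauge12

/-!
The gauge reduction for all bipartite graphs: the coupling.
-/

namespace Vale.Agent.P050.H177

open Finset Vale.Agent.P050 Vale.Agent.P050.Lev Vale.Agent.P050.Cart

variable {U V : Type} [Fintype U] [Fintype V] [DecidableEq V] {E : Finset (V × V)}
  {side : V → Bool} {g : V → ℕ}

/-- the homomorphism density with potentials of a two-sided Sidorenko graph in a doubly stochastic
kernel is at least one -/
theorem one_le_pdens (hK : KSid E side) {d : Bool → ℝ}
    (hd : ∀ b, ∑ v ∈ univ.filter (fun v => side v = b), (d b - g v) = 0) {m : Bool → U → ℝ}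
    {W : U → U → ℝ} (hm : ∀ b x, 0 ≤ m b x) (hm1 : ∀ b, ∑ x, m b x = 1) (hW : ∀ x y, 0 ≤ W x y)
    (hrow : ∀ x, ∑ y, m true y * W x y = 1) (hcol : ∀ y, ∑ x, m false x * W x y = 1)
    {u : Bool → U → ℝ} (hu : ∀ b x, 0 < u b x) : 1 ≤ pdens E side g d m W u := by
  classical
  set π : U → U → ℝ := fun x y => m false x * m true y * W x y with hπdef
  have hπ : ∀ x y, 0 ≤ π x y := fun x y => mul_nonneg (mul_nonneg (hm _ _) (hm _ _)) (hW _ _)
  have h1 : ∀ x, ∑ y, π x y = m false x := by
    intro x
    calc ∑ y, m false x * m true y * W x y = m false x * ∑ y, m true y * W x y := by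
          rw [Finset.mul_sum]
          exact Finset.sum_congr rfl fun y _ => by ring
      _ = m false x := by rw [hrow, mul_one]
  have h2 : ∀ y, ∑ x, π x y = m true y := by
    intro y
    calc ∑ x, m false x * m true y * W x y = m true y * ∑ x, m false x * W x y := by
          rw [Finset.mul_sum]
          exact Finset.sum_congr rfl fun x _ => by ring
      _ = m true y := by rw [hcol, mul_one]
  obtain ⟨ν, hν⟩ := Cart.KSid.sidLaw hK hm hm1 hπ h1 h2
  have hmne : ∀ z, ν z ≠ 0 → ∀ v, m (side v) (z v) ≠ 0 := fun z hz v => hν.law_ne_zero hz v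
  have hWne : ∀ z, ν z ≠ 0 → ∀ e ∈ E, W (z e.1) (z e.2) ≠ 0 := fun z hz e he h0 =>
    hν.edge_ne_zero hz he (by simp only [hπdef, h0, mul_zero])
  have hup : ∀ v (z : V → U), 0 < u (side v) (z v) ^ (d (side v) - g v) := fun v z =>
    Real.rpow_pos_of_pos (hu _ _) _
  obtain ⟨hgibbs, hpos⟩ := gibbs_log (p := ν) (q := fun z =>
      (∏ v, m (side v) (z v) * u (side v) (z v) ^ (d (side v) - g v)) *
        ∏ e ∈ E, W (z e.1) (z e.2)) hν.nonneg
    (fun z => mul_nonneg (Finset.prod_nonneg fun v _ => mul_nonneg (hm _ _) (hup v z).le)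
      (Finset.prod_nonneg fun e _ => hW _ _))
    (fun z hz => by
      by_contra hcon
      rcases mul_eq_zero.1 hz with h5 | h5
      · obtain ⟨v, -, h6⟩ := Finset.prod_eq_zero_iff.1 h5
        exact mul_ne_zero (hmne z hcon v) (hup v z).ne' h6
      · obtain ⟨e, he, h6⟩ := Finset.prod_eq_zero_iff.1 h5
        exact hWne z hcon e he h6) hν.total
  have hinf : Cart.inf m π = ∑ x, ∑ y, π x y * Real.log (W x y) := by
    unfold Cart.inf
    refine Finset.sum_congr rfl fun x _ => Finset.sum_congr rfl fun y _ => ?_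
    by_cases h3 : π x y = 0
    · rw [h3]; ring
    have h5 : W x y ≠ 0 := right_ne_zero_of_mul h3
    have h6 : m false x ≠ 0 := left_ne_zero_of_mul (left_ne_zero_of_mul h3)
    have h7 : m true y ≠ 0 := right_ne_zero_of_mul (left_ne_zero_of_mul h3)
    have h8 : Real.log (π x y) = Real.log (m false x) + Real.log (m true y) +
        Real.log (W x y) := by
      simp only [hπdef]
      rw [Real.log_mul (mul_ne_zero h6 h7) h5, Real.log_mul h6 h7]
    rw [h8]
    ring
  have hmain : 0 ≤ ∑ z, ν z * (Real.log ((∏ v, m (side v) (z v) *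
      u (side v) (z v) ^ (d (side v) - g v)) * ∏ e ∈ E, W (z e.1) (z e.2)) - Real.log (ν z)) := by
    have h3 : ∀ z, ν z * (Real.log ((∏ v, m (side v) (z v) *
        u (side v) (z v) ^ (d (side v) - g v)) * ∏ e ∈ E, W (z e.1) (z e.2)) - Real.log (ν z))
        = ∑ v, ν z * ((d (side v) - g v) * Real.log (u (side v) (z v)))
          + ∑ e ∈ E, ν z * Real.log (W (z e.1) (z e.2))
          - ν z * (Real.log (ν z) - ∑ v, Real.log (m (side v) (z v))) := by
      intro z
      by_cases hz : ν z = 0
      · simp [hz]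
      · have h4 : (∏ v, m (side v) (z v) * u (side v) (z v) ^ (d (side v) - g v)) ≠ 0 :=
          Finset.prod_ne_zero_iff.2 fun v _ => mul_ne_zero (hmne z hz v) (hup v z).ne'
        have h5 : ∏ e ∈ E, W (z e.1) (z e.2) ≠ 0 :=
          Finset.prod_ne_zero_iff.2 fun e he => hWne z hz e he
        rw [Real.log_mul h4 h5, Real.log_prod (fun v _ => mul_ne_zero (hmne z hz v)
          (hup v z).ne'), Real.log_prod (fun e he => hWne z hz e he)]
        have h6 : ∑ v, Real.log (m (side v) (z v) * u (side v) (z v) ^ (d (side v) - g v)) =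
            ∑ v, Real.log (m (side v) (z v)) +
              ∑ v, (d (side v) - g v) * Real.log (u (side v) (z v)) := by
          rw [← Finset.sum_add_distrib]
          refine Finset.sum_congr rfl fun v _ => ?_
          rw [Real.log_mul (hmne z hz v) (hup v z).ne', Real.log_rpow (hu _ _)]
        rw [h6, ← Finset.mul_sum, ← Finset.mul_sum]
        ring
    simp_rw [h3]
    rw [Finset.sum_sub_distrib, Finset.sum_add_distrib, Finset.sum_comm (s := univ) (t := univ),
      Finset.sum_comm (s := univ) (t := E)]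
    have h4 : ∑ v, ∑ z, ν z * ((d (side v) - g v) * Real.log (u (side v) (z v))) = 0 := by
      have h5 : ∀ v, ∑ z, ν z * ((d (side v) - g v) * Real.log (u (side v) (z v))) =
          (d (side v) - g v) * ∑ x, m (side v) x * Real.log (u (side v) x) := by
        intro v
        rw [← hν.vertex v fun x => Real.log (u (side v) x), Finset.mul_sum]
        exact Finset.sum_congr rfl fun z _ => by ring
      simp_rw [h5]
      rw [sum_side side fun b v => (d b - g v) * ∑ x, m b x * Real.log (u b x),
        ← Finset.sum_mul, ← Finset.sum_mul, hd, hd, zero_mul, zero_mul, add_zero]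
    have h5 : ∑ e ∈ E, ∑ z, ν z * Real.log (W (z e.1) (z e.2)) = E.card * Cart.inf m π := by
      rw [hinf, Finset.sum_congr rfl fun e he => hν.edge e he fun x y => Real.log (W x y),
        Finset.sum_const, nsmul_eq_mul]
    have h6 : ∑ z, ν z * (Real.log (ν z) - ∑ v, Real.log (m (side v) (z v))) ≤
        E.card * Cart.inf m π := hν.bound
    rw [h4, h5]
    linarith
  have h3 : 0 ≤ Real.log (pdens E side g d m W u) := hmain.trans hgibbs
  by_contra hcon
  push Not at hcon
  exact absurd (Real.log_neg hpos hcon) (not_lt.2 h3)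

theorem EDeg.card_fst (h : EDeg E side g) :
    (E.card : ℝ) = ∑ v ∈ univ.filter (fun v => side v = false), (g v : ℝ) := by
  rw [Finset.card_eq_sum_card_fiberwise (f := fun e : V × V => e.1)
    (t := univ.filter fun v => side v = false) (fun e he => by simp [(h.1 e he).1])]
  push_cast
  exact Finset.sum_congr rfl fun v hv => by rw [h.2.1 v (Finset.mem_filter.1 hv).2]

theorem EDeg.card_snd (h : EDeg E side g) :
    (E.card : ℝ) = ∑ v ∈ univ.filter (fun v => side v = true), (g v : ℝ) := by
  rw [Finset.card_eq_sum_card_fiberwise (f := fun e : V × V => e.2)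
    (t := univ.filter fun v => side v = true) (fun e he => by simp [(h.1 e he).2])]
  push_cast
  exact Finset.sum_congr rfl fun v hv => by rw [h.2.2 v (Finset.mem_filter.1 hv).2]

theorem EDeg.balance (h : EDeg E side g) {r s : ℝ} (hr : (E.card : ℝ) = r * sideCard side false)
    (hs : (E.card : ℝ) = s * sideCard side true) (b : Bool) :
    ∑ v ∈ univ.filter (fun v => side v = b), ((if b then s else r) - g v) = 0 := by
  rw [Finset.sum_sub_distrib, Finset.sum_const, nsmul_eq_mul]
  cases b
  · rw [← h.card_fst, hr]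
    simp only [Bool.false_eq_true, if_false, sideCard]
    ring
  · rw [← h.card_snd, hs]
    simp only [if_true, sideCard]
    ring

/-- **All bipartite graphs**: the reduction to nice kernels, with potentials. -/
theorem ksid_iff_pot (h : EDeg E side g) {r s : ℝ} (hr : 1 < r) (hs : 1 < s)
    (hre : (E.card : ℝ) = r * sideCard side false) (hse : (E.card : ℝ) = s * sideCard side true)
    (hE : 0 < E.card) :
    KSid E side ↔ ∀ (U : Type) [Fintype U] (m : Bool → U → ℝ) (W : U → U → ℝ)
      (u : Bool → U → ℝ), NiceHost r s m W → (∀ b x, 0 < u b x) →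
        1 ≤ pdens E side g (fun b => if b then s else r) m W u := by
  constructor
  · intro hK U _ m W u hh hu
    obtain ⟨hm, hm1, hW, hrow, hcol, -⟩ := hh
    exact one_le_pdens hK (h.balance hre hse) hm hm1 hW hrow hcol hu
  · intro hall
    refine ⟨h.1, fun U _ m W hm hm1 hW => ?_⟩
    change kmean m W ^ E.card ≤ kdens E side m W
    have hk0 : 0 ≤ kmean m W := Finset.sum_nonneg fun x _ => Finset.sum_nonneg fun y _ =>
      mul_nonneg (mul_nonneg (hm _ _) (hm _ _)) (hW _ _)
    rcases hk0.eq_or_lt with h0 | hk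
    · rw [← h0, zero_pow hE.ne']
      exact kdens_nonneg hm hW
    obtain ⟨m', W', u, Φ, hn, hu, -, hle, -, hdens⟩ := gaugeR hr hs hm hm1 hW hk
    refine le_trans ?_ (hdens V E side g h)
    refine (pow_le_pow_left₀ hk0 hle _).trans ?_
    exact le_mul_of_one_le_right (pow_nonneg (hk0.trans hle) _) (hall U m' W' u hn hu)

/-- **All bipartite graphs**: the homomorphism density is at least a power of the norm. -/
theorem norm_dens (h : EDeg E side g) {r s : ℝ} (hr : 1 < r) (hs : 1 < s)
    (hre : (E.card : ℝ) = r * sideCard side false) (hse : (E.card : ℝ) = s * sideCard side true)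
    (hE : 0 < E.card) (hK : KSid E side) {m : Bool → U → ℝ} {W : U → U → ℝ}
    (hm : ∀ b x, 0 ≤ m b x) (hm1 : ∀ b, ∑ x, m b x = 1) (hW : ∀ x y, 0 ≤ W x y)
    (f f' : U → ℝ) (hf : ∀ x, 0 ≤ f x) (hf' : ∀ y, 0 ≤ f' y) :
    (∑ x, ∑ y, m false x * m true y * W x y * (f x * f' y)) ^ E.card ≤
      kdens E side m W * ((∑ x, m false x * f x ^ (r / (r - 1))) ^ (E.card - sideCard side false) *
        (∑ y, m true y * f' y ^ (s / (s - 1))) ^ (E.card - sideCard side true)) := by
  have hk0 : 0 ≤ kmean m W := Finset.sum_nonneg fun x _ => Finset.sum_nonneg fun y _ =>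
      mul_nonneg (mul_nonneg (hm _ _) (hm _ _)) (hW _ _)
  set S := ∑ x, m false x * f x ^ (r / (r - 1)) with hS
  set T := ∑ y, m true y * f' y ^ (s / (s - 1)) with hT
  have hS0 : 0 ≤ S := Finset.sum_nonneg fun x _ => mul_nonneg (hm _ _) (Real.rpow_nonneg (hf x) _)
  have hT0 : 0 ≤ T := Finset.sum_nonneg fun x _ => mul_nonneg (hm _ _) (Real.rpow_nonneg (hf' x) _)
  rcases hk0.eq_or_lt with h0 | hk
  · have h1 : ∀ x y, m false x * m true y * W x y = 0 := by
      intro x y
      have h2 := (Finset.sum_eq_zero_iff_of_nonneg fun x _ => Finset.sum_nonneg fun y _ =>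
        mul_nonneg (mul_nonneg (hm _ _) (hm _ _)) (hW _ _)).1 h0.symm x (mem_univ x)
      exact (Finset.sum_eq_zero_iff_of_nonneg fun y _ =>
        mul_nonneg (mul_nonneg (hm _ _) (hm _ _)) (hW _ _)).1 h2 y (mem_univ y)
    simp_rw [h1, zero_mul, Finset.sum_const_zero]
    rw [zero_pow hE.ne']
    exact mul_nonneg (kdens_nonneg hm hW) (mul_nonneg (pow_nonneg hS0 _) (pow_nonneg hT0 _))
  obtain ⟨m', W', u, Φ, hn, hu, -, hle, hnorm, hdens⟩ := gaugeR hr hs hm hm1 hW hk
  obtain ⟨hm', hm1', hW', hrow', hcol', -⟩ := hn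
  have h1 := one_le_pdens (g := g) hK (h.balance hre hse) hm' hm1' hW' hrow' hcol' hu
  have h2 := hdens V E side g h
  have hΦ : 0 ≤ Φ := hk0.trans hle
  have h3 : Φ ^ E.card ≤ kdens E side m W := (le_mul_of_one_le_right (pow_nonneg hΦ _) h1).trans h2
  have h4 := hnorm f f' hf hf'
  have hL0 : 0 ≤ ∑ x, ∑ y, m false x * m true y * W x y * (f x * f' y) :=
    Finset.sum_nonneg fun x _ => Finset.sum_nonneg fun y _ =>
      mul_nonneg (mul_nonneg (mul_nonneg (hm _ _) (hm _ _)) (hW _ _))
        (mul_nonneg (hf x) (hf' y))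
  have c0 : (sideCard side false : ℝ) ≤ E.card := by
    have : (0 : ℝ) ≤ sideCard side false := Nat.cast_nonneg _
    nlinarith
  have c1 : (sideCard side true : ℝ) ≤ E.card := by
    have : (0 : ℝ) ≤ sideCard side true := Nat.cast_nonneg _
    nlinarith
  have c0' : sideCard side false ≤ E.card := by exact_mod_cast c0
  have c1' : sideCard side true ≤ E.card := by exact_mod_cast c1
  have key : ∀ {X t : ℝ} {k : ℕ}, 0 ≤ X → 1 < t → k ≤ E.card → (E.card : ℝ) = t * k →
      (X ^ (1 / (t / (t - 1)))) ^ E.card = X ^ (E.card - k) := by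
    intro X t k hX ht hk' hte
    rw [← Real.rpow_natCast, ← Real.rpow_mul hX, ← Real.rpow_natCast X]
    congr 1
    rw [Nat.cast_sub hk', hte]
    have h5 : t ≠ 0 := by linarith
    have h6 : t - 1 ≠ 0 := by linarith
    field_simp
  calc (∑ x, ∑ y, m false x * m true y * W x y * (f x * f' y)) ^ E.card
      ≤ (Φ * (S ^ (1 / (r / (r - 1))) * T ^ (1 / (s / (s - 1))))) ^ E.card :=
        pow_le_pow_left₀ hL0 h4 _
    _ = Φ ^ E.card * (S ^ (E.card - sideCard side false) * T ^ (E.card - sideCard side true)) := by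
        rw [mul_pow, mul_pow, key hS0 hr c0' hre, key hT0 hs c1' hse]
    _ ≤ _ := mul_le_mul_of_nonneg_right h3 (mul_nonneg (pow_nonneg hS0 _) (pow_nonneg hT0 _))

end Vale.Agent.P050.H177
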