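import Vale.Agent.P050.H177.Gauge18

/-!
A kernel for every edge and a weight for every vertex.
-/

namespace Vale.Agent.P050.H177

open Finset Vale.Agent.P050 Vale.Agent.P050.Lev Vale.Agent.P050.Cart

variable {U V : Type} [Fintype U] [Fintype V] [DecidableEq V] {E : Finset (V × V)}
  {side : V → Bool} {g : V → ℕ}

/-- **All bipartite graphs**: a kernel for every edge and a weight for every vertex. -/
theorem full_norm (h : EDeg E side g) {r s : ℝ} (hr : 1 < r) (hs : 1 < s)
    (hre : (E.card : ℝ) = r * sideCard side false) (hse : (E.card : ℝ) = s * sideCard side true)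
    (hE : 0 < E.card) (hK : KSid E side) {m : Bool → U → ℝ} {K : V × V → U → U → ℝ}
    (hm : ∀ b x, 0 ≤ m b x) (hm1 : ∀ b, ∑ x, m b x = 1) (hKn : ∀ e x y, 0 ≤ K e x y)
    (w : V → U → ℝ) (hw : ∀ v x, 0 < w v x) :
    (∑ x, ∑ y, m false x * m true y * (emean E K x y *
        (vmean E side w false x * vmean E side w true y))) ^ E.card ≤
      ∑ z : V → U, (∏ v, m (side v) (z v) * w v (z v)) * ∏ e ∈ E, K e (z e.1) (z e.2) := by
  classical
  set W1 : U → U → ℝ := emean E K with hW1
  set F : Bool → U → ℝ := vmean E side w with hF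
  set W2 : U → U → ℝ := fun x y => W1 x y * (F false x * F true y) with hW2
  have hEr : (0 : ℝ) < E.card := by exact_mod_cast hE
  have hFpos : ∀ b x, 0 < F b x := fun b x =>
    Real.rpow_pos_of_pos (Finset.prod_pos fun v _ => hw v x) _
  have hlogF : ∀ b x, E.card * Real.log (F b x) =
      ∑ v ∈ univ.filter (fun v => side v = b), Real.log (w v x) := by
    intro b x
    simp only [hF, vmean]
    rw [Real.log_rpow (Finset.prod_pos fun v _ => hw v x), Real.log_prod fun v _ => (hw v x).ne',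
      ← mul_assoc, mul_one_div_cancel hEr.ne', one_mul]
  have hW10 : ∀ x y, 0 ≤ W1 x y := fun x y =>
    Finset.prod_nonneg fun e _ => Real.rpow_nonneg (hKn _ _ _) _
  have hW20 : ∀ x y, 0 ≤ W2 x y := fun x y =>
    mul_nonneg (hW10 x y) (mul_nonneg (hFpos _ _).le (hFpos _ _).le)
  have hW2ne : ∀ x y, W1 x y ≠ 0 → ∀ e ∈ E, 0 < K e x y := by
    intro x y hxy e he
    refine lt_of_le_of_ne (hKn _ _ _) fun h0 => hxy ?_
    refine Finset.prod_eq_zero he ?_
    rw [← h0, Real.zero_rpow (one_div_pos.2 hEr).ne']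
  have hlogW2 : ∀ x y, W1 x y ≠ 0 → E.card * Real.log (W1 x y) =
      ∑ e ∈ E, Real.log (K e x y) := by
    intro x y hxy
    have h1 := hW2ne x y hxy
    simp only [hW1, emean]
    rw [Real.log_prod fun e he => (Real.rpow_pos_of_pos (h1 e he) _).ne', Finset.mul_sum]
    refine Finset.sum_congr rfl fun e he => ?_
    rw [Real.log_rpow (h1 e he), ← mul_assoc, mul_one_div_cancel hEr.ne', one_mul]
  have hk0 : 0 ≤ kmean m W2 := Finset.sum_nonneg fun x _ => Finset.sum_nonneg fun y _ =>
      mul_nonneg (mul_nonneg (hm _ _) (hm _ _)) (hW20 _ _)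
  set D := ∑ z : V → U, (∏ v, m (side v) (z v) * w v (z v)) *
    ∏ e ∈ E, K e (z e.1) (z e.2) with hD
  have hD0 : 0 ≤ D := Finset.sum_nonneg fun z _ => mul_nonneg
    (Finset.prod_nonneg fun v _ => mul_nonneg (hm _ _) (hw _ _).le)
    (Finset.prod_nonneg fun e _ => hKn _ _ _)
  change kmean m W2 ^ E.card ≤ D
  rcases hk0.eq_or_lt with h0 | hkpos
  · rw [← h0, zero_pow hE.ne']
    exact hD0
  obtain ⟨m', W', u, Φ, hn, hu, -, hle, -, hdens⟩ := gaugeRK hr hs hm hm1 hW20 hkpos
  obtain ⟨hm', hm1', hW', hrow', hcol', -⟩ := hn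
  set k : V × V → U → U → ℝ := fun e x y =>
    if W1 x y = 0 ∨ e ∉ E then 1 else K e x y / W1 x y with hkdef
  have hkpos' : ∀ e x y, 0 < k e x y := by
    intro e x y
    simp only [hkdef]
    split_ifs with h1
    · exact one_pos
    · push Not at h1
      exact div_pos (hW2ne x y h1.1 e h1.2) (lt_of_le_of_ne (hW10 _ _) (Ne.symm h1.1))
  have hk1 : ∀ x y, ∑ e ∈ E, Real.log (k e x y) = 0 := by
    intro x y
    by_cases hxy : W1 x y = 0
    · refine Finset.sum_eq_zero fun e _ => ?_
      simp only [hkdef, hxy, true_or, if_true, Real.log_one]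
    · have e1 : ∀ e ∈ E, Real.log (k e x y) = Real.log (K e x y) - Real.log (W1 x y) := by
        intro e he
        simp only [hkdef]
        rw [if_neg (by simp [hxy, he]), Real.log_div (hW2ne x y hxy e he).ne' hxy]
      rw [Finset.sum_congr rfl e1, Finset.sum_sub_distrib, ← hlogW2 x y hxy, Finset.sum_const,
        nsmul_eq_mul, sub_self]
  set kv : V → U → ℝ := fun v x => w v x / F (side v) x ^ g v with hkvdef
  have hkvpos : ∀ v x, 0 < kv v x := fun v x => div_pos (hw v x) (pow_pos (hFpos _ _) _)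
  set c : V → U → ℝ := fun v x => u (side v) x ^ ((if side v then s else r) - g v) * kv v x
    with hc
  have hcpos : ∀ v x, 0 < c v x := fun v x =>
    mul_pos (Real.rpow_pos_of_pos (hu _ _) _) (hkvpos v x)
  have hc1 : ∀ b x, ∑ v ∈ univ.filter (fun v => side v = b), Real.log (c v x) = 0 := by
    intro b x
    have e1 : ∀ v ∈ univ.filter (fun v => side v = b), Real.log (c v x) =
        ((if b then s else r) - g v) * Real.log (u b x) + Real.log (w v x) -
          g v * Real.log (F b x) := by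
      intro v hv
      have hv' := (Finset.mem_filter.1 hv).2
      simp only [hc, hkvdef]
      rw [Real.log_mul (Real.rpow_pos_of_pos (hu _ _) _).ne' (hkvpos v x).ne',
        Real.log_rpow (hu _ _), Real.log_div (hw v x).ne' (pow_pos (hFpos _ _) _).ne',
        Real.log_pow, hv']
      ring
    rw [Finset.sum_congr rfl e1, Finset.sum_sub_distrib, Finset.sum_add_distrib,
      ← Finset.sum_mul, ← Finset.sum_mul, h.balance hre hse b, ← hlogF, h.sum_side_card b]
    ring
  have h1 := one_le_edens hK hm' hm1' hW' hrow' hcol' hcpos hc1 hkpos' hk1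
  have h2 := hdens V E side g (fun z => (∏ v, kv v (z v)) * ∏ e ∈ E, k e (z e.1) (z e.2)) h
    fun z => mul_nonneg (Finset.prod_nonneg fun v _ => (hkvpos v _).le)
      (Finset.prod_nonneg fun e _ => (hkpos' _ _ _).le)
  have h3 : ∑ z : V → U, ((∏ v, kv v (z v)) * ∏ e ∈ E, k e (z e.1) (z e.2)) *
      ((∏ v, m' (side v) (z v) * u (side v) (z v) ^ ((if side v then s else r) - g v)) *
        ∏ e ∈ E, W' (z e.1) (z e.2)) =
      ∑ z : V → U, (∏ v, m' (side v) (z v) * c v (z v)) *
        ∏ e ∈ E, (W' (z e.1) (z e.2) * k e (z e.1) (z e.2)) := by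
    refine Finset.sum_congr rfl fun z _ => ?_
    rw [Finset.prod_mul_distrib (s := E)]
    have e1 : ∏ v, m' (side v) (z v) * c v (z v) = (∏ v, kv v (z v)) *
        ∏ v, m' (side v) (z v) * u (side v) (z v) ^ ((if side v then s else r) - g v) := by
      rw [← Finset.prod_mul_distrib]
      exact Finset.prod_congr rfl fun v _ => by simp only [hc]; ring
    rw [e1]
    ring
  have h4 : ∑ z : V → U, ((∏ v, kv v (z v)) * ∏ e ∈ E, k e (z e.1) (z e.2)) *
      ((∏ v, m (side v) (z v)) * ∏ e ∈ E, W2 (z e.1) (z e.2)) ≤ D := by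
    rw [hD]
    refine Finset.sum_le_sum fun z _ => ?_
    have e1 : (∏ e ∈ E, k e (z e.1) (z e.2)) * ∏ e ∈ E, W1 (z e.1) (z e.2) ≤
        ∏ e ∈ E, K e (z e.1) (z e.2) := by
      rw [← Finset.prod_mul_distrib]
      refine Finset.prod_le_prod (fun e _ => mul_nonneg (hkpos' _ _ _).le (hW10 _ _))
        fun e he => ?_
      by_cases h0 : W1 (z e.1) (z e.2) = 0
      · rw [h0, mul_zero]
        exact hKn _ _ _
      · simp only [hkdef]
        rw [if_neg (by simp [h0, he]), div_mul_cancel₀ _ h0]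
    have e2 : ∏ e ∈ E, W2 (z e.1) (z e.2) =
        (∏ e ∈ E, W1 (z e.1) (z e.2)) * ∏ v, F (side v) (z v) ^ g v := by
      simp only [hW2]
      rw [Finset.prod_mul_distrib, h.prod_edges]
    have e3 : (∏ v, kv v (z v)) * ∏ v, F (side v) (z v) ^ g v = ∏ v, w v (z v) := by
      rw [← Finset.prod_mul_distrib]
      refine Finset.prod_congr rfl fun v _ => ?_
      simp only [hkvdef]
      rw [div_mul_cancel₀ _ (pow_pos (hFpos _ _) _).ne']
    calc ((∏ v, kv v (z v)) * ∏ e ∈ E, k e (z e.1) (z e.2)) * ((∏ v, m (side v) (z v)) *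
          ∏ e ∈ E, W2 (z e.1) (z e.2)) = (∏ v, m (side v) (z v)) *
          ((∏ v, kv v (z v)) * ∏ v, F (side v) (z v) ^ g v) *
          ((∏ e ∈ E, k e (z e.1) (z e.2)) * ∏ e ∈ E, W1 (z e.1) (z e.2)) := by
            rw [e2]
            ring
      _ ≤ (∏ v, m (side v) (z v)) * ((∏ v, kv v (z v)) * ∏ v, F (side v) (z v) ^ g v) *
          ∏ e ∈ E, K e (z e.1) (z e.2) := by
            rw [e3]
            exact mul_le_mul_of_nonneg_left e1 (mul_nonneg (Finset.prod_nonneg fun v _ => hm _ _)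
              (Finset.prod_nonneg fun v _ => (hw _ _).le))
      _ = _ := by rw [e3, Finset.prod_mul_distrib]
  rw [h3] at h2
  have hΦ : 0 ≤ Φ := hk0.trans hle
  exact ((pow_le_pow_left₀ hk0 hle _).trans
    (le_mul_of_one_le_right (pow_nonneg hΦ _) h1)).trans (h2.trans h4)

end Vale.Agent.P050.H177
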