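import Vale.Agent.P050.H177.Att9

/-!
Attachments with roots joined to one side of `K`: the inequality for `K`.
-/

namespace Vale.Agent.P050.H177

open Finset Vale.Agent.P050 Vale.Agent.P050.Lev Vale.Agent.P050.Cart

/-- the inequality for `K`, with `N` copies of a function on the edges, weights of the vertices, and
arbitrary measures -/
theorem attKm {VK J U : Type} [Fintype VK] [Fintype J] [DecidableEq VK] [Fintype U]
    {E : Finset (VK × VK)} {t : VK → Bool} {g : VK → ℕ} (hg : EDeg E t g) (hK : KSid E t)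
    (hlt : ∀ b, sideCard t b < E.card) (hpos : ∀ b, 0 < sideCard t b)
    {μ : Bool → U → ℝ} {L : U → U → ℝ} (hμ : ∀ b x, 0 ≤ μ b x)
    (hL : ∀ x y, 0 ≤ L x y) {φ : J → VK × VK} (hφ : ∀ j, φ j ∈ E)
    (hN : E.card ≤ Fintype.card J) {h : U → U → ℝ} (hh : ∀ x y, 0 ≤ h x y)
    {c : VK → U → ℝ} (hc : ∀ v x, 0 < c v x) :
    (∑ x, ∑ y, μ false x * μ true y * L x y * (h x y *
      ((∏ v ∈ univ.filter (fun v => t v = false), c v x) ^ (1 / (Fintype.card J : ℝ)) *
      (∏ v ∈ univ.filter (fun v => t v = true), c v y) ^ (1 / (Fintype.card J : ℝ))))) ^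
        Fintype.card J ≤
    (∑ y : VK → U, (∏ k, μ (t k) (y k) * c k (y k)) *
      ((∏ e ∈ E, L (y e.1) (y e.2)) * ∏ j, h (y (φ j).1) (y (φ j).2))) *
      ((∑ x, μ false x) ^ (E.card - sideCard t false) *
        (∑ x, μ true x) ^ (E.card - sideCard t true) *
        (∑ x, ∑ y, μ false x * μ true y * L x y) ^ (Fintype.card J - E.card)) := by
  classical
  have hE : 0 < E.card := lt_of_le_of_lt (Nat.zero_le _) (hlt true)
  obtain ⟨r1, r2, -⟩ := ratio_facts (hpos false) (hlt false)
  obtain ⟨s1, s2, -⟩ := ratio_facts (hpos true) (hlt true)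
  set N := Fintype.card J with hNdef
  have hNpos : 0 < N := lt_of_lt_of_le hE hN
  set D : Bool → U → ℝ := fun b x =>
    (∏ v ∈ univ.filter (fun v => t v = b), c v x) ^ (1 / (N : ℝ)) with hD
  have hD0 : ∀ b x, 0 < D b x := fun b x =>
    Real.rpow_pos_of_pos (Finset.prod_pos fun v _ => hc v x) _
  change (∑ x, ∑ y, μ false x * μ true y * L x y * (h x y * (D false x * D true y))) ^ N ≤ _
  set Z : Bool → ℝ := fun b => ∑ x, μ b x with hZ
  set M : ℝ := ∑ x, ∑ y, μ false x * μ true y * L x y with hM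
  set T : ℝ := ∑ y : VK → U, (∏ k, μ (t k) (y k) * c k (y k)) *
      ((∏ e ∈ E, L (y e.1) (y e.2)) * ∏ j, h (y (φ j).1) (y (φ j).2)) with hT
  change _ ≤ T * (Z false ^ (E.card - sideCard t false) * Z true ^ (E.card - sideCard t true) *
    M ^ (N - E.card))
  have hZ0 : ∀ b, 0 ≤ Z b := fun b => Finset.sum_nonneg fun x _ => hμ b x
  have hM0 : 0 ≤ M := Finset.sum_nonneg fun x _ => Finset.sum_nonneg fun y _ =>
    mul_nonneg (mul_nonneg (hμ _ _) (hμ _ _)) (hL _ _)
  have hT0 : 0 ≤ T := Finset.sum_nonneg fun y _ => mul_nonneg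
    (Finset.prod_nonneg fun k _ => mul_nonneg (hμ _ _) (hc _ _).le)
    (mul_nonneg (Finset.prod_nonneg fun e _ => hL _ _) (Finset.prod_nonneg fun j _ => hh _ _))
  rcases hM0.eq_or_lt with h0 | hMpos
  · have hterm : ∀ x y, μ false x * μ true y * L x y = 0 := by
      intro x y
      have h1 := (Finset.sum_eq_zero_iff_of_nonneg fun x _ => Finset.sum_nonneg fun y _ =>
        mul_nonneg (mul_nonneg (hμ false x) (hμ true y)) (hL x y)).1 h0.symm x (mem_univ _)
      exact (Finset.sum_eq_zero_iff_of_nonneg fun y _ =>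
        mul_nonneg (mul_nonneg (hμ false x) (hμ true y)) (hL x y)).1 h1 y (mem_univ _)
    have hS : ∑ x, ∑ y, μ false x * μ true y * L x y * (h x y * (D false x * D true y)) = 0 :=
      Finset.sum_eq_zero fun x _ => Finset.sum_eq_zero fun y _ => by rw [hterm, zero_mul]
    rw [hS, zero_pow hNpos.ne']
    exact mul_nonneg hT0 (mul_nonneg (mul_nonneg (pow_nonneg (hZ0 _) _) (pow_nonneg (hZ0 _) _))
      (pow_nonneg hM0 _))
  have hZpos : ∀ b, 0 < Z b := by
    intro b
    refine lt_of_le_of_ne (hZ0 b) fun h0 => ?_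
    have h1 : ∀ x, μ b x = 0 := fun x =>
      (Finset.sum_eq_zero_iff_of_nonneg fun x _ => hμ b x).1 h0.symm x (mem_univ _)
    have h2 : M = 0 := by
      refine Finset.sum_eq_zero fun x _ => Finset.sum_eq_zero fun y _ => ?_
      cases b
      · rw [h1, zero_mul, zero_mul]
      · rw [h1, mul_zero, zero_mul]
    exact hMpos.ne' h2
  set κ : ℝ := M / (Z false * Z true) with hκ
  have hκpos : 0 < κ := div_pos hMpos (mul_pos (hZpos _) (hZpos _))
  set m' : Bool → U → ℝ := fun b x => μ b x / Z b with hm'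
  set L' : U → U → ℝ := fun x y => L x y / κ with hL'
  have hm'0 : ∀ b x, 0 ≤ m' b x := fun b x => div_nonneg (hμ _ _) (hZ0 _)
  have hm'1 : ∀ b, ∑ x, m' b x = 1 := by
    intro b
    simp only [hm']
    rw [← Finset.sum_div]
    exact div_self (hZpos b).ne'
  have hL'0 : ∀ x y, 0 ≤ L' x y := fun x y => div_nonneg (hL _ _) hκpos.le
  have hterm : ∀ x y, m' false x * m' true y * L' x y = μ false x * μ true y * L x y / M := by
    intro x y
    have z0 := (hZpos false).ne'
    have z1 := (hZpos true).ne'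
    simp only [hm', hL', hκ]
    field_simp
  have hk : kmean m' L' = 1 := by
    unfold kmean
    simp_rw [hterm, ← Finset.sum_div]
    exact div_self hMpos.ne'
  have hmain := attK hg hK r1 s1 r2 s2 hE hm'0 hm'1 hL'0 hk hφ hN hh hc
  change (∑ x, ∑ y, m' false x * m' true y * L' x y * (h x y * (D false x * D true y))) ^ N ≤ _
    at hmain
  have e1 : ∑ x, ∑ y, m' false x * m' true y * L' x y * (h x y * (D false x * D true y)) =
      (∑ x, ∑ y, μ false x * μ true y * L x y * (h x y * (D false x * D true y))) / M := by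
    rw [Finset.sum_div]
    refine Finset.sum_congr rfl fun x _ => ?_
    rw [Finset.sum_div]
    refine Finset.sum_congr rfl fun y _ => ?_
    rw [hterm]
    ring
  have hZprod : ∏ k, Z (t k) = Z false ^ sideCard t false * Z true ^ sideCard t true := by
    have h1 : ∀ k, Z (t k) = (if t k = false then Z false else 1) *
        (if t k = true then Z true else 1) := by
      intro k
      cases t k <;> simp
    simp_rw [h1]
    rw [Finset.prod_mul_distrib, ← Finset.prod_filter, ← Finset.prod_filter, Finset.prod_const,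
      Finset.prod_const]
    rfl
  have e2 : ∑ y : VK → U, (∏ k, m' (t k) (y k) * c k (y k)) *
      ((∏ e ∈ E, L' (y e.1) (y e.2)) * ∏ j, h (y (φ j).1) (y (φ j).2)) =
      T / (Z false ^ sideCard t false * Z true ^ sideCard t true * κ ^ E.card) := by
    rw [hT, Finset.sum_div]
    refine Finset.sum_congr rfl fun y _ => ?_
    have h1 : ∏ k, m' (t k) (y k) * c k (y k) = (∏ k, μ (t k) (y k) * c k (y k)) /
        ∏ k, Z (t k) := by
      rw [← Finset.prod_div_distrib]
      refine Finset.prod_congr rfl fun k _ => ?_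
      simp only [hm']
      ring
    have h2 : ∏ e ∈ E, L' (y e.1) (y e.2) = (∏ e ∈ E, L (y e.1) (y e.2)) / κ ^ E.card := by
      simp only [hL']
      rw [Finset.prod_div_distrib, Finset.prod_const]
    rw [h1, h2, hZprod]
    ring
  rw [e1, e2, div_pow] at hmain
  have z0 := (hZpos false)
  have z1 := (hZpos true)
  rw [div_le_iff₀ (pow_pos hMpos _)] at hmain
  refine hmain.trans (le_of_eq ?_)
  have p0 : Z false ^ E.card = Z false ^ (E.card - sideCard t false) *
      Z false ^ sideCard t false := by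
    rw [← pow_add, Nat.sub_add_cancel (hlt false).le]
  have p1 : Z true ^ E.card = Z true ^ (E.card - sideCard t true) *
      Z true ^ sideCard t true := by
    rw [← pow_add, Nat.sub_add_cancel (hlt true).le]
  have p2 : M ^ N = M ^ (N - E.card) * M ^ E.card := by
    rw [← pow_add, Nat.sub_add_cancel hN]
  have p3 : κ ^ E.card = M ^ E.card / (Z false ^ E.card * Z true ^ E.card) := by
    rw [hκ, div_pow, mul_pow]
  rw [p3, p0, p1, p2]
  have q0 := pow_pos z0 (sideCard t false)
  have q1 := pow_pos z1 (sideCard t true)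
  have q2 := pow_pos hMpos E.card
  have q3 := pow_pos z0 (E.card - sideCard t false)
  have q4 := pow_pos z1 (E.card - sideCard t true)
  field_simp

end Vale.Agent.P050.H177
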