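import Vale.Agent.P050.H177.Att10

/-!
Attachments with roots joined to one side of `K`: the main inequality in doubly stochastic kernels.
-/

namespace Vale.Agent.P050.H177

open Finset Vale.Agent.P050 Vale.Agent.P050.Lev Vale.Agent.P050.Cart

theorem amgm_nat {ι : Type} (s : Finset ι) (n : ι → ℕ) (z : ι → ℝ) (hz : ∀ i ∈ s, 0 ≤ z i)
    {N : ℕ} (hN : ∑ i ∈ s, n i = N) (hn : 0 < N) {Y : ℝ} (hY : 0 ≤ Y)
    (h : Y ^ N ≤ ∏ i ∈ s, z i ^ n i) : N * Y ≤ ∑ i ∈ s, n i * z i := by
  have hNr : (0 : ℝ) < N := by exact_mod_cast hn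
  have hsum : ∑ i ∈ s, (n i : ℝ) = N := by exact_mod_cast hN
  have h1 := Real.geom_mean_le_arith_mean s (fun i => (n i : ℝ)) z
    (fun i _ => Nat.cast_nonneg _) (by rw [hsum]; exact hNr) hz
  rw [hsum] at h1
  have h2 : ∏ i ∈ s, z i ^ (n i : ℝ) = ∏ i ∈ s, z i ^ n i :=
    Finset.prod_congr rfl fun i _ => Real.rpow_natCast _ _
  rw [h2] at h1
  have h3 : Y ≤ (∏ i ∈ s, z i ^ n i) ^ ((N : ℝ)⁻¹) := by
    calc Y = (Y ^ N) ^ ((N : ℝ)⁻¹) := (Real.pow_rpow_inv_natCast hY hn.ne').symm
      _ ≤ _ := Real.rpow_le_rpow (pow_nonneg hY _) h (inv_nonneg.2 hNr.le)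
  have h4 := h3.trans h1
  rw [le_div_iff₀ hNr] at h4
  linarith

/-- the mean inequality used for the roots -/
theorem amgm_step {N n1 n2 n3 n4 : ℕ} (hN : 1 + n1 + n2 + n3 + n4 = N) {Y T M Z Z' : ℝ}
    (hY : 0 ≤ Y) (hT : 0 ≤ T) (hM : 0 ≤ M) (hZ : 0 ≤ Z) (hZ' : 0 ≤ Z')
    (h : Y ^ N ≤ T * (M ^ n1 * Z ^ n2 * Z' ^ n3)) :
    N * Y ≤ T + n1 * M + n2 * Z + n3 * Z' + n4 := by
  have h1 := amgm_nat (univ : Finset (Fin 5)) ![1, n1, n2, n3, n4] ![T, M, Z, Z', 1]
    (by
      intro i _
      fin_cases i <;> simp <;> assumption) (N := N)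
    (by
      simp only [Fin.sum_univ_five]
      simp only [Matrix.cons_val]
      exact hN) (by omega) hY
    (by
      simp only [Fin.prod_univ_five]
      simp only [Matrix.cons_val]
      simpa [mul_assoc] using h)
  simp only [Fin.sum_univ_five] at h1
  simp only [Matrix.cons_val] at h1
  simpa using h1

section main

variable {A P VK J U : Type} [Fintype A] [Fintype P] [Fintype VK] [Fintype J]
  [DecidableEq A] [DecidableEq P] [DecidableEq VK] [DecidableEq J] [Fintype U]
  {F : SimpleGraph (A ⊕ (Bool ⊕ P))} {K : SimpleGraph VK} {φ : J → VK × VK}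
  {s : A ⊕ (Bool ⊕ P) → Bool} {t : VK → Bool} {m : Bool → U → ℝ} {W : U → U → ℝ}

theorem sum_pull (β : Bool → Bool) (b : Bool) (f : VK → ℝ) :
    ∑ b' ∈ univ.filter (fun b' => β b' = b), ∑ k ∈ univ.filter (fun k => t k = b'), f k =
      ∑ k ∈ univ.filter (fun k => β (t k) = b), f k := by
  rw [← Finset.sum_fiberwise_of_maps_to (s := univ.filter (fun k => β (t k) = b))
    (t := univ.filter (fun b' => β b' = b)) (g := t) (fun k hk => by
      rw [Finset.mem_filter] at hk ⊢
      exact ⟨mem_univ _, hk.2⟩)]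
  refine Finset.sum_congr rfl fun b' hb' => ?_
  refine Finset.sum_congr ?_ fun _ _ => rfl
  ext k
  simp only [Finset.mem_filter, Finset.mem_univ, true_and] at hb' ⊢
  constructor
  · intro h
    exact ⟨by rw [h]; exact hb', h⟩
  · exact fun h => h.2

/-- the main inequality -/
theorem join_core (hF : GSid F s) (hK : GSid K t)
    (hKlt : ∀ b, Nat.card {v // t v = b} < Nat.card K.edgeSet)
    (hs : F.Adj (Sum.inr (Sum.inl false)) (Sum.inr (Sum.inl true)) →
      ∀ b, s (Sum.inr (Sum.inl b)) = b)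
    (hfor : (F.comap (Sum.map id Sum.inl : A ⊕ Bool → A ⊕ (Bool ⊕ P))).IsAcyclic)
    (hφ : ∀ j, K.Adj (φ j).1 (φ j).2 ∧ t (φ j).1 = false)
    (hN : Nat.card K.edgeSet ≤ Nat.card J)
    (hm : ∀ b x, 0 ≤ m b x) (hm1 : ∀ b, ∑ x, m b x = 1)
    (hW : ∀ x y, 0 ≤ W x y) (hrow : ∀ x, ∑ y, m true y * W x y = 1)
    (hcol : ∀ y, ∑ x, m false x * W x y = 1)
    {cA : A → U → ℝ} {cK : VK → U → ℝ} {cP : P → U → ℝ} (hcA : ∀ a x, 0 < cA a x)
    (hcK : ∀ a x, 0 < cK a x) (hcP : ∀ a x, 0 < cP a x)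
    (hbal : ∀ b x, ∑ a ∈ univ.filter (fun a => s (Sum.inl a) = b), Real.log (cA a x) +
      ∑ k ∈ univ.filter (fun k => s (Sum.inr (Sum.inl (t k))) = b), Real.log (cK k x) +
      Nat.card J *
      ∑ p ∈ univ.filter (fun p => s (Sum.inr (Sum.inr p)) = b), Real.log (cP p x) = 0)
    (c : A ⊕ (VK ⊕ (J × P)) → U → ℝ) (c1 : ∀ a, c (Sum.inl a) = cA a)
    (c2 : ∀ k, c (Sum.inr (Sum.inl k)) = cK k) (c3 : ∀ q, c (Sum.inr (Sum.inr q)) = cP q.2) :
    1 ≤ ∑ z : A ⊕ (VK ⊕ (J × P)) → U, (∏ v, m (joinSide s t v) (z v) * c v (z v)) *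
      ∏ e ∈ sideEdges (joins F K t φ) (joinSide s t), W (z e.1) (z e.2) := by
  classical
  have hφ' : ∀ j, t (φ j).1 = false ∧ t (φ j).2 = true := by
    intro j
    refine ⟨(hφ j).2, ?_⟩
    have h1 := hK.1 _ _ (hφ j).1
    rw [(hφ j).2] at h1
    cases h2 : t (φ j).2
    · exact absurd h2.symm h1
    · rfl
  have hφE : ∀ j, φ j ∈ sideEdges K t := by
    intro j
    unfold sideEdges
    rw [Finset.mem_filter]
    exact ⟨mem_univ _, (hφ j).1, hφ' j⟩
  rw [Nat.card_eq_fintype_card (α := J)] at hN hbal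
  set N := Fintype.card J with hNdef
  have hE : 0 < (sideEdges K t).card := by
    rw [card_sideEdges K t hK.1]
    exact lt_of_le_of_lt (Nat.zero_le _) (hKlt true)
  rw [← card_sideEdges K t hK.1] at hKlt hN
  set E := (sideEdges K t).card with hEdef
  have hpos : ∀ b, 0 < sideCard t b := fun b => side_pos hK.1 b hE
  have hlt : ∀ b, sideCard t b < E := fun b => by rw [sideCard_eq]; exact hKlt b
  have hNpos : 0 < N := lt_of_lt_of_le hE hN
  have hNr : (0 : ℝ) < N := by exact_mod_cast hNpos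
  rw [dens_H' hs hφ' cA cK cP c c1 c2 c3]
  set D : Bool → U → ℝ := fun b x =>
    (∏ v ∈ univ.filter (fun v => t v = b), cK v x) ^ (1 / (N : ℝ)) with hD
  have hD0 : ∀ b x, 0 < D b x := fun b x =>
    Real.rpow_pos_of_pos (Finset.prod_pos fun v _ => hcK v x) _
  set lam : (A → U) → ℝ := fun r => (∏ a, m (s (Sum.inl a)) (r a)) * rootProd F s W r with hlam
  have hlam0 : ∀ r, 0 ≤ lam r := fun r =>
    mul_nonneg (Finset.prod_nonneg fun a _ => hm _ _) (pprod_nonneg hW _)
  set μ : (A → U) → Bool → U → ℝ := fun r b x =>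
    m (s (Sum.inr (Sum.inl b))) x * alph F s W r b x with hμdef
  have hμ : ∀ r b x, 0 ≤ μ r b x := fun r b x => mul_nonneg (hm _ _) (alph_nonneg hW _ _ _)
  set X : (A → U) → ℝ := fun r => ∑ x, ∑ y, μ r false x * μ r true y * markW F W x y *
    (hfun F s m W cP r x y * (D false x * D true y)) with hX
  have hX0 : ∀ r, 0 ≤ X r := fun r => Finset.sum_nonneg fun x _ => Finset.sum_nonneg fun y _ =>
    mul_nonneg (mul_nonneg (mul_nonneg (hμ _ _ _) (hμ _ _ _)) (markW_nonneg hW _ _))
      (mul_nonneg (hfun_nonneg hm hW hcP _ _ _) (mul_nonneg (hD0 _ _).le (hD0 _ _).le))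
  set T : (A → U) → ℝ := fun r => ∑ y : VK → U, (∏ k, μ r (t k) (y k) * cK k (y k)) *
      ((∏ e ∈ sideEdges K t, markW F W (y e.1) (y e.2)) *
        ∏ j, hfun F s m W cP r (y (φ j).1) (y (φ j).2)) with hT
  have hT0 : ∀ r, 0 ≤ T r := fun r => Finset.sum_nonneg fun y _ => mul_nonneg
    (Finset.prod_nonneg fun k _ => mul_nonneg (hμ _ _ _) (hcK _ _).le)
    (mul_nonneg (Finset.prod_nonneg fun e _ => markW_nonneg hW _ _)
      (Finset.prod_nonneg fun j _ => hfun_nonneg hm hW hcP _ _ _))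
  set Z : (A → U) → Bool → ℝ := fun r b => ∑ x, μ r b x with hZ
  set M : (A → U) → ℝ := fun r => ∑ x, ∑ y, μ r false x * μ r true y * markW F W x y with hM
  have hZ0 : ∀ r b, 0 ≤ Z r b := fun r b => Finset.sum_nonneg fun x _ => hμ r b x
  have hM0 : ∀ r, 0 ≤ M r := fun r => Finset.sum_nonneg fun x _ => Finset.sum_nonneg fun y _ =>
    mul_nonneg (mul_nonneg (hμ _ _ _) (hμ _ _ _)) (markW_nonneg hW _ _)
  have hKstep : ∀ r, X r ^ N ≤ T r * (Z r false ^ (E - sideCard t false) *
      Z r true ^ (E - sideCard t true) * M r ^ (N - E)) := fun r =>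
    attKm (edeg_graph hK.1) hK.2 hlt hpos (hμ r) (markW_nonneg hW) hφE hN
      (fun x y => hfun_nonneg hm hW hcP r x y) hcK
  have hcA0 : ∀ r : A → U, 0 < ∏ a, cA a (r a) := fun r => Finset.prod_pos fun a _ => hcA _ _
  set Y : (A → U) → ℝ := fun r => (∏ a, cA a (r a)) ^ (1 / (N : ℝ)) * X r with hY
  have hY0 : ∀ r, 0 ≤ Y r := fun r => mul_nonneg (Real.rpow_nonneg (hcA0 r).le _) (hX0 r)
  have hYN : ∀ r, Y r ^ N = (∏ a, cA a (r a)) * X r ^ N := by
    intro r
    simp only [hY]
    rw [mul_pow, ← Real.rpow_natCast (_ ^ (1 / (N : ℝ))), ← Real.rpow_mul (hcA0 r).le,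
      one_div_mul_cancel hNr.ne', Real.rpow_one]
  -- the forests
  have fM : ∑ r, lam r * M r = 1 := by
    rw [← frame_dens (F := F) (s := s) (m := m) (W := W) (fun _ => True)
      (F.Adj (Sum.inr (Sum.inl false)) (Sum.inr (Sum.inl true))) hF.1 id hs hfor hm1 hrow hcol]
    refine Finset.sum_congr rfl fun r _ => ?_
    congr 1
    refine Finset.sum_congr rfl fun x _ => Finset.sum_congr rfl fun y _ => ?_
    simp only [hμdef, markW, if_true]
    ring
  have fZZ : ∑ r, lam r * (Z r false * Z r true) = 1 := by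
    rw [← frame_dens (F := F) (s := s) (m := m) (W := W) (fun _ => True)
      False hF.1 False.elim hs hfor hm1 hrow hcol]
    refine Finset.sum_congr rfl fun r _ => ?_
    congr 1
    simp only [hZ]
    rw [Finset.sum_mul]
    refine Finset.sum_congr rfl fun x _ => ?_
    rw [Finset.mul_sum]
    refine Finset.sum_congr rfl fun y _ => ?_
    simp only [hμdef, if_true, if_false]
    ring
  have fZ0 : ∑ r, lam r * Z r false = 1 := by
    rw [← frame_dens (F := F) (s := s) (m := m) (W := W) (fun b => b = false)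
      False hF.1 False.elim hs hfor hm1 hrow hcol]
    refine Finset.sum_congr rfl fun r _ => ?_
    congr 1
    refine Finset.sum_congr rfl fun x _ => ?_
    symm
    calc _ = ∑ y, μ r false x * m (s (Sum.inr (Sum.inl true))) y := by
          refine Finset.sum_congr rfl fun y _ => ?_
          rw [if_pos rfl, if_neg (by decide), if_neg not_false]
          simp only [hμdef]
          ring
      _ = _ := by rw [← Finset.mul_sum, hm1, mul_one]
  have fZ1 : ∑ r, lam r * Z r true = 1 := by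
    rw [← frame_dens (F := F) (s := s) (m := m) (W := W) (fun b => b = true)
      False hF.1 False.elim hs hfor hm1 hrow hcol]
    refine Finset.sum_congr rfl fun r _ => ?_
    congr 1
    rw [Finset.sum_comm]
    refine Finset.sum_congr rfl fun y _ => ?_
    symm
    calc _ = ∑ x, m (s (Sum.inr (Sum.inl false))) x * μ r true y := by
          refine Finset.sum_congr rfl fun x _ => ?_
          rw [if_neg (by decide), if_pos rfl, if_neg not_false]
          simp only [hμdef]
          ring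
      _ = _ := by rw [← Finset.sum_mul, hm1, one_mul]
  have f1 : ∑ r, lam r = 1 := by
    rw [← frame_dens (F := F) (s := s) (m := m) (W := W) (fun _ => False)
      False hF.1 False.elim hs hfor hm1 hrow hcol]
    refine Finset.sum_congr rfl fun r _ => ?_
    simp only [hlam, if_false, mul_one]
    simp_rw [← Finset.mul_sum]
    rw [hm1]
    simp only [mul_one]
    rw [hm1, mul_one]
  -- the density of `F`
  set cA' : A → U → ℝ := fun a x => cA a x ^ (1 / (N : ℝ)) with hcA'
  have hFd : ∑ r, lam r * Y r = ∑ z : A ⊕ (Bool ⊕ P) → U,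
      (∏ v, m (s v) (z v) * (Sum.elim cA' (Sum.elim D cP) : A ⊕ (Bool ⊕ P) → U → ℝ) v (z v)) *
        ∏ e ∈ sideEdges F s, W (z e.1) (z e.2) := by
    rw [dens_F' hs cA' D cP (Sum.elim cA' (Sum.elim D cP)) (fun _ => rfl) (fun _ => rfl)
      (fun _ => rfl)]
    refine Finset.sum_congr rfl fun r _ => ?_
    simp only [hlam, hY, hX, hcA', hμdef]
    rw [Real.finsetProd_rpow univ (fun a => cA a (r a)) fun a _ => (hcA _ _).le]
  have hlogD : ∀ b x, Real.log (D b x) = (1 / (N : ℝ)) *
      ∑ k ∈ univ.filter (fun k => t k = b), Real.log (cK k x) := by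
    intro b x
    simp only [hD]
    rw [Real.log_rpow (Finset.prod_pos fun v _ => hcK v x), Real.log_prod
      fun v _ => (hcK v x).ne']
  have hone : 1 ≤ ∑ r, lam r * Y r := by
    rw [hFd]
    refine one_le_wdens hF.2 hm hm1 hW hrow hcol ?_ ?_
    · rintro (a | b | p) x
      · exact Real.rpow_pos_of_pos (hcA _ _) _
      · exact hD0 _ _
      · exact hcP _ _
    · intro b x
      rw [sum_filter_sum, sum_filter_sum fun v => s (Sum.inr v)]
      have e1 : ∑ a ∈ univ.filter (fun a => s (Sum.inl a) = b),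
          Real.log ((Sum.elim cA' (Sum.elim D cP) : A ⊕ (Bool ⊕ P) → U → ℝ) (Sum.inl a) x) =
          (1 / (N : ℝ)) * ∑ a ∈ univ.filter (fun a => s (Sum.inl a) = b), Real.log (cA a x) := by
        rw [Finset.mul_sum]
        refine Finset.sum_congr rfl fun a _ => ?_
        simp only [Sum.elim_inl, hcA']
        rw [Real.log_rpow (hcA _ _)]
      have e2 : ∑ d ∈ univ.filter (fun d : Bool => s (Sum.inr (Sum.inl d)) = b),
          Real.log ((Sum.elim cA' (Sum.elim D cP) : A ⊕ (Bool ⊕ P) → U → ℝ)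
            (Sum.inr (Sum.inl d)) x) = (1 / (N : ℝ)) *
          ∑ k ∈ univ.filter (fun k => s (Sum.inr (Sum.inl (t k))) = b), Real.log (cK k x) := by
        rw [← sum_pull (t := t) (fun d => s (Sum.inr (Sum.inl d))) b, Finset.mul_sum]
        exact Finset.sum_congr rfl fun d _ => hlogD d x
      have e3 : ∑ p ∈ univ.filter (fun p : P => s (Sum.inr (Sum.inr p)) = b),
          Real.log ((Sum.elim cA' (Sum.elim D cP) : A ⊕ (Bool ⊕ P) → U → ℝ)
            (Sum.inr (Sum.inr p)) x) =
          ∑ p ∈ univ.filter (fun p : P => s (Sum.inr (Sum.inr p)) = b), Real.log (cP p x) := rfl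
      rw [e1, e2, e3]
      have hb := hbal b x
      have h4 : (N : ℝ)⁻¹ * (∑ a ∈ univ.filter (fun a => s (Sum.inl a) = b), Real.log (cA a x) +
        ∑ k ∈ univ.filter (fun k => s (Sum.inr (Sum.inl (t k))) = b), Real.log (cK k x) + N *
        ∑ p ∈ univ.filter (fun p => s (Sum.inr (Sum.inr p)) = b), Real.log (cP p x)) = 0 := by
        rw [hb, mul_zero]
      rw [mul_add, mul_add, inv_mul_cancel_left₀ hNr.ne'] at h4
      rw [one_div]
      linarith
  -- the mean inequality
  change 1 ≤ ∑ r, lam r * ((∏ a, cA a (r a)) * T r)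
  have hcT0 : ∀ r, 0 ≤ (∏ a, cA a (r a)) * T r := fun r => mul_nonneg (hcA0 r).le (hT0 r)
  have hYle : ∀ r, Y r ^ N ≤ ((∏ a, cA a (r a)) * T r) * (Z r false ^ (E - sideCard t false) *
      Z r true ^ (E - sideCard t true) * M r ^ (N - E)) := by
    intro r
    rw [hYN, mul_assoc]
    exact mul_le_mul_of_nonneg_left (hKstep r) (hcA0 r).le
  -- one of the two sides of `K` is the smaller one
  have hfin : ∀ b, sideCard t b ≤ sideCard t (!b) → ∑ r, lam r * Z r b = 1 →
      1 ≤ ∑ r, lam r * ((∏ a, cA a (r a)) * T r) := by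
    intro b hb hZb
    have h1 : ∀ r, (N : ℝ) * Y r ≤ (∏ a, cA a (r a)) * T r + ((N - E : ℕ) : ℝ) * M r +
        ((E - sideCard t (!b) : ℕ) : ℝ) * (Z r false * Z r true) +
        ((sideCard t (!b) - sideCard t b : ℕ) : ℝ) * Z r b + ((sideCard t b - 1 : ℕ) : ℝ) := by
      intro r
      refine amgm_step ?_ (hY0 r) (hcT0 r) (hM0 r) (mul_nonneg (hZ0 _ _) (hZ0 _ _)) (hZ0 _ _) ?_
      · have g1 := hlt (!b)
        have g2 := hpos b
        omega
      · refine (hYle r).trans (le_of_eq ?_)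
        congr 1
        have g1 := hlt (!b)
        cases b
        · simp only [Bool.not_false] at hb g1 ⊢
          rw [show E - sideCard t false = (E - sideCard t true) +
            (sideCard t true - sideCard t false) by omega, pow_add, mul_pow]
          ring
        · simp only [Bool.not_true] at hb g1 ⊢
          rw [show E - sideCard t true = (E - sideCard t false) +
            (sideCard t false - sideCard t true) by omega, pow_add, mul_pow]
          ring
    have h2 : (N : ℝ) * ∑ r, lam r * Y r ≤ ∑ r, lam r * ((∏ a, cA a (r a)) * T r) +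
        ((N - E : ℕ) : ℝ) + ((E - sideCard t (!b) : ℕ) : ℝ) +
        ((sideCard t (!b) - sideCard t b : ℕ) : ℝ) + ((sideCard t b - 1 : ℕ) : ℝ) := by
      calc (N : ℝ) * ∑ r, lam r * Y r = ∑ r, lam r * (N * Y r) := by
            rw [Finset.mul_sum]
            exact Finset.sum_congr rfl fun r _ => by ring
        _ ≤ ∑ r, lam r * ((∏ a, cA a (r a)) * T r + ((N - E : ℕ) : ℝ) * M r +
            ((E - sideCard t (!b) : ℕ) : ℝ) * (Z r false * Z r true) +
            ((sideCard t (!b) - sideCard t b : ℕ) : ℝ) * Z r b +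
            ((sideCard t b - 1 : ℕ) : ℝ)) :=
            Finset.sum_le_sum fun r _ => mul_le_mul_of_nonneg_left (h1 r) (hlam0 r)
        _ = ∑ r, lam r * ((∏ a, cA a (r a)) * T r) +
            ((N - E : ℕ) : ℝ) * (∑ r, lam r * M r) +
            ((E - sideCard t (!b) : ℕ) : ℝ) * (∑ r, lam r * (Z r false * Z r true)) +
            ((sideCard t (!b) - sideCard t b : ℕ) : ℝ) * (∑ r, lam r * Z r b) +
            ((sideCard t b - 1 : ℕ) : ℝ) * ∑ r, lam r := by
            rw [Finset.mul_sum, Finset.mul_sum, Finset.mul_sum, Finset.mul_sum,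
              ← Finset.sum_add_distrib, ← Finset.sum_add_distrib, ← Finset.sum_add_distrib,
              ← Finset.sum_add_distrib]
            exact Finset.sum_congr rfl fun r _ => by ring
        _ = _ := by
            rw [fM, fZZ, hZb, f1]
            ring
    have g1 := hlt (!b)
    have g2 := hpos b
    have h3 : ((N - E : ℕ) : ℝ) + ((E - sideCard t (!b) : ℕ) : ℝ) +
        ((sideCard t (!b) - sideCard t b : ℕ) : ℝ) + ((sideCard t b - 1 : ℕ) : ℝ) + 1 = N := by
      have h5 : (N - E) + (E - sideCard t (!b)) + (sideCard t (!b) - sideCard t b) +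
          (sideCard t b - 1) + 1 = N := by omega
      exact_mod_cast h5
    have h4 : (N : ℝ) ≤ N * ∑ r, lam r * Y r := le_mul_of_one_le_right hNr.le hone
    linarith
  rcases le_total (sideCard t false) (sideCard t true) with h | h
  · exact hfin false h fZ0
  · exact hfin true h fZ1

end main

end Vale.Agent.P050.H177
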