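import Vale.Agent.P050.H177.Att11

/-!
Attachments with roots joined to one side of `K`: the theorem.
-/

namespace Vale.Agent.P050.H177

open Finset Vale.Agent.P050 Vale.Agent.P050.Lev Vale.Agent.P050.Cart

section main

variable {A P VK J : Type} {F : SimpleGraph (A ⊕ (Bool ⊕ P))} {K : SimpleGraph VK}
  {φ : J → VK × VK} {s : A ⊕ (Bool ⊕ P) → Bool} {t : VK → Bool}

theorem joins_proper (hF : ∀ u v, F.Adj u v → s u ≠ s v) (hK : ∀ u v, K.Adj u v → t u ≠ t v)
    (hs : F.Adj (Sum.inr (Sum.inl false)) (Sum.inr (Sum.inl true)) →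
      ∀ b, s (Sum.inr (Sum.inl b)) = b) (hφ : ∀ j, t (φ j).1 = false ∧ t (φ j).2 = true) :
    ∀ u v, (joins F K t φ).Adj u v → joinSide s t u ≠ joinSide s t v := by
  have h0 : ∀ (q : J × P) (k : VK), ((k = (φ q.1).1 ∧
      F.Adj (Sum.inr (Sum.inl false)) (Sum.inr (Sum.inr q.2))) ∨
        (k = (φ q.1).2 ∧ F.Adj (Sum.inr (Sum.inl true)) (Sum.inr (Sum.inr q.2)))) →
      s (Sum.inr (Sum.inl (t k))) ≠ s (Sum.inr (Sum.inr q.2)) := by
    intro q k h
    rcases h with ⟨rfl, h⟩ | ⟨rfl, h⟩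
    · rw [(hφ q.1).1]
      exact hF _ _ h
    · rw [(hφ q.1).2]
      exact hF _ _ h
  rintro (a | k | q) (b | l | q') h
  · exact hF _ _ h
  · exact hF _ _ h
  · exact hF _ _ h
  · exact (hF _ _ h).symm
  · change s (Sum.inr (Sum.inl (t k))) ≠ s (Sum.inr (Sum.inl (t l)))
    rw [hs h.1, hs h.1]
    exact hK _ _ h.2
  · exact h0 q' k h
  · exact (hF _ _ h).symm
  · exact (h0 q l h).symm
  · exact hF _ _ h.2

/-- the copy `j` of `F` is a subgraph -/
theorem copy_adj (hφ : ∀ j, t (φ j).1 = false ∧ t (φ j).2 = true)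
    (hφK : ∀ j, K.Adj (φ j).1 (φ j).2) (j : J) {v w : A ⊕ (Bool ⊕ P)} (h : F.Adj v w) :
    (joins F K t φ).Adj (copyMap φ j v) (copyMap φ j w) := by
  have key : ∀ a b, F.Adj (Sum.inl a) (Sum.inr (Sum.inl b)) →
      F.Adj (Sum.inl a) (Sum.inr (Sum.inl (t (if b = true then (φ j).2 else (φ j).1)))) := by
    intro a b h
    cases b
    · rw [if_neg (by decide), (hφ j).1]
      exact h
    · rw [if_pos rfl, (hφ j).2]
      exact h
  rcases v with a | b | p <;> rcases w with a' | b' | p'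
  · exact h
  · exact key a b' h
  · exact h
  · exact key a' b (F.symm.symm _ _ h)
  · cases b <;> cases b'
    · exact absurd h (F.loopless.irrefl _)
    · exact ⟨h, hφK j⟩
    · exact ⟨F.symm.symm _ _ h, K.symm.symm _ _ (hφK j)⟩
    · exact absurd h (F.loopless.irrefl _)
  · cases b
    · exact Or.inl ⟨rfl, h⟩
    · exact Or.inr ⟨rfl, h⟩
  · exact F.symm.symm _ _ h
  · cases b'
    · exact Or.inl ⟨rfl, F.symm.symm _ _ h⟩
    · exact Or.inr ⟨rfl, F.symm.symm _ _ h⟩
  · exact ⟨rfl, h⟩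

/-- the degree of a private vertex -/
theorem card_nbr' (hφ : ∀ j, t (φ j).1 = false ∧ t (φ j).2 = true)
    (hφK : ∀ j, K.Adj (φ j).1 (φ j).2) (j : J) (p : P) :
    Nat.card ((joins F K t φ).neighborSet (Sum.inr (Sum.inr (j, p)))) =
      Nat.card (F.neighborSet (Sum.inr (Sum.inr p))) := by
  have h : (joins F K t φ).neighborSet (Sum.inr (Sum.inr (j, p))) =
      copyMap φ j '' F.neighborSet (Sum.inr (Sum.inr p)) := by
    ext v
    rw [SimpleGraph.mem_neighborSet, Set.mem_image]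
    constructor
    · intro h
      rcases v with a | k | ⟨j', p'⟩
      · exact ⟨Sum.inl a, F.symm.symm _ _ h, rfl⟩
      · rcases h with ⟨rfl, h⟩ | ⟨rfl, h⟩
        · exact ⟨Sum.inr (Sum.inl false), F.symm.symm _ _ h, rfl⟩
        · exact ⟨Sum.inr (Sum.inl true), F.symm.symm _ _ h, rfl⟩
      · obtain ⟨h1, h2⟩ := h
        simp only at h1
        subst h1
        exact ⟨Sum.inr (Sum.inr p'), h2, rfl⟩
    · rintro ⟨w, hw, rfl⟩
      exact copy_adj hφ hφK j hw
  rw [h]
  exact Nat.card_image_of_injective (copyMap_injective hφ j) _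

variable [Fintype A] [Fintype P] [Fintype VK] [Fintype J]
  [DecidableEq A] [DecidableEq P] [DecidableEq VK] [DecidableEq J]

/-- **Attachments.** -/
theorem join_gsid (hF : GSid F s) (hK : GSid K t)
    (hKlt : ∀ b, Nat.card {v // t v = b} < Nat.card K.edgeSet)
    (hs : F.Adj (Sum.inr (Sum.inl false)) (Sum.inr (Sum.inl true)) →
      ∀ b, s (Sum.inr (Sum.inl b)) = b)
    (hfor : (F.comap (Sum.map id Sum.inl : A ⊕ Bool → A ⊕ (Bool ⊕ P))).IsAcyclic)
    (hφ : ∀ j, K.Adj (φ j).1 (φ j).2 ∧ t (φ j).1 = false)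
    (hN : Nat.card K.edgeSet ≤ Nat.card J)
    (hlt : ∀ b, Nat.card {v // joinSide (J := J) s t v = b} <
      Nat.card (joins F K t φ).edgeSet) :
    GSid (joins F K t φ) (joinSide s t) := by
  classical
  have hφ' : ∀ j, t (φ j).1 = false ∧ t (φ j).2 = true := by
    intro j
    refine ⟨(hφ j).2, ?_⟩
    have h1 := hK.1 _ _ (hφ j).1
    rw [(hφ j).2] at h1
    cases h2 : t (φ j).2
    · exact absurd h2.symm h1
    · rfl
  have h := joins_proper (F := F) (K := K) hF.1 hK.1 hs hφ'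
  refine ⟨h, ?_⟩
  have hE : 0 < (sideEdges (joins F K t φ) (joinSide s t)).card := by
    rw [card_sideEdges _ _ h]
    exact lt_of_le_of_lt (Nat.zero_le _) (hlt true)
  have p0 := side_pos h false hE
  have p1 := side_pos h true hE
  rw [← card_sideEdges _ _ h] at hlt
  obtain ⟨r1, r2, -⟩ := ratio_facts p0 (by rw [sideCard_eq]; exact hlt false)
  obtain ⟨s1, s2, -⟩ := ratio_facts p1 (by rw [sideCard_eq]; exact hlt true)
  refine (ksid_iff_pot (edeg_graph h) r1 s1 r2 s2 hE).2 ?_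
  intro U _ m W u hn hu
  obtain ⟨hm, hm1, hW, hrow, hcol, -⟩ := hn
  set r' : ℝ := ((sideEdges (joins F K t φ) (joinSide s t)).card : ℝ) /
    sideCard (joinSide (J := J) s t) false with hr'
  set s' : ℝ := ((sideEdges (joins F K t φ) (joinSide s t)).card : ℝ) /
    sideCard (joinSide (J := J) s t) true with hs'
  set c : A ⊕ (VK ⊕ (J × P)) → U → ℝ := fun v x => u (joinSide s t v) x ^
    ((if joinSide s t v then s' else r') - Nat.card ((joins F K t φ).neighborSet v)) with hc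
  have hcpos : ∀ v x, 0 < c v x := fun v x => Real.rpow_pos_of_pos (hu _ _) _
  set cP : P → U → ℝ := fun p x => u (s (Sum.inr (Sum.inr p))) x ^
    ((if s (Sum.inr (Sum.inr p)) then s' else r') -
      Nat.card (F.neighborSet (Sum.inr (Sum.inr p)))) with hcP
  have hcPpos : ∀ v x, 0 < cP v x := fun v x => Real.rpow_pos_of_pos (hu _ _) _
  have c3 : ∀ q : J × P, c (Sum.inr (Sum.inr q)) = cP q.2 := by
    rintro ⟨j, p⟩
    funext x
    simp only [hc, hcP]
    rw [card_nbr' hφ' (fun j => (hφ j).1) j p]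
    rfl
  have hbalH : ∀ b x, ∑ v ∈ univ.filter (fun v => joinSide (J := J) s t v = b),
      Real.log (c v x) = 0 := by
    intro b x
    have e1 : ∀ v ∈ univ.filter (fun v => joinSide (J := J) s t v = b), Real.log (c v x) =
        ((if b then s' else r') - Nat.card ((joins F K t φ).neighborSet v)) *
          Real.log (u b x) := by
      intro v hv
      have hv' := (Finset.mem_filter.1 hv).2
      simp only [hc]
      rw [Real.log_rpow (hu _ _), hv']
    rw [Finset.sum_congr rfl e1, ← Finset.sum_mul, (edeg_graph h).balance r2 s2 b, zero_mul]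
  have hbal : ∀ b x, ∑ a ∈ univ.filter (fun a => s (Sum.inl a) = b),
      Real.log (c (Sum.inl a) x) +
      ∑ k ∈ univ.filter (fun k => s (Sum.inr (Sum.inl (t k))) = b),
      Real.log (c (Sum.inr (Sum.inl k)) x) + Nat.card J *
      ∑ p ∈ univ.filter (fun p => s (Sum.inr (Sum.inr p)) = b), Real.log (cP p x) = 0 := by
    intro b x
    rw [← hbalH b x, sum_filter_sum, sum_filter_sum fun v => joinSide (J := J) s t (Sum.inr v),
      ← sum_JP (J := J) (fun p => s (Sum.inr (Sum.inr p))) b fun p => Real.log (cP p x),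
      add_assoc]
    congr 2
    refine Finset.sum_congr rfl fun q _ => ?_
    rw [c3]
  exact join_core hF hK hKlt hs hfor hφ hN hm hm1 hW hrow hcol
    (cA := fun a => c (Sum.inl a)) (cK := fun k => c (Sum.inr (Sum.inl k)))
    (fun a x => hcpos _ _) (fun a x => hcpos _ _) hcPpos hbal c (fun _ => rfl) (fun _ => rfl) c3

/-- **Attachments**, for graphs without isolated vertices. -/
theorem join_gsid' (hF : GSid F s) (hK : GSid K t) (hFiso : ∀ v, ∃ w, F.Adj v w)
    (hKiso : ∀ v, ∃ w, K.Adj v w)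
    (hKlt : ∀ b, Nat.card {v // t v = b} < Nat.card K.edgeSet)
    (hs : F.Adj (Sum.inr (Sum.inl false)) (Sum.inr (Sum.inl true)) →
      ∀ b, s (Sum.inr (Sum.inl b)) = b)
    (hfor : (F.comap (Sum.map id Sum.inl : A ⊕ Bool → A ⊕ (Bool ⊕ P))).IsAcyclic)
    (hφ : ∀ j, K.Adj (φ j).1 (φ j).2 ∧ t (φ j).1 = false)
    (hN : Nat.card K.edgeSet ≤ Nat.card J)
    (hor : F.Adj (Sum.inr (Sum.inl false)) (Sum.inr (Sum.inl true)) ∨
      ((∀ b, Nat.card {v // s v = b} < Nat.card F.edgeSet) ∧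
        ∀ k, ∃ j, (φ j).1 = k ∨ (φ j).2 = k)) :
    GSid (joins F K t φ) (joinSide s t) := by
  classical
  have hφ' : ∀ j, t (φ j).1 = false ∧ t (φ j).2 = true := by
    intro j
    refine ⟨(hφ j).2, ?_⟩
    have h1 := hK.1 _ _ (hφ j).1
    rw [(hφ j).2] at h1
    cases h2 : t (φ j).2
    · exact absurd h2.symm h1
    · rfl
  have hφK : ∀ j, K.Adj (φ j).1 (φ j).2 := fun j => (hφ j).1
  have h := joins_proper (F := F) (K := K) hF.1 hK.1 hs hφ'
  have hJ : Nonempty J := by
    have : 0 < Nat.card J := lt_of_lt_of_le (lt_of_le_of_lt (Nat.zero_le _) (hKlt true)) hN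
    exact (Nat.card_pos_iff.1 this).1
  obtain ⟨j₀⟩ := hJ
  -- no isolated vertices
  have hiso : ∀ v, ∃ w, (joins F K t φ).Adj v w := by
    rintro (a | k | ⟨j, p⟩)
    · obtain ⟨w, hw⟩ := hFiso (Sum.inl a)
      exact ⟨copyMap φ j₀ w, copy_adj hφ' hφK j₀ hw⟩
    · rcases hor with hz | ⟨-, hcov⟩
      · obtain ⟨l, hl⟩ := hKiso k
        exact ⟨Sum.inr (Sum.inl l), hz, hl⟩
      · obtain ⟨j, rfl | rfl⟩ := hcov k
        · obtain ⟨w, hw⟩ := hFiso (Sum.inr (Sum.inl false))
          exact ⟨copyMap φ j w, copy_adj hφ' hφK j hw⟩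
        · obtain ⟨w, hw⟩ := hFiso (Sum.inr (Sum.inl true))
          exact ⟨copyMap φ j w, copy_adj hφ' hφK j hw⟩
    · obtain ⟨w, hw⟩ := hFiso (Sum.inr (Sum.inr p))
      exact ⟨copyMap φ j w, copy_adj hφ' hφK j hw⟩
  refine join_gsid hF hK hKlt hs hfor hφ hN fun b => ?_
  rcases hor with hz | ⟨hFlt, -⟩
  · obtain ⟨k, hk, hk2⟩ := exists_deg_two hK.1 b (hKlt b)
    refine side_lt_edges h b hiso (v₀ := Sum.inr (Sum.inl k)) ?_ ?_
    · change s (Sum.inr (Sum.inl (t k))) = b
      rw [hs hz, hk]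
    · refine hk2.trans ?_
      refine Nat.card_le_card_of_injective
        (fun w : K.neighborSet k => (⟨Sum.inr (Sum.inl w.1), hz, w.2⟩ :
          (joins F K t φ).neighborSet (Sum.inr (Sum.inl k)))) ?_
      intro w w' hww
      have := congrArg Subtype.val hww
      simp only [Sum.inr.injEq, Sum.inl.injEq] at this
      exact Subtype.ext this
  · obtain ⟨v, hv, hv2⟩ := exists_deg_two hF.1 b (hFlt b)
    refine side_lt_edges h b hiso (v₀ := copyMap φ j₀ v) ?_ ?_
    · rw [← hv]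
      rcases v with a | b' | p
      · rfl
      · cases b'
        · change s (Sum.inr (Sum.inl (t (φ j₀).1))) = _
          rw [(hφ' j₀).1]
        · change s (Sum.inr (Sum.inl (t (φ j₀).2))) = _
          rw [(hφ' j₀).2]
      · rfl
    · refine hv2.trans ?_
      refine Nat.card_le_card_of_injective
        (fun w : F.neighborSet v => (⟨copyMap φ j₀ w.1, copy_adj hφ' hφK j₀ w.2⟩ :
          (joins F K t φ).neighborSet (copyMap φ j₀ v))) ?_
      intro w w' hww
      have := congrArg Subtype.val hww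
      exact Subtype.ext (copyMap_injective hφ' j₀ this)

end main

end Vale.Agent.P050.H177
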