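import Vale.Agent.P050.H177.Att12
import Vale.Agent.P050.H173.Kab
import Vale.Agent.P050.Tmpl.Head

/-!
Attachments: all bipartite base graphs.
-/

namespace Vale.Agent.P050.H177

open Finset Vale.Agent.P050 Vale.Agent.P050.Lev Vale.Agent.P050.Cart Vale.Agent.P050.H173
  Vale.Agent.P050.Tmpl

section main

variable {A P VK J : Type} {F : SimpleGraph (A ⊕ (Bool ⊕ P))} {B : SimpleGraph VK}
  {φ : J → VK × VK} {s : A ⊕ (Bool ⊕ P) → Bool} {t : VK → Bool}

/-- if the marked pair is not an edge, `joins` does not depend on the edges of the base graph -/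
theorem joins_congr (hz : ¬ F.Adj (Sum.inr (Sum.inl false)) (Sum.inr (Sum.inl true)))
    (K : SimpleGraph VK) : joins F B t φ = joins F K t φ := by
  ext v w
  rcases v with a | k | q <;> rcases w with a' | k' | q'
  · rfl
  · rfl
  · rfl
  · rfl
  · exact ⟨fun h => absurd h.1 hz, fun h => absurd h.1 hz⟩
  · rfl
  · rfl
  · rfl
  · rfl

variable [Fintype A] [Fintype P] [Fintype VK] [Fintype J]
  [DecidableEq A] [DecidableEq P] [DecidableEq VK] [DecidableEq J]

/-- **Attachments**, for graphs without isolated vertices, with any colours of the marked pair. -/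
theorem join_gsid_any {K : SimpleGraph VK} (hF : GSid F s) (hK : GSid K t)
    (hFiso : ∀ v, ∃ w, F.Adj v w) (hKiso : ∀ v, ∃ w, K.Adj v w)
    (hKlt : ∀ b, Nat.card {v // t v = b} < Nat.card K.edgeSet)
    (hfor : (F.comap (Sum.map id Sum.inl : A ⊕ Bool → A ⊕ (Bool ⊕ P))).IsAcyclic)
    (hφ : ∀ j, K.Adj (φ j).1 (φ j).2 ∧ t (φ j).1 = false)
    (hN : Nat.card K.edgeSet ≤ Nat.card J)
    (hor : F.Adj (Sum.inr (Sum.inl false)) (Sum.inr (Sum.inl true)) ∨
      ((∀ b, Nat.card {v // s v = b} < Nat.card F.edgeSet) ∧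
        ∀ k, ∃ j, (φ j).1 = k ∨ (φ j).2 = k)) :
    GSid (joins F K t φ) (joinSide s t) := by
  by_cases hz : F.Adj (Sum.inr (Sum.inl false)) (Sum.inr (Sum.inl true))
  · have hne := hF.1 _ _ hz
    by_cases h0 : s (Sum.inr (Sum.inl false)) = false
    · have h1 : s (Sum.inr (Sum.inl true)) = true := by
        rw [h0] at hne
        cases h : s (Sum.inr (Sum.inl true))
        · exact absurd h.symm hne
        · rfl
      refine join_gsid' hF hK hFiso hKiso hKlt (fun _ b => ?_) hfor hφ hN (Or.inl hz)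
      cases b
      · exact h0
      · exact h1
    · have h0' : s (Sum.inr (Sum.inl false)) = true := by
        cases h : s (Sum.inr (Sum.inl false))
        · exact absurd h h0
        · rfl
      have h1 : s (Sum.inr (Sum.inl true)) = false := by
        rw [h0'] at hne
        cases h : s (Sum.inr (Sum.inl true))
        · rfl
        · exact absurd h.symm hne
      have h := join_gsid' (GSid.flip hF) hK hFiso hKiso hKlt (fun _ b => by
        cases b
        · simp only [h0']
          rfl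
        · simp only [h1]
          rfl) hfor hφ hN (Or.inl hz)
      have h2 := GSid.flip h
      have e : (fun v : A ⊕ (VK ⊕ (J × P)) => !joinSide (J := J) (fun v => !s v) t v) =
          joinSide s t := by
        funext v
        rcases v with a | k | q <;> exact Bool.not_not _
      rwa [e] at h2
  · exact join_gsid' hF hK hFiso hKiso hKlt (fun h => absurd h hz) hfor hφ hN hor

/-- the edges of an arbitrary bipartite graph are replaced by copies of `F` -/
theorem base_gsid (hF : GSid F s) (hFiso : ∀ v, ∃ w, F.Adj v w)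
    (hFlt : ∀ b, Nat.card {v // s v = b} < Nat.card F.edgeSet)
    (hz : ¬ F.Adj (Sum.inr (Sum.inl false)) (Sum.inr (Sum.inl true)))
    (hfor : (F.comap (Sum.map id Sum.inl : A ⊕ Bool → A ⊕ (Bool ⊕ P))).IsAcyclic)
    (hB : ∀ u v, B.Adj u v → t u ≠ t v) (hBiso : ∀ v, ∃ w, B.Adj v w)
    (hB2 : ∀ b, 2 ≤ Nat.card {v // t v = b})
    (hφ : ∀ j, B.Adj (φ j).1 (φ j).2 ∧ t (φ j).1 = false)
    (hsur : ∀ u v, B.Adj u v → t u = false → ∃ j, φ j = (u, v))
    (hN : Nat.card {v // t v = false} * Nat.card {v // t v = true} ≤ Nat.card J) :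
    GSid (joins F B t φ) (joinSide s t) := by
  have hq : ∀ b, ∃ q, t q = b := by
    intro b
    have h1 := hB2 b
    have h2 : 0 < Nat.card {v // t v = b} := by omega
    obtain ⟨⟨q, hq⟩⟩ := (Nat.card_pos_iff.1 h2).1
    exact ⟨q, hq⟩
  obtain ⟨q₀, hq₀⟩ := hq false
  obtain ⟨q₁, hq₁⟩ := hq true
  rw [joins_congr hz (fullBip t)]
  refine join_gsid' hF (fullBip_gsid hq₁) hFiso (fullBip_iso hq₀ hq₁) (fullBip_lt hB2)
    (fun h => absurd h hz) hfor (fun j => ⟨hB _ _ (hφ j).1, (hφ j).2⟩)
    (by rw [fullBip_edges]; exact hN) (Or.inr ⟨hFlt, fun k => ?_⟩)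
  obtain ⟨w, hw⟩ := hBiso k
  by_cases hk : t k = false
  · obtain ⟨j, hj⟩ := hsur k w hw hk
    exact ⟨j, Or.inl (by rw [hj])⟩
  · have hw' : t w = false := by
      have := hB _ _ hw
      cases h1 : t w
      · rfl
      · cases h2 : t k
        · exact absurd h2 hk
        · rw [h1, h2] at this
          exact absurd rfl this
    obtain ⟨j, hj⟩ := hsur w k (B.symm.symm _ _ hw) hw'
    exact ⟨j, Or.inr (by rw [hj])⟩

end main

end Vale.Agent.P050.H177
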