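import Vale.Agent.P050.H177.Gauge14
import Vale.Agent.P050.Lev.Forest

/-!
Attachments: products over pairs, and forests in doubly stochastic kernels.
-/

namespace Vale.Agent.P050.H177

open Finset Vale.Agent.P050 Vale.Agent.P050.Lev

/-- the product over the edges, as a product over pairs -/
noncomputable def pprod {V U : Type} [Fintype V] (F : SimpleGraph V) (s : V → Bool)
    (W : U → U → ℝ) (z : V → U) : ℝ :=
  ∏ a, ∏ b, open Classical in
    if F.Adj a b ∧ s a = false ∧ s b = true then W (z a) (z b) else 1

theorem prod_sideEdges {V U : Type} [Fintype V] [DecidableEq V] (F : SimpleGraph V)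
    (s : V → Bool) (W : U → U → ℝ) (z : V → U) :
    ∏ e ∈ sideEdges F s, W (z e.1) (z e.2) = pprod F s W z := by
  classical
  unfold sideEdges pprod
  rw [Finset.prod_filter, Fintype.prod_prod_type]

theorem pprod_nonneg {V U : Type} [Fintype V] {F : SimpleGraph V} {s : V → Bool}
    {W : U → U → ℝ} (hW : ∀ x y, 0 ≤ W x y) (z : V → U) : 0 ≤ pprod F s W z := by
  unfold pprod
  refine Finset.prod_nonneg fun a _ => Finset.prod_nonneg fun b _ => ?_
  split_ifs
  · exact hW _ _
  · exact zero_le_one

theorem prod_ne {V : Type} [Fintype V] [DecidableEq V] (v : V) (f : V → ℝ) :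
    ∏ w, f w = f v * ∏ w : {w : V // w ≠ v}, f w := by
  rw [← Finset.mul_prod_erase univ f (mem_univ v),
    Finset.prod_subtype (univ.erase v) (p := fun w => w ≠ v) (by simp)]

/-- the product over pairs of `V`, split at the vertex `v` -/
theorem pprod_split {V U : Type} [Fintype V] [DecidableEq V] (F : SimpleGraph V) (s : V → Bool)
    (W : U → U → ℝ) (v : V) (y : U) (z : {w : V // w ≠ v} → U) :
    pprod F s W (put v y z) = (∏ w : {w : V // w ≠ v}, open Classical in
        if F.Adj v w ∧ s v = false ∧ s w = true then W y (z w) else 1) *
      (∏ w : {w : V // w ≠ v}, open Classical in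
        if F.Adj w v ∧ s w = false ∧ s v = true then W (z w) y else 1) *
      pprod (F.comap (Subtype.val : {w : V // w ≠ v} → V)) (fun w => s w) W z := by
  classical
  have hsplit : ∀ f : V → ℝ, ∏ w, f w = f v * ∏ w : {w : V // w ≠ v}, f w := prod_ne v
  unfold pprod
  rw [hsplit, hsplit]
  have e0 : (if F.Adj v v ∧ s v = false ∧ s v = true then W (put v y z v) (put v y z v) else 1)
      = 1 := if_neg fun h => F.loopless.irrefl v h.1
  rw [e0, one_mul, mul_assoc]
  congr 1
  · refine Finset.prod_congr rfl fun w _ => ?_
    rw [put_self, put_ne]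
  · rw [← Finset.prod_mul_distrib]
    refine Finset.prod_congr rfl fun w _ => ?_
    rw [hsplit, put_self, put_ne]
    congr 1
    refine Finset.prod_congr rfl fun w' _ => ?_
    rw [put_ne]
    rfl

/-- forests have density one in doubly stochastic kernels -/
theorem forest_dens {U : Type} [Fintype U] {m : Bool → U → ℝ} {W : U → U → ℝ}
    (hm1 : ∀ b, ∑ x, m b x = 1) (hrow : ∀ x, ∑ y, m true y * W x y = 1)
    (hcol : ∀ y, ∑ x, m false x * W x y = 1) :
    ∀ (n : ℕ) (V : Type) [Fintype V] [DecidableEq V] (F : SimpleGraph V) (s : V → Bool),
      F.IsAcyclic → (∀ u v, F.Adj u v → s u ≠ s v) → Fintype.card V = n →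
      ∑ z : V → U, (∏ v, m (s v) (z v)) * pprod F s W z = 1 := by
  classical
  intro n
  induction n with
  | zero =>
    intro V _ _ F s hF hs hn
    have : IsEmpty V := Fintype.card_eq_zero_iff.1 hn
    simp [pprod]
  | succ n ih =>
    intro V _ _ F s hF hs hn
    have hne : Nonempty V := Fintype.card_pos_iff.1 (by omega)
    obtain ⟨v, hv⟩ := exists_leaf hF
    have hsplit : ∀ f : V → ℝ, ∏ w, f w = f v * ∏ w : {w : V // w ≠ v}, f w := prod_ne v
    have hcard : Fintype.card {w : V // w ≠ v} = n := by
      have := Fintype.card_subtype_compl (fun w => w = v)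
      simp only [Fintype.card_subtype_eq] at this
      rw [show Fintype.card {w : V // w ≠ v} = Fintype.card {w : V // ¬ w = v} from rfl, this, hn]
      rfl
    have hih := ih {w : V // w ≠ v} (F.comap (Subtype.val : {w : V // w ≠ v} → V))
      (fun w => s w) (hF.comap ⟨Subtype.val, fun {a b} h => h⟩ Subtype.val_injective)
      (fun a b h => hs _ _ h) hcard
    rw [sum_put v, ← hih]
    refine Finset.sum_congr rfl fun z _ => ?_
    have key : ∀ y, (∏ w, m (s w) (put v y z w)) * pprod F s W (put v y z) =
        (m (s v) y * ((∏ w : {w : V // w ≠ v},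
          if F.Adj v w ∧ s v = false ∧ s w = true then W y (z w) else 1) *
        (∏ w : {w : V // w ≠ v},
          if F.Adj w v ∧ s w = false ∧ s v = true then W (z w) y else 1))) *
        ((∏ w : {w : V // w ≠ v}, m (s w) (z w)) *
          pprod (F.comap (Subtype.val : {w : V // w ≠ v} → V)) (fun w => s w) W z) := by
      intro y
      rw [pprod_split, hsplit, put_self]
      have e1 : ∏ w : {w : V // w ≠ v}, m (s w) (put v y z w) =
          ∏ w : {w : V // w ≠ v}, m (s w) (z w) :=
        Finset.prod_congr rfl fun w _ => by rw [put_ne]
      rw [e1]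
      ring
    simp_rw [key]
    rw [← Finset.sum_mul]
    have hone : ∑ y, m (s v) y * ((∏ w : {w : V // w ≠ v},
          if F.Adj v w ∧ s v = false ∧ s w = true then W y (z w) else 1) *
        (∏ w : {w : V // w ≠ v},
          if F.Adj w v ∧ s w = false ∧ s v = true then W (z w) y else 1)) = 1 := by
      rcases hv with hv | ⟨u, hu, huniq⟩
      · have e1 : ∀ y, (∏ w : {w : V // w ≠ v},
            if F.Adj v w ∧ s v = false ∧ s w = true then W y (z w) else 1) = 1 := fun y =>
          Finset.prod_eq_one fun w _ => if_neg fun h => hv _ h.1
        have e2 : ∀ y, (∏ w : {w : V // w ≠ v},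
            if F.Adj w v ∧ s w = false ∧ s v = true then W (z w) y else 1) = 1 := fun y =>
          Finset.prod_eq_one fun w _ => if_neg fun h => hv _ h.1.symm
        simp_rw [e1, e2, mul_one]
        exact hm1 _
      · have huv : u ≠ v := hu.ne'
        have hsu := hs v u hu
        by_cases hsv : s v = false
        · have hsu' : s u = true := by
            cases h : s u
            · rw [hsv, h] at hsu
              exact absurd rfl hsu
            · rfl
          have e1 : ∀ y, (∏ w : {w : V // w ≠ v},
              if F.Adj v w ∧ s v = false ∧ s w = true then W y (z w) else 1) =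
              W y (z ⟨u, huv⟩) := fun y => by
            rw [Finset.prod_eq_single (⟨u, huv⟩ : {w : V // w ≠ v})]
            · rw [if_pos ⟨hu, hsv, hsu'⟩]
            · intro w _ hw
              exact if_neg fun h => hw (Subtype.ext (huniq _ h.1))
            · intro h
              exact absurd (mem_univ _) h
          have e2 : ∀ y, (∏ w : {w : V // w ≠ v},
              if F.Adj w v ∧ s w = false ∧ s v = true then W (z w) y else 1) = 1 := fun y =>
            Finset.prod_eq_one fun w _ => if_neg fun h => by
              rw [hsv] at h
              exact Bool.false_ne_true h.2.2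
          simp_rw [e1, e2, mul_one]
          rw [hsv]
          exact hcol _
        · have hsv' : s v = true := by
            cases h : s v
            · exact absurd h hsv
            · rfl
          have hsu' : s u = false := by
            cases h : s u
            · rfl
            · rw [hsv', h] at hsu
              exact absurd rfl hsu
          have e1 : ∀ y, (∏ w : {w : V // w ≠ v},
              if F.Adj v w ∧ s v = false ∧ s w = true then W y (z w) else 1) = 1 := fun y =>
            Finset.prod_eq_one fun w _ => if_neg fun h => hsv h.2.1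
          have e2 : ∀ y, (∏ w : {w : V // w ≠ v},
              if F.Adj w v ∧ s w = false ∧ s v = true then W (z w) y else 1) =
              W (z ⟨u, huv⟩) y := fun y => by
            rw [Finset.prod_eq_single (⟨u, huv⟩ : {w : V // w ≠ v})]
            · rw [if_pos ⟨hu.symm, hsu', hsv'⟩]
            · intro w _ hw
              exact if_neg fun h => hw (Subtype.ext (huniq _ h.1.symm))
            · intro h
              exact absurd (mem_univ _) h
          simp_rw [e1, e2, one_mul]
          rw [hsv']
          exact hrow _
    rw [hone, one_mul]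

end Vale.Agent.P050.H177
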