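import Vale.Agent.P050.H177.Att2

/-!
Attachments: the graph, and its homomorphism density.
-/

namespace Vale.Agent.P050.H177

open Finset Vale.Agent.P050 Vale.Agent.P050.Lev

/-- `F` is a graph with the roots `A`, two further vertices `0`, `1` (a marked pair) and the other
vertices `P`; `K` is a graph, `φ j` a pair of vertices of `K` for each `j : J`. The graph `attach`
consists of `K` and, for each `j`, of a copy of `F`, whose marked pair is `φ j`; all copies have the
roots `A` in common. -/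
def attach {A P VK J : Type} (F : SimpleGraph (A ⊕ (Bool ⊕ P))) (K : SimpleGraph VK)
    (φ : J → VK × VK) : SimpleGraph (A ⊕ (VK ⊕ (J × P))) where
  Adj
    | Sum.inl a, Sum.inl b => F.Adj (Sum.inl a) (Sum.inl b)
    | Sum.inl _, Sum.inr (Sum.inl _) => False
    | Sum.inl a, Sum.inr (Sum.inr q) => F.Adj (Sum.inl a) (Sum.inr (Sum.inr q.2))
    | Sum.inr (Sum.inl _), Sum.inl _ => False
    | Sum.inr (Sum.inl k), Sum.inr (Sum.inl l) => K.Adj k l
    | Sum.inr (Sum.inl k), Sum.inr (Sum.inr q) =>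
      (k = (φ q.1).1 ∧ F.Adj (Sum.inr (Sum.inl false)) (Sum.inr (Sum.inr q.2))) ∨
        (k = (φ q.1).2 ∧ F.Adj (Sum.inr (Sum.inl true)) (Sum.inr (Sum.inr q.2)))
    | Sum.inr (Sum.inr q), Sum.inl a => F.Adj (Sum.inl a) (Sum.inr (Sum.inr q.2))
    | Sum.inr (Sum.inr q), Sum.inr (Sum.inl k) =>
      (k = (φ q.1).1 ∧ F.Adj (Sum.inr (Sum.inl false)) (Sum.inr (Sum.inr q.2))) ∨
        (k = (φ q.1).2 ∧ F.Adj (Sum.inr (Sum.inl true)) (Sum.inr (Sum.inr q.2)))
    | Sum.inr (Sum.inr q), Sum.inr (Sum.inr q') =>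
      q.1 = q'.1 ∧ F.Adj (Sum.inr (Sum.inr q.2)) (Sum.inr (Sum.inr q'.2))
  symm := ⟨by
    rintro (a | k | q) (b | l | q') h
    · exact F.symm.symm _ _ h
    · exact h
    · exact h
    · exact h
    · exact K.symm.symm _ _ h
    · exact h
    · exact h
    · exact h
    · exact ⟨h.1.symm, F.symm.symm _ _ h.2⟩⟩
  loopless := ⟨by
    rintro (a | k | q) h
    · exact F.loopless.irrefl _ h
    · exact K.loopless.irrefl _ h
    · exact F.loopless.irrefl _ h.2⟩

/-- the 2-colouring of `attach` -/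
def attSide {A P VK J : Type} (s : A ⊕ (Bool ⊕ P) → Bool) (t : VK → Bool) :
    A ⊕ (VK ⊕ (J × P)) → Bool
  | Sum.inl a => s (Sum.inl a)
  | Sum.inr (Sum.inl k) => t k
  | Sum.inr (Sum.inr q) => s (Sum.inr (Sum.inr q.2))

/-- a map on the vertices of `F` -/
def glueF {A P U : Type} (r : A → U) (x y : U) (q : P → U) : A ⊕ (Bool ⊕ P) → U
  | Sum.inl a => r a
  | Sum.inr (Sum.inl b) => if b = true then y else x
  | Sum.inr (Sum.inr p) => q p

/-- a map on the vertices of `attach` -/
def glueH {A P VK J U : Type} (r : A → U) (y : VK → U) (q : J × P → U) :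
    A ⊕ (VK ⊕ (J × P)) → U
  | Sum.inl a => r a
  | Sum.inr (Sum.inl k) => y k
  | Sum.inr (Sum.inr p) => q p

/-- the product over the edges from a block to a block -/
noncomputable def bb {V U X Y : Type} [Fintype X] [Fintype Y] (F : SimpleGraph V) (s : V → Bool)
    (W : U → U → ℝ) (i : X → V) (j : Y → V) (z : V → U) : ℝ :=
  ∏ x, ∏ y, open Classical in
    if F.Adj (i x) (j y) ∧ s (i x) = false ∧ s (j y) = true then W (z (i x)) (z (j y)) else 1

section

variable {V U X Y X' Y' : Type} [Fintype X] [Fintype Y] [Fintype X'] [Fintype Y']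
  {F : SimpleGraph V} {s : V → Bool} {W : U → U → ℝ}

theorem bb_nonneg (hW : ∀ x y, 0 ≤ W x y) (i : X → V) (j : Y → V) (z : V → U) :
    0 ≤ bb F s W i j z := by
  unfold bb
  refine Finset.prod_nonneg fun a _ => Finset.prod_nonneg fun b _ => ?_
  split_ifs
  · exact hW _ _
  · exact zero_le_one

theorem bb_left (i : X ⊕ X' → V) (j : Y → V) (z : V → U) :
    bb F s W i j z = bb F s W (fun x => i (Sum.inl x)) j z *
      bb F s W (fun x => i (Sum.inr x)) j z := by
  unfold bb
  rw [Fintype.prod_sum_type]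

theorem bb_right (i : X → V) (j : Y ⊕ Y' → V) (z : V → U) :
    bb F s W i j z = bb F s W i (fun y => j (Sum.inl y)) z *
      bb F s W i (fun y => j (Sum.inr y)) z := by
  unfold bb
  rw [← Finset.prod_mul_distrib]
  exact Finset.prod_congr rfl fun x _ => by rw [Fintype.prod_sum_type]

theorem pprod_three {X Y Z : Type} [Fintype X] [Fintype Y] [Fintype Z]
    (F : SimpleGraph (X ⊕ (Y ⊕ Z))) (s : X ⊕ (Y ⊕ Z) → Bool) (W : U → U → ℝ)
    (z : X ⊕ (Y ⊕ Z) → U) :
    pprod F s W z =
      (bb F s W (fun x : X => Sum.inl x) (fun x : X => Sum.inl x) z *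
      (bb F s W (fun x : X => Sum.inl x) (fun y : Y => Sum.inr (Sum.inl y)) z *
      bb F s W (fun x : X => Sum.inl x) (fun y : Z => Sum.inr (Sum.inr y)) z)) *
      ((bb F s W (fun y : Y => Sum.inr (Sum.inl y)) (fun x : X => Sum.inl x) z *
      (bb F s W (fun y : Y => Sum.inr (Sum.inl y)) (fun y : Y => Sum.inr (Sum.inl y)) z *
      bb F s W (fun y : Y => Sum.inr (Sum.inl y)) (fun y : Z => Sum.inr (Sum.inr y)) z)) *
      (bb F s W (fun y : Z => Sum.inr (Sum.inr y)) (fun x : X => Sum.inl x) z *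
      (bb F s W (fun y : Z => Sum.inr (Sum.inr y)) (fun y : Y => Sum.inr (Sum.inl y)) z *
      bb F s W (fun y : Z => Sum.inr (Sum.inr y)) (fun y : Z => Sum.inr (Sum.inr y)) z))) := by
  have h : pprod F s W z = bb F s W (fun x : X ⊕ (Y ⊕ Z) => x) (fun x : X ⊕ (Y ⊕ Z) => x) z := rfl
  rw [h, bb_left, bb_left (fun x : Y ⊕ Z => Sum.inr x),
    bb_right (fun x : X => Sum.inl x) (fun x : X ⊕ (Y ⊕ Z) => x),
    bb_right (fun x : X => Sum.inl x) (fun x : Y ⊕ Z => Sum.inr x),
    bb_right (fun x : Y => Sum.inr (Sum.inl x)) (fun x : X ⊕ (Y ⊕ Z) => x),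
    bb_right (fun x : Y => Sum.inr (Sum.inl x)) (fun x : Y ⊕ Z => Sum.inr x),
    bb_right (fun x : Z => Sum.inr (Sum.inr x)) (fun x : X ⊕ (Y ⊕ Z) => x),
    bb_right (fun x : Z => Sum.inr (Sum.inr x)) (fun x : Y ⊕ Z => Sum.inr x)]

theorem bb_one (i : X → V) (j : Y → V) (z : V → U) (h : ∀ x y, ¬ F.Adj (i x) (j y)) :
    bb F s W i j z = 1 :=
  Finset.prod_eq_one fun x _ => Finset.prod_eq_one fun y _ => if_neg fun h' => h x y h'.1

end

section

variable {A P VK J U : Type} [Fintype A] [Fintype P] [Fintype VK] [Fintype J]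
  {F : SimpleGraph (A ⊕ (Bool ⊕ P))} {K : SimpleGraph VK} {φ : J → VK × VK}
  {s : A ⊕ (Bool ⊕ P) → Bool} {t : VK → Bool} {W : U → U → ℝ}

/-- the edges between the roots -/
noncomputable def rootProd (F : SimpleGraph (A ⊕ (Bool ⊕ P))) (s : A ⊕ (Bool ⊕ P) → Bool)
    (W : U → U → ℝ) (r : A → U) : ℝ :=
  pprod (F.comap (Sum.inl : A → A ⊕ (Bool ⊕ P))) (fun a => s (Sum.inl a)) W r

/-- the other edges of `F`, except the marked one -/
noncomputable def restProd (F : SimpleGraph (A ⊕ (Bool ⊕ P))) (s : A ⊕ (Bool ⊕ P) → Bool)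
    (W : U → U → ℝ) (r : A → U) (x y : U) (q : P → U) : ℝ :=
  bb F s W (fun x : A => Sum.inl x) (fun y : P => Sum.inr (Sum.inr y)) (glueF r x y q) *
    bb F s W (fun y : Bool => Sum.inr (Sum.inl y)) (fun y : P => Sum.inr (Sum.inr y))
      (glueF r x y q) *
    (bb F s W (fun y : P => Sum.inr (Sum.inr y)) (fun x : A => Sum.inl x) (glueF r x y q) *
      bb F s W (fun y : P => Sum.inr (Sum.inr y)) (fun y : Bool => Sum.inr (Sum.inl y))
        (glueF r x y q) *
      bb F s W (fun y : P => Sum.inr (Sum.inr y)) (fun y : P => Sum.inr (Sum.inr y))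
        (glueF r x y q))

theorem restProd_nonneg (hW : ∀ x y, 0 ≤ W x y) (r : A → U) (x y : U) (q : P → U) :
    0 ≤ restProd F s W r x y q :=
  mul_nonneg (mul_nonneg (bb_nonneg hW _ _ _) (bb_nonneg hW _ _ _))
    (mul_nonneg (mul_nonneg (bb_nonneg hW _ _ _) (bb_nonneg hW _ _ _)) (bb_nonneg hW _ _ _))

theorem pprod_F (hz : F.Adj (Sum.inr (Sum.inl false)) (Sum.inr (Sum.inl true)))
    (hs : ∀ b, s (Sum.inr (Sum.inl b)) = b)
    (hA : ∀ a b, ¬ F.Adj (Sum.inl a) (Sum.inr (Sum.inl b))) (r : A → U) (x y : U) (q : P → U) :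
    pprod F s W (glueF r x y q) = rootProd F s W r * (W x y * restProd F s W r x y q) := by
  rw [pprod_three, bb_one (fun x : A => Sum.inl x) (fun y : Bool => Sum.inr (Sum.inl y)) _ hA,
    bb_one (fun y : Bool => Sum.inr (Sum.inl y)) (fun x : A => Sum.inl x) _
      fun b a h => hA a b (F.symm.symm _ _ h)]
  have h1 : bb F s W (fun y : Bool => Sum.inr (Sum.inl y)) (fun y : Bool => Sum.inr (Sum.inl y))
      (glueF r x y q) = W x y := by
    have s0 := hs false
    have s1 := hs true
    unfold bb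
    rw [Fintype.prod_bool, Fintype.prod_bool, Fintype.prod_bool, if_neg, if_neg, if_pos, if_neg]
    · simp [glueF]
    · rintro ⟨-, -, h⟩
      rw [s0] at h
      exact Bool.false_ne_true h
    · exact ⟨hz, s0, s1⟩
    · rintro ⟨-, h, -⟩
      rw [s1] at h
      exact Bool.false_ne_true h.symm
    · rintro ⟨-, h, -⟩
      rw [s1] at h
      exact Bool.false_ne_true h.symm
  have h2 : bb F s W (fun x : A => Sum.inl x) (fun x : A => Sum.inl x) (glueF r x y q) =
      rootProd F s W r := rfl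
  rw [h1, h2]
  unfold restProd
  ring

theorem pprod_H (hs : ∀ b, s (Sum.inr (Sum.inl b)) = b)
    (hφ : ∀ j, t (φ j).1 = false ∧ t (φ j).2 = true) (r : A → U) (y : VK → U) (q : J × P → U) :
    pprod (attach F K φ) (attSide s t) W (glueH r y q) =
      rootProd F s W r * (pprod K t W y *
        ∏ j, restProd F s W r (y (φ j).1) (y (φ j).2) fun p => q (j, p)) := by
  classical
  rw [pprod_three,
    bb_one (fun x : A => Sum.inl x) (fun y : VK => Sum.inr (Sum.inl y)) _ fun a k h => h,
    bb_one (fun y : VK => Sum.inr (Sum.inl y)) (fun x : A => Sum.inl x) _ fun k a h => h]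
  have h1 : bb (attach F K φ) (attSide s t) W (fun x : A => Sum.inl x) (fun x : A => Sum.inl x)
      (glueH r y q) = rootProd F s W r := rfl
  have h2 : bb (attach F K φ) (attSide s t) W (fun y : VK => Sum.inr (Sum.inl y))
      (fun y : VK => Sum.inr (Sum.inl y)) (glueH r y q) = pprod K t W y := rfl
  have h3 : bb (attach F K φ) (attSide s t) W (fun x : A => Sum.inl x)
      (fun y : J × P => Sum.inr (Sum.inr y)) (glueH r y q) =
      ∏ j, bb F s W (fun x : A => Sum.inl x) (fun y : P => Sum.inr (Sum.inr y))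
        (glueF r (y (φ j).1) (y (φ j).2) fun p => q (j, p)) := by
    unfold bb
    rw [Finset.prod_comm, Fintype.prod_prod_type]
    refine Finset.prod_congr rfl fun j _ => ?_
    rw [Finset.prod_comm]
    rfl
  have h4 : bb (attach F K φ) (attSide s t) W (fun y : J × P => Sum.inr (Sum.inr y))
      (fun x : A => Sum.inl x) (glueH r y q) =
      ∏ j, bb F s W (fun y : P => Sum.inr (Sum.inr y)) (fun x : A => Sum.inl x)
        (glueF r (y (φ j).1) (y (φ j).2) fun p => q (j, p)) := by
    unfold bb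
    rw [Fintype.prod_prod_type]
    refine Finset.prod_congr rfl fun j _ => Finset.prod_congr rfl fun p _ =>
      Finset.prod_congr rfl fun a _ => ?_
    have e : (attach F K φ).Adj (Sum.inr (Sum.inr (j, p))) (Sum.inl a) ↔
        F.Adj (Sum.inr (Sum.inr p)) (Sum.inl a) :=
      ⟨fun h => F.symm.symm _ _ h, fun h => F.symm.symm _ _ h⟩
    simp only [e]
    rfl
  have h5 : bb (attach F K φ) (attSide s t) W (fun y : J × P => Sum.inr (Sum.inr y))
      (fun y : J × P => Sum.inr (Sum.inr y)) (glueH r y q) =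
      ∏ j, bb F s W (fun y : P => Sum.inr (Sum.inr y)) (fun y : P => Sum.inr (Sum.inr y))
        (glueF r (y (φ j).1) (y (φ j).2) fun p => q (j, p)) := by
    unfold bb
    rw [Fintype.prod_prod_type]
    refine Finset.prod_congr rfl fun j _ => Finset.prod_congr rfl fun p _ => ?_
    rw [Fintype.prod_prod_type, Finset.prod_eq_single j]
    · refine Finset.prod_congr rfl fun p' _ => ?_
      have e : (attach F K φ).Adj (Sum.inr (Sum.inr (j, p))) (Sum.inr (Sum.inr (j, p'))) ↔
          F.Adj (Sum.inr (Sum.inr p)) (Sum.inr (Sum.inr p')) :=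
        ⟨fun h => h.2, fun h => ⟨rfl, h⟩⟩
      simp only [e]
      rfl
    · intro j' _ hj'
      exact Finset.prod_eq_one fun p' _ => if_neg fun h => hj' h.1.1.symm
    · intro h
      exact absurd (mem_univ _) h
  have h6 : bb (attach F K φ) (attSide s t) W (fun y : VK => Sum.inr (Sum.inl y))
      (fun y : J × P => Sum.inr (Sum.inr y)) (glueH r y q) =
      ∏ j, bb F s W (fun y : Bool => Sum.inr (Sum.inl y)) (fun y : P => Sum.inr (Sum.inr y))
        (glueF r (y (φ j).1) (y (φ j).2) fun p => q (j, p)) := by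
    unfold bb
    rw [Finset.prod_comm, Fintype.prod_prod_type]
    refine Finset.prod_congr rfl fun j _ => ?_
    rw [Fintype.prod_bool, ← Finset.prod_mul_distrib]
    refine Finset.prod_congr rfl fun p _ => ?_
    rw [Finset.prod_eq_single (φ j).1]
    · have e1 : ¬ (F.Adj (Sum.inr (Sum.inl true)) (Sum.inr (Sum.inr p)) ∧
          s (Sum.inr (Sum.inl true)) = false ∧ s (Sum.inr (Sum.inr p)) = true) := by
        rw [hs]
        rintro ⟨-, h, -⟩
        exact Bool.false_ne_true h.symm
      rw [if_neg e1, one_mul]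
      have e2 : ((attach F K φ).Adj (Sum.inr (Sum.inl (φ j).1)) (Sum.inr (Sum.inr (j, p))) ∧
          attSide (J := J) s t (Sum.inr (Sum.inl (φ j).1)) = false ∧
          attSide s t (Sum.inr (Sum.inr (j, p))) = true) ↔
          (F.Adj (Sum.inr (Sum.inl false)) (Sum.inr (Sum.inr p)) ∧
          s (Sum.inr (Sum.inl false)) = false ∧ s (Sum.inr (Sum.inr p)) = true) := by
        rw [hs]
        constructor
        · rintro ⟨h1, h2, h3⟩
          rcases h1 with ⟨-, h1⟩ | ⟨h1, -⟩
          · exact ⟨h1, rfl, h3⟩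
          · have h4 := (hφ j).1
            rw [h1, (hφ j).2] at h4
            exact absurd h4.symm Bool.false_ne_true
        · rintro ⟨h1, -, h3⟩
          exact ⟨Or.inl ⟨rfl, h1⟩, (hφ j).1, h3⟩
      simp only [e2]
      rfl
    · intro k _ hk
      refine if_neg ?_
      rintro ⟨h1, h2, h3⟩
      rcases h1 with ⟨h1, -⟩ | ⟨h1, -⟩
      · exact hk h1
      · change t k = false at h2
        rw [h1, (hφ j).2] at h2
        exact Bool.false_ne_true h2.symm
    · intro h
      exact absurd (mem_univ _) h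
  have h7 : bb (attach F K φ) (attSide s t) W (fun y : J × P => Sum.inr (Sum.inr y))
      (fun y : VK => Sum.inr (Sum.inl y)) (glueH r y q) =
      ∏ j, bb F s W (fun y : P => Sum.inr (Sum.inr y)) (fun y : Bool => Sum.inr (Sum.inl y))
        (glueF r (y (φ j).1) (y (φ j).2) fun p => q (j, p)) := by
    unfold bb
    rw [Fintype.prod_prod_type]
    refine Finset.prod_congr rfl fun j _ => Finset.prod_congr rfl fun p _ => ?_
    rw [Fintype.prod_bool, Finset.prod_eq_single (φ j).2]
    · have e1 : ¬ (F.Adj (Sum.inr (Sum.inr p)) (Sum.inr (Sum.inl false)) ∧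
          s (Sum.inr (Sum.inr p)) = false ∧ s (Sum.inr (Sum.inl false)) = true) := by
        rw [hs]
        rintro ⟨-, -, h⟩
        exact Bool.false_ne_true h
      rw [if_neg e1, mul_one]
      have e2 : ((attach F K φ).Adj (Sum.inr (Sum.inr (j, p))) (Sum.inr (Sum.inl (φ j).2)) ∧
          attSide s t (Sum.inr (Sum.inr (j, p))) = false ∧
          attSide (J := J) s t (Sum.inr (Sum.inl (φ j).2)) = true) ↔
          (F.Adj (Sum.inr (Sum.inr p)) (Sum.inr (Sum.inl true)) ∧
          s (Sum.inr (Sum.inr p)) = false ∧ s (Sum.inr (Sum.inl true)) = true) := by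
        rw [hs]
        constructor
        · rintro ⟨h1, h2, h3⟩
          rcases h1 with ⟨h1, -⟩ | ⟨-, h1⟩
          · have h4 := (hφ j).2
            rw [h1, (hφ j).1] at h4
            exact absurd h4 Bool.false_ne_true
          · exact ⟨F.symm.symm _ _ h1, h2, rfl⟩
        · rintro ⟨h1, h3, -⟩
          exact ⟨Or.inr ⟨rfl, F.symm.symm _ _ h1⟩, h3, (hφ j).2⟩
      simp only [e2]
      rfl
    · intro k _ hk
      refine if_neg ?_
      rintro ⟨h1, h2, h3⟩
      rcases h1 with ⟨h1, -⟩ | ⟨h1, -⟩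
      · change t k = true at h3
        rw [h1, (hφ j).1] at h3
        exact Bool.false_ne_true h3
      · exact hk h1
    · intro h
      exact absurd (mem_univ _) h
  rw [h1, h2, h3, h4, h5, h6, h7]
  unfold restProd
  simp only [Finset.prod_mul_distrib]
  ring

end

end Vale.Agent.P050.H177
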