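import Vale.Agent.P050.H177.Att1
import Vale.Agent.P050.H177.Att3

/-!
Attachments: the inequalities.
-/

namespace Vale.Agent.P050.H177

open Finset Vale.Agent.P050 Vale.Agent.P050.Lev Vale.Agent.P050.Cart

theorem sum_sumArrow {X Y U : Type} [Fintype X] [Fintype Y] [DecidableEq X] [DecidableEq Y]
    [Fintype U] (G : (X ⊕ Y → U) → ℝ) :
    ∑ z, G z = ∑ f : X → U, ∑ g : Y → U, G (Sum.elim f g) := by
  rw [← (Equiv.sumArrowEquivProdArrow X Y U).symm.sum_comp, Fintype.sum_prod_type]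
  rfl

theorem sum_glueF {A P U : Type} [Fintype A] [Fintype P] [DecidableEq A] [DecidableEq P]
    [Fintype U] (G : (A ⊕ (Bool ⊕ P) → U) → ℝ) :
    ∑ z, G z = ∑ r : A → U, ∑ x, ∑ y, ∑ q : P → U, G (glueF r x y q) := by
  rw [sum_sumArrow]
  refine Finset.sum_congr rfl fun r _ => ?_
  rw [sum_sumArrow fun z => G (Sum.elim r z), ← (Equiv.boolArrowEquivProd U).symm.sum_comp,
    Fintype.sum_prod_type]
  refine Finset.sum_congr rfl fun x _ => Finset.sum_congr rfl fun y _ =>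
    Finset.sum_congr rfl fun q _ => ?_
  congr 1
  funext v
  rcases v with a | b | p
  · rfl
  · cases b <;> rfl
  · rfl

theorem sum_glueH {A P VK J U : Type} [Fintype A] [Fintype P] [Fintype VK] [Fintype J]
    [DecidableEq A] [DecidableEq P] [DecidableEq VK] [DecidableEq J] [Fintype U]
    (G : (A ⊕ (VK ⊕ (J × P)) → U) → ℝ) :
    ∑ z, G z = ∑ r : A → U, ∑ y : VK → U, ∑ q : J × P → U, G (glueH r y q) := by
  rw [sum_sumArrow]
  refine Finset.sum_congr rfl fun r _ => ?_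
  rw [sum_sumArrow fun z => G (Sum.elim r z)]
  refine Finset.sum_congr rfl fun y _ => Finset.sum_congr rfl fun q _ => ?_
  congr 1
  funext v
  rcases v with a | b | p <;> rfl

theorem sum_copies {P J U : Type} [Fintype P] [Fintype J] [DecidableEq P] [DecidableEq J]
    [Fintype U] (G : J → (P → U) → ℝ) :
    ∑ q : J × P → U, ∏ j, G j (fun p => q (j, p)) = ∏ j, ∑ q : P → U, G j q := by
  rw [← (Equiv.curry J P U).symm.sum_comp, Finset.prod_univ_sum, Fintype.piFinset_univ]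
  rfl

/-- the vertices of the side `b` of a graph -/
theorem sum_filter_sum {X Y : Type} [Fintype X] [Fintype Y] (s : X ⊕ Y → Bool) (b : Bool)
    (f : X ⊕ Y → ℝ) : ∑ v ∈ univ.filter (fun v => s v = b), f v =
      ∑ x ∈ univ.filter (fun x => s (Sum.inl x) = b), f (Sum.inl x) +
      ∑ y ∈ univ.filter (fun y => s (Sum.inr y) = b), f (Sum.inr y) := by
  rw [Finset.sum_filter, Finset.sum_filter, Finset.sum_filter, Fintype.sum_sum_type]

section main

variable {A P VK J U : Type} [Fintype A] [Fintype P] [Fintype VK] [Fintype J]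
  [DecidableEq A] [DecidableEq P] [DecidableEq VK] [DecidableEq J] [Fintype U]
  {F : SimpleGraph (A ⊕ (Bool ⊕ P))} {K : SimpleGraph VK} {φ : J → VK × VK}
  {s : A ⊕ (Bool ⊕ P) → Bool} {t : VK → Bool} {m : Bool → U → ℝ} {W : U → U → ℝ}

/-- the number of extensions of a marked pair to a copy of `F` -/
noncomputable def hfun (F : SimpleGraph (A ⊕ (Bool ⊕ P))) (s : A ⊕ (Bool ⊕ P) → Bool)
    (m : Bool → U → ℝ) (W : U → U → ℝ) (c : P → U → ℝ) (r : A → U) (x y : U) : ℝ :=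
  ∑ q : P → U, (∏ p, m (s (Sum.inr (Sum.inr p))) (q p) * c p (q p)) * restProd F s W r x y q

theorem hfun_nonneg (hm : ∀ b x, 0 ≤ m b x) (hW : ∀ x y, 0 ≤ W x y) {c : P → U → ℝ}
    (hc : ∀ p x, 0 < c p x) (r : A → U) (x y : U) : 0 ≤ hfun F s m W c r x y :=
  Finset.sum_nonneg fun q _ => mul_nonneg
    (Finset.prod_nonneg fun p _ => mul_nonneg (hm _ _) (hc _ _).le) (restProd_nonneg hW _ _ _ _)

/-- the density of `attach` -/
theorem dens_H (hs : ∀ b, s (Sum.inr (Sum.inl b)) = b)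
    (hφ : ∀ j, t (φ j).1 = false ∧ t (φ j).2 = true) (cA : A → U → ℝ) (cK : VK → U → ℝ)
    (cP : P → U → ℝ) (c : A ⊕ (VK ⊕ (J × P)) → U → ℝ) (c1 : ∀ a, c (Sum.inl a) = cA a)
    (c2 : ∀ k, c (Sum.inr (Sum.inl k)) = cK k) (c3 : ∀ q, c (Sum.inr (Sum.inr q)) = cP q.2) :
    ∑ z : A ⊕ (VK ⊕ (J × P)) → U, (∏ v, m (attSide s t v) (z v) * c v (z v)) *
      ∏ e ∈ sideEdges (attach F K φ) (attSide s t), W (z e.1) (z e.2) =
    ∑ r : A → U, ((∏ a, m (s (Sum.inl a)) (r a)) * rootProd F s W r) *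
      ((∏ a, cA a (r a)) * ∑ y : VK → U, (∏ k, m (t k) (y k) * cK k (y k)) *
        ((∏ e ∈ sideEdges K t, W (y e.1) (y e.2)) *
          ∏ j, hfun F s m W cP r (y (φ j).1) (y (φ j).2))) := by
  simp_rw [prod_sideEdges]
  rw [sum_glueH]
  refine Finset.sum_congr rfl fun r _ => ?_
  rw [Finset.mul_sum, Finset.mul_sum]
  refine Finset.sum_congr rfl fun y _ => ?_
  have e1 : ∀ q : J × P → U, (∏ v, m (attSide s t v) (glueH r y q v) * c v (glueH r y q v)) *
      pprod (attach F K φ) (attSide s t) W (glueH r y q) =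
      ((∏ a, m (s (Sum.inl a)) (r a)) * rootProd F s W r) * ((∏ a, cA a (r a)) *
        ((∏ k, m (t k) (y k) * cK k (y k)) * pprod K t W y)) *
      ∏ j, ((∏ p, m (s (Sum.inr (Sum.inr p))) (q (j, p)) * cP p (q (j, p))) *
        restProd F s W r (y (φ j).1) (y (φ j).2) fun p => q (j, p)) := by
    intro q
    rw [pprod_H hs hφ, Fintype.prod_sum_type, Fintype.prod_sum_type]
    simp only [c1, c2, c3]
    rw [Finset.prod_mul_distrib (s := (univ : Finset J)),
      ← Fintype.prod_prod_type fun q' : J × P => m (s (Sum.inr (Sum.inr q'.2))) (q q') *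
        cP q'.2 (q q')]
    change ((∏ a, m (s (Sum.inl a)) (r a) * cA a (r a)) * ((∏ k, m (t k) (y k) * cK k (y k)) *
      ∏ q' : J × P, m (s (Sum.inr (Sum.inr q'.2))) (q q') * cP q'.2 (q q'))) * _ = _
    rw [Finset.prod_mul_distrib (s := (univ : Finset A))]
    ring
  simp_rw [e1]
  rw [← Finset.mul_sum, sum_copies fun j q => (∏ p, m (s (Sum.inr (Sum.inr p))) (q p) *
    cP p (q p)) * restProd F s W r (y (φ j).1) (y (φ j).2) q]
  unfold hfun
  ring

/-- the density of `F` -/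
theorem dens_F (hz : F.Adj (Sum.inr (Sum.inl false)) (Sum.inr (Sum.inl true)))
    (hs : ∀ b, s (Sum.inr (Sum.inl b)) = b)
    (hA : ∀ a b, ¬ F.Adj (Sum.inl a) (Sum.inr (Sum.inl b))) (cA : A → U → ℝ)
    (cB : Bool → U → ℝ) (cP : P → U → ℝ) (c : A ⊕ (Bool ⊕ P) → U → ℝ)
    (c1 : ∀ a, c (Sum.inl a) = cA a) (c2 : ∀ k, c (Sum.inr (Sum.inl k)) = cB k)
    (c3 : ∀ q, c (Sum.inr (Sum.inr q)) = cP q) :
    ∑ z : A ⊕ (Bool ⊕ P) → U, (∏ v, m (s v) (z v) * c v (z v)) *
      ∏ e ∈ sideEdges F s, W (z e.1) (z e.2) =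
    ∑ r : A → U, ((∏ a, m (s (Sum.inl a)) (r a)) * rootProd F s W r) *
      ((∏ a, cA a (r a)) * ∑ x, ∑ y, m false x * m true y * W x y *
        (hfun F s m W cP r x y * (cB false x * cB true y))) := by
  simp_rw [prod_sideEdges]
  rw [sum_glueF]
  refine Finset.sum_congr rfl fun r _ => ?_
  rw [Finset.mul_sum, Finset.mul_sum]
  refine Finset.sum_congr rfl fun x _ => ?_
  rw [Finset.mul_sum, Finset.mul_sum]
  refine Finset.sum_congr rfl fun y _ => ?_
  unfold hfun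
  rw [Finset.sum_mul, Finset.mul_sum, Finset.mul_sum, Finset.mul_sum]
  refine Finset.sum_congr rfl fun q _ => ?_
  rw [pprod_F hz hs hA, Fintype.prod_sum_type, Fintype.prod_sum_type, Fintype.prod_bool]
  simp only [c1, c2, c3, hs]
  change ((∏ a, m (s (Sum.inl a)) (r a) * cA a (r a)) * ((m true y * cB true y) *
    (m false x * cB false x) * ∏ p, m (s (Sum.inr (Sum.inr p))) (q p) * cP p (q p))) * _ = _
  rw [Finset.prod_mul_distrib (s := (univ : Finset A))]
  ring

end main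

end Vale.Agent.P050.H177
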