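import Vale.Agent.P050.H177.Att4

/-!
Attachments: the main inequality in doubly stochastic kernels.
-/

namespace Vale.Agent.P050.H177

open Finset Vale.Agent.P050 Vale.Agent.P050.Lev Vale.Agent.P050.Cart

/-- the inequality for `K`, with `N` copies of a function on the edges and weights of the
vertices -/
theorem attK {VK J U : Type} [Fintype VK] [Fintype J] [DecidableEq VK] [Fintype U]
    {E : Finset (VK × VK)} {t : VK → Bool} {g : VK → ℕ} (hg : EDeg E t g) (hK : KSid E t)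
    {r' s' : ℝ} (hr : 1 < r') (hs : 1 < s') (hre : (E.card : ℝ) = r' * sideCard t false)
    (hse : (E.card : ℝ) = s' * sideCard t true) (hE : 0 < E.card)
    {m : Bool → U → ℝ} {W : U → U → ℝ} (hm : ∀ b x, 0 ≤ m b x) (hm1 : ∀ b, ∑ x, m b x = 1)
    (hW : ∀ x y, 0 ≤ W x y) (hk : kmean m W = 1) {φ : J → VK × VK} (hφ : ∀ j, φ j ∈ E)
    (hN : E.card ≤ Fintype.card J) {h : U → U → ℝ} (hh : ∀ x y, 0 ≤ h x y)
    {c : VK → U → ℝ} (hc : ∀ v x, 0 < c v x) :
    (∑ x, ∑ y, m false x * m true y * W x y * (h x y *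
      ((∏ v ∈ univ.filter (fun v => t v = false), c v x) ^ (1 / (Fintype.card J : ℝ)) *
      (∏ v ∈ univ.filter (fun v => t v = true), c v y) ^ (1 / (Fintype.card J : ℝ))))) ^
        Fintype.card J ≤
    ∑ y : VK → U, (∏ k, m (t k) (y k) * c k (y k)) *
      ((∏ e ∈ E, W (y e.1) (y e.2)) * ∏ j, h (y (φ j).1) (y (φ j).2)) := by
  classical
  set N := Fintype.card J with hNdef
  have hEr : (0 : ℝ) < E.card := by exact_mod_cast hE
  have hNr : (0 : ℝ) < N := by
    have : 0 < N := lt_of_lt_of_le hE hN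
    exact_mod_cast this
  have hNE : (E.card : ℝ) ≤ N := by exact_mod_cast hN
  set n : VK × VK → ℕ := fun e => (univ.filter fun j => φ j = e).card with hn
  set L : VK × VK → U → U → ℝ := fun e x y => W x y * h x y ^ n e with hL
  have hL0 : ∀ e x y, 0 ≤ L e x y := fun e x y => mul_nonneg (hW _ _) (pow_nonneg (hh _ _) _)
  have hsumn : ∑ e ∈ E, n e = N := by
    rw [hNdef, ← Finset.card_univ, Finset.card_eq_sum_card_fiberwise (f := φ) (t := E)
      fun j _ => hφ j]
  have hmain := full_norm hg hr hs hre hse hE hK (K := L) hm hm1 hL0 c hc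
  have hprod : ∀ y : VK → U, ∏ e ∈ E, L e (y e.1) (y e.2) =
      (∏ e ∈ E, W (y e.1) (y e.2)) * ∏ j, h (y (φ j).1) (y (φ j).2) := by
    intro y
    simp only [hL]
    rw [Finset.prod_mul_distrib]
    congr 1
    rw [← Finset.prod_fiberwise_of_maps_to (s := (univ : Finset J)) (t := E) (g := φ)
      fun j _ => hφ j]
    refine Finset.prod_congr rfl fun e _ => ?_
    rw [Finset.prod_congr rfl (g := fun _ => h (y e.1) (y e.2)) fun j hj => by
      rw [(Finset.mem_filter.1 hj).2], Finset.prod_const]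
  simp_rw [hprod] at hmain
  refine le_trans ?_ hmain
  have hmean : ∀ x y, emean E L x y = W x y * h x y ^ ((N : ℝ) / E.card) := by
    intro x y
    unfold emean
    rw [Real.finset_prod_rpow E (fun e => L e x y) (fun e _ => hL0 e x y)]
    simp only [hL]
    rw [Finset.prod_mul_distrib, Finset.prod_const, Finset.prod_pow_eq_pow_sum, hsumn,
      Real.mul_rpow (pow_nonneg (hW x y) _) (pow_nonneg (hh x y) _), ← Real.rpow_natCast,
      ← Real.rpow_mul (hW x y), mul_one_div_cancel hEr.ne', Real.rpow_one,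
      ← Real.rpow_natCast (h x y), ← Real.rpow_mul (hh x y), mul_one_div]
  set κ : ℝ := (N : ℝ) / E.card with hκ
  have hκ1 : 1 ≤ κ := by
    rw [hκ, le_div_iff₀ hEr, one_mul]
    exact hNE
  set D : Bool → U → ℝ := fun b x =>
    (∏ v ∈ univ.filter (fun v => t v = b), c v x) ^ (1 / (N : ℝ)) with hD
  have hD0 : ∀ b x, 0 < D b x := fun b x =>
    Real.rpow_pos_of_pos (Finset.prod_pos fun v _ => hc v x) _
  have hvm : ∀ b x, vmean E t c b x = D b x ^ κ := by
    intro b x
    simp only [hD, vmean]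
    rw [← Real.rpow_mul (Finset.prod_pos fun v _ => hc v x).le, hκ]
    congr 1
    field_simp
  -- the power mean inequality
  set wt : U × U → ℝ := fun p => m false p.1 * m true p.2 * W p.1 p.2 with hwt
  have hwt0 : ∀ p ∈ (univ : Finset (U × U)), 0 ≤ wt p := fun p _ =>
    mul_nonneg (mul_nonneg (hm _ _) (hm _ _)) (hW _ _)
  have hwt1 : ∑ p, wt p = 1 := by
    rw [Fintype.sum_prod_type]
    exact hk
  set X : U × U → ℝ := fun p => h p.1 p.2 * (D false p.1 * D true p.2) with hX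
  have hX0 : ∀ p ∈ (univ : Finset (U × U)), 0 ≤ X p := fun p _ =>
    mul_nonneg (hh _ _) (mul_nonneg (hD0 _ _).le (hD0 _ _).le)
  have hpm := Real.rpow_arith_mean_le_arith_mean_rpow univ wt X hwt0 hwt1 hX0 hκ1
  have e1 : ∑ p, wt p * X p = ∑ x, ∑ y, m false x * m true y * W x y *
      (h x y * (D false x * D true y)) := by
    rw [Fintype.sum_prod_type]
  have e2 : ∑ p, wt p * X p ^ κ = ∑ x, ∑ y, m false x * m true y *
      (emean E L x y * (vmean E t c false x * vmean E t c true y)) := by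
    rw [Fintype.sum_prod_type]
    refine Finset.sum_congr rfl fun x _ => Finset.sum_congr rfl fun y _ => ?_
    simp only [hwt, hX]
    rw [Real.mul_rpow (hh x y) (mul_nonneg (hD0 _ _).le (hD0 _ _).le),
      Real.mul_rpow (hD0 _ _).le (hD0 _ _).le, hmean, hvm, hvm]
    ring
  have hS0 : 0 ≤ ∑ p, wt p * X p :=
    Finset.sum_nonneg fun p hp => mul_nonneg (hwt0 p hp) (hX0 p hp)
  calc (∑ x, ∑ y, m false x * m true y * W x y * (h x y * (D false x * D true y))) ^ N
      = ((∑ p, wt p * X p) ^ κ) ^ E.card := by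
        rw [← e1, ← Real.rpow_natCast, ← Real.rpow_natCast (_ ^ κ), ← Real.rpow_mul hS0, hκ,
          div_mul_cancel₀ _ hEr.ne']
    _ ≤ (∑ p, wt p * X p ^ κ) ^ E.card :=
        pow_le_pow_left₀ (Real.rpow_nonneg hS0 _) hpm _
    _ = _ := by rw [e2]

section main

variable {A P VK J U : Type} [Fintype A] [Fintype P] [Fintype VK] [Fintype J]
  [DecidableEq A] [DecidableEq P] [DecidableEq VK] [DecidableEq J] [Fintype U]
  {F : SimpleGraph (A ⊕ (Bool ⊕ P))} {K : SimpleGraph VK} {φ : J → VK × VK}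
  {s : A ⊕ (Bool ⊕ P) → Bool} {t : VK → Bool} {m : Bool → U → ℝ} {W : U → U → ℝ}

/-- the main inequality -/
theorem att_core (hF : GSid F s) (hK : GSid K t)
    (hKlt : ∀ b, Nat.card {v // t v = b} < Nat.card K.edgeSet)
    (hz : F.Adj (Sum.inr (Sum.inl false)) (Sum.inr (Sum.inl true)))
    (hs : ∀ b, s (Sum.inr (Sum.inl b)) = b)
    (hA : ∀ a b, ¬ F.Adj (Sum.inl a) (Sum.inr (Sum.inl b)))
    (hfor : (F.comap (Sum.inl : A → A ⊕ (Bool ⊕ P))).IsAcyclic)
    (hφ : ∀ j, K.Adj (φ j).1 (φ j).2 ∧ t (φ j).1 = false)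
    (hN : Nat.card K.edgeSet ≤ Nat.card J)
    (hm : ∀ b x, 0 ≤ m b x) (hm1 : ∀ b, ∑ x, m b x = 1)
    (hW : ∀ x y, 0 ≤ W x y) (hrow : ∀ x, ∑ y, m true y * W x y = 1)
    (hcol : ∀ y, ∑ x, m false x * W x y = 1)
    {cA : A → U → ℝ} {cK : VK → U → ℝ} {cP : P → U → ℝ} (hcA : ∀ a x, 0 < cA a x)
    (hcK : ∀ a x, 0 < cK a x) (hcP : ∀ a x, 0 < cP a x)
    (hbal : ∀ b x, ∑ a ∈ univ.filter (fun a => s (Sum.inl a) = b), Real.log (cA a x) +
      ∑ k ∈ univ.filter (fun k => t k = b), Real.log (cK k x) + Nat.card J *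
      ∑ p ∈ univ.filter (fun p => s (Sum.inr (Sum.inr p)) = b), Real.log (cP p x) = 0)
    (c : A ⊕ (VK ⊕ (J × P)) → U → ℝ) (c1 : ∀ a, c (Sum.inl a) = cA a)
    (c2 : ∀ k, c (Sum.inr (Sum.inl k)) = cK k) (c3 : ∀ q, c (Sum.inr (Sum.inr q)) = cP q.2) :
    1 ≤ ∑ z : A ⊕ (VK ⊕ (J × P)) → U, (∏ v, m (attSide s t v) (z v) * c v (z v)) *
      ∏ e ∈ sideEdges (attach F K φ) (attSide s t), W (z e.1) (z e.2) := by
  classical
  have hφ' : ∀ j, t (φ j).1 = false ∧ t (φ j).2 = true := by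
    intro j
    refine ⟨(hφ j).2, ?_⟩
    have h1 := hK.1 _ _ (hφ j).1
    rw [(hφ j).2] at h1
    cases h2 : t (φ j).2
    · exact absurd h2.symm h1
    · rfl
  have hφE : ∀ j, φ j ∈ sideEdges K t := by
    intro j
    unfold sideEdges
    rw [Finset.mem_filter]
    exact ⟨mem_univ _, (hφ j).1, hφ' j⟩
  have hk : kmean m W = 1 := kmean_ds hm1 hrow
  rw [Nat.card_eq_fintype_card (α := J)] at hN hbal
  set N := Fintype.card J with hNdef
  have hE : 0 < (sideEdges K t).card := by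
    rw [card_sideEdges K t hK.1]
    exact lt_of_le_of_lt (Nat.zero_le _) (hKlt true)
  rw [← card_sideEdges K t hK.1] at hKlt hN
  have p0 := side_pos hK.1 false hE
  have p1 := side_pos hK.1 true hE
  obtain ⟨r1, r2, -⟩ := ratio_facts p0 (by rw [sideCard_eq]; exact hKlt false)
  obtain ⟨s1, s2, -⟩ := ratio_facts p1 (by rw [sideCard_eq]; exact hKlt true)
  have hNpos : 0 < N := lt_of_lt_of_le hE hN
  have hNr : (0 : ℝ) < N := by exact_mod_cast hNpos
  rw [dens_H hs hφ' cA cK cP c c1 c2 c3]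
  set D : Bool → U → ℝ := fun b x =>
    (∏ v ∈ univ.filter (fun v => t v = b), cK v x) ^ (1 / (N : ℝ)) with hD
  have hD0 : ∀ b x, 0 < D b x := fun b x =>
    Real.rpow_pos_of_pos (Finset.prod_pos fun v _ => hcK v x) _
  set lam : (A → U) → ℝ := fun r => (∏ a, m (s (Sum.inl a)) (r a)) * rootProd F s W r with hlam
  have hlam0 : ∀ r, 0 ≤ lam r := fun r =>
    mul_nonneg (Finset.prod_nonneg fun a _ => hm _ _) (pprod_nonneg hW _)
  have hlam1 : ∑ r, lam r = 1 := by
    refine forest_dens hm1 hrow hcol (Fintype.card A) A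
      (F.comap (Sum.inl : A → A ⊕ (Bool ⊕ P))) (fun a => s (Sum.inl a)) hfor
      (fun a b h => hF.1 _ _ h) rfl
  set X : (A → U) → ℝ := fun r => ∑ x, ∑ y, m false x * m true y * W x y *
    (hfun F s m W cP r x y * (D false x * D true y)) with hX
  have hX0 : ∀ r, 0 ≤ X r := fun r => Finset.sum_nonneg fun x _ => Finset.sum_nonneg fun y _ =>
    mul_nonneg (mul_nonneg (mul_nonneg (hm _ _) (hm _ _)) (hW _ _))
      (mul_nonneg (hfun_nonneg hm hW hcP _ _ _) (mul_nonneg (hD0 _ _).le (hD0 _ _).le))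
  have hKstep : ∀ r, X r ^ N ≤ ∑ y : VK → U, (∏ k, m (t k) (y k) * cK k (y k)) *
      ((∏ e ∈ sideEdges K t, W (y e.1) (y e.2)) *
        ∏ j, hfun F s m W cP r (y (φ j).1) (y (φ j).2)) := fun r =>
    attK (edeg_graph hK.1) hK.2 r1 s1 r2 s2 hE hm hm1 hW hk hφE hN
      (fun x y => hfun_nonneg hm hW hcP r x y) hcK
  have hcA0 : ∀ r : A → U, 0 < ∏ a, cA a (r a) := fun r => Finset.prod_pos fun a _ => hcA _ _
  -- Jensen's inequality over the roots
  set Y : (A → U) → ℝ := fun r => (∏ a, cA a (r a)) ^ (1 / (N : ℝ)) * X r with hY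
  have hY0 : ∀ r, 0 ≤ Y r := fun r => mul_nonneg (Real.rpow_nonneg (hcA0 r).le _) (hX0 r)
  have hJ := Real.pow_arith_mean_le_arith_mean_pow univ lam Y (fun r _ => hlam0 r) hlam1
    (fun r _ => hY0 r) N
  have hYN : ∀ r, Y r ^ N = (∏ a, cA a (r a)) * X r ^ N := by
    intro r
    simp only [hY]
    rw [mul_pow, ← Real.rpow_natCast (_ ^ (1 / (N : ℝ))), ← Real.rpow_mul (hcA0 r).le,
      one_div_mul_cancel hNr.ne', Real.rpow_one]
  -- the density of `F`
  set cA' : A → U → ℝ := fun a x => cA a x ^ (1 / (N : ℝ)) with hcA'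
  have hFd : ∑ r, lam r * Y r = ∑ z : A ⊕ (Bool ⊕ P) → U,
      (∏ v, m (s v) (z v) * (Sum.elim cA' (Sum.elim D cP) : A ⊕ (Bool ⊕ P) → U → ℝ) v (z v)) *
        ∏ e ∈ sideEdges F s, W (z e.1) (z e.2) := by
    rw [dens_F hz hs hA cA' D cP (Sum.elim cA' (Sum.elim D cP)) (fun _ => rfl) (fun _ => rfl)
      (fun _ => rfl)]
    refine Finset.sum_congr rfl fun r _ => ?_
    simp only [hlam, hY, hX, hcA']
    rw [Real.finset_prod_rpow univ (fun a => cA a (r a)) fun a _ => (hcA _ _).le]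
  have hlogD : ∀ b x, Real.log (D b x) = (1 / (N : ℝ)) *
      ∑ k ∈ univ.filter (fun k => t k = b), Real.log (cK k x) := by
    intro b x
    simp only [hD]
    rw [Real.log_rpow (Finset.prod_pos fun v _ => hcK v x), Real.log_prod
      fun v _ => (hcK v x).ne']
  have hone : 1 ≤ ∑ r, lam r * Y r := by
    rw [hFd]
    refine one_le_wdens hF.2 hm hm1 hW hrow hcol ?_ ?_
    · rintro (a | b | p) x
      · exact Real.rpow_pos_of_pos (hcA _ _) _
      · exact hD0 _ _
      · exact hcP _ _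
    · intro b x
      rw [sum_filter_sum, sum_filter_sum fun v => s (Sum.inr v)]
      have e1 : ∑ a ∈ univ.filter (fun a => s (Sum.inl a) = b),
          Real.log ((Sum.elim cA' (Sum.elim D cP) : A ⊕ (Bool ⊕ P) → U → ℝ) (Sum.inl a) x) =
          (1 / (N : ℝ)) * ∑ a ∈ univ.filter (fun a => s (Sum.inl a) = b), Real.log (cA a x) := by
        rw [Finset.mul_sum]
        refine Finset.sum_congr rfl fun a _ => ?_
        simp only [Sum.elim_inl, hcA']
        rw [Real.log_rpow (hcA _ _)]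
      have e2 : ∑ d ∈ univ.filter (fun d : Bool => s (Sum.inr (Sum.inl d)) = b),
          Real.log ((Sum.elim cA' (Sum.elim D cP) : A ⊕ (Bool ⊕ P) → U → ℝ)
            (Sum.inr (Sum.inl d)) x) = Real.log (D b x) := by
        have : (univ.filter fun d : Bool => s (Sum.inr (Sum.inl d)) = b) = {b} := by
          ext d
          simp [hs]
        rw [this, Finset.sum_singleton]
        rfl
      have e3 : ∑ p ∈ univ.filter (fun p : P => s (Sum.inr (Sum.inr p)) = b),
          Real.log ((Sum.elim cA' (Sum.elim D cP) : A ⊕ (Bool ⊕ P) → U → ℝ)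
            (Sum.inr (Sum.inr p)) x) =
          ∑ p ∈ univ.filter (fun p : P => s (Sum.inr (Sum.inr p)) = b), Real.log (cP p x) := rfl
      rw [e1, e2, e3, hlogD]
      have hb := hbal b x
      have h4 : (N : ℝ)⁻¹ * (∑ a ∈ univ.filter (fun a => s (Sum.inl a) = b), Real.log (cA a x) +
        ∑ k ∈ univ.filter (fun k => t k = b), Real.log (cK k x) + N *
        ∑ p ∈ univ.filter (fun p => s (Sum.inr (Sum.inr p)) = b), Real.log (cP p x)) = 0 := by
        rw [hb, mul_zero]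
      rw [mul_add, mul_add, inv_mul_cancel_left₀ hNr.ne'] at h4
      rw [one_div]
      linarith
  calc (1 : ℝ) ≤ (∑ r, lam r * Y r) ^ N := one_le_pow₀ hone
    _ ≤ ∑ r, lam r * Y r ^ N := hJ
    _ ≤ _ := by
      refine Finset.sum_le_sum fun r _ => ?_
      rw [hYN]
      exact mul_le_mul_of_nonneg_left (mul_le_mul_of_nonneg_left (hKstep r) (hcA0 r).le)
        (hlam0 r)

end main

end Vale.Agent.P050.H177
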