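import Vale.Agent.P050.H177.Att5

/-!
Attachments: the theorem.
-/

namespace Vale.Agent.P050.H177

open Finset Vale.Agent.P050 Vale.Agent.P050.Lev Vale.Agent.P050.Cart

section main

variable {A P VK J : Type} {F : SimpleGraph (A ⊕ (Bool ⊕ P))} {K : SimpleGraph VK}
  {φ : J → VK × VK} {s : A ⊕ (Bool ⊕ P) → Bool} {t : VK → Bool}

theorem attach_proper (hF : ∀ u v, F.Adj u v → s u ≠ s v) (hK : ∀ u v, K.Adj u v → t u ≠ t v)
    (hs : ∀ b, s (Sum.inr (Sum.inl b)) = b) (hφ : ∀ j, t (φ j).1 = false ∧ t (φ j).2 = true) :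
    ∀ u v, (attach F K φ).Adj u v → attSide s t u ≠ attSide s t v := by
  have h0 : ∀ (q : J × P) (k : VK), ((k = (φ q.1).1 ∧
      F.Adj (Sum.inr (Sum.inl false)) (Sum.inr (Sum.inr q.2))) ∨
        (k = (φ q.1).2 ∧ F.Adj (Sum.inr (Sum.inl true)) (Sum.inr (Sum.inr q.2)))) →
      t k ≠ s (Sum.inr (Sum.inr q.2)) := by
    intro q k h
    rcases h with ⟨rfl, h⟩ | ⟨rfl, h⟩
    · have := hF _ _ h
      rw [hs] at this
      rwa [(hφ q.1).1]
    · have := hF _ _ h
      rw [hs] at this
      rwa [(hφ q.1).2]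
  rintro (a | k | q) (b | l | q') h
  · exact hF _ _ h
  · exact h.elim
  · exact hF _ _ h
  · exact h.elim
  · exact hK _ _ h
  · exact h0 q' k h
  · exact (hF _ _ h).symm
  · exact (h0 q l h).symm
  · exact hF _ _ h.2

/-- the copy `j` of `F` -/
def copyMap (φ : J → VK × VK) (j : J) : A ⊕ (Bool ⊕ P) → A ⊕ (VK ⊕ (J × P))
  | Sum.inl a => Sum.inl a
  | Sum.inr (Sum.inl b) => Sum.inr (Sum.inl (if b = true then (φ j).2 else (φ j).1))
  | Sum.inr (Sum.inr p) => Sum.inr (Sum.inr (j, p))

theorem copyMap_injective (hφ : ∀ j, t (φ j).1 = false ∧ t (φ j).2 = true) (j : J) :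
    Function.Injective (copyMap φ j : A ⊕ (Bool ⊕ P) → A ⊕ (VK ⊕ (J × P))) := by
  have hne : (φ j).1 ≠ (φ j).2 := by
    intro h
    have h1 := (hφ j).1
    rw [h, (hφ j).2] at h1
    exact Bool.false_ne_true h1.symm
  rintro (a | b | p) (a' | b' | p') h
  · simp only [copyMap, Sum.inl.injEq] at h
    rw [h]
  · simp [copyMap] at h
  · simp [copyMap] at h
  · simp [copyMap] at h
  · simp only [copyMap, Sum.inr.injEq, Sum.inl.injEq] at h
    cases b <;> cases b' <;> simp at h ⊢
    · exact hne h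
    · exact hne h.symm
  · simp [copyMap] at h
  · simp [copyMap] at h
  · simp [copyMap] at h
  · simp only [copyMap, Sum.inr.injEq, Prod.mk.injEq, true_and] at h
    rw [h]

/-- the degree of a private vertex -/
theorem card_nbr (hφ : ∀ j, t (φ j).1 = false ∧ t (φ j).2 = true) (j : J) (p : P) :
    Nat.card ((attach F K φ).neighborSet (Sum.inr (Sum.inr (j, p)))) =
      Nat.card (F.neighborSet (Sum.inr (Sum.inr p))) := by
  have h : (attach F K φ).neighborSet (Sum.inr (Sum.inr (j, p))) =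
      copyMap φ j '' F.neighborSet (Sum.inr (Sum.inr p)) := by
    ext v
    rw [SimpleGraph.mem_neighborSet, Set.mem_image]
    constructor
    · intro h
      rcases v with a | k | ⟨j', p'⟩
      · exact ⟨Sum.inl a, F.symm.symm _ _ h, rfl⟩
      · rcases h with ⟨rfl, h⟩ | ⟨rfl, h⟩
        · exact ⟨Sum.inr (Sum.inl false), F.symm.symm _ _ h, rfl⟩
        · exact ⟨Sum.inr (Sum.inl true), F.symm.symm _ _ h, rfl⟩
      · obtain ⟨h1, h2⟩ := h
        simp only at h1
        subst h1
        exact ⟨Sum.inr (Sum.inr p'), h2, rfl⟩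
    · rintro ⟨w, hw, rfl⟩
      rw [SimpleGraph.mem_neighborSet] at hw
      rcases w with a | b | p'
      · exact F.symm.symm _ _ hw
      · cases b
        · exact Or.inl ⟨rfl, F.symm.symm _ _ hw⟩
        · exact Or.inr ⟨rfl, F.symm.symm _ _ hw⟩
      · exact ⟨rfl, hw⟩
  rw [h]
  exact Nat.card_image_of_injective (copyMap_injective hφ j) _

theorem sum_JP [Fintype J] [Fintype P] (s' : P → Bool) (b : Bool) (f : P → ℝ) :
    ∑ q ∈ univ.filter (fun q : J × P => s' q.2 = b), f q.2 =
      Nat.card J * ∑ p ∈ univ.filter (fun p => s' p = b), f p := by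
  have h : ∀ j : J, ∑ p : P, (if s' (j, p).2 = b then f (j, p).2 else 0) =
      ∑ p ∈ univ.filter (fun p => s' p = b), f p := fun j => (Finset.sum_filter _ _).symm
  rw [Finset.sum_filter, Fintype.sum_prod_type, Finset.sum_congr rfl fun j _ => h j,
    Finset.sum_const, Finset.card_univ, Nat.card_eq_fintype_card, nsmul_eq_mul]

variable [Fintype A] [Fintype P] [Fintype VK] [Fintype J]
  [DecidableEq A] [DecidableEq P] [DecidableEq VK] [DecidableEq J]

/-- **Attachments.** -/
theorem att_gsid (hF : GSid F s) (hK : GSid K t)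
    (hKlt : ∀ b, Nat.card {v // t v = b} < Nat.card K.edgeSet)
    (hz : F.Adj (Sum.inr (Sum.inl false)) (Sum.inr (Sum.inl true)))
    (hs : ∀ b, s (Sum.inr (Sum.inl b)) = b)
    (hA : ∀ a b, ¬ F.Adj (Sum.inl a) (Sum.inr (Sum.inl b)))
    (hfor : (F.comap (Sum.inl : A → A ⊕ (Bool ⊕ P))).IsAcyclic)
    (hφ : ∀ j, K.Adj (φ j).1 (φ j).2 ∧ t (φ j).1 = false)
    (hN : Nat.card K.edgeSet ≤ Nat.card J)
    (hlt : ∀ b, Nat.card {v // attSide (J := J) s t v = b} < Nat.card (attach F K φ).edgeSet) :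
    GSid (attach F K φ) (attSide s t) := by
  classical
  have hφ' : ∀ j, t (φ j).1 = false ∧ t (φ j).2 = true := by
    intro j
    refine ⟨(hφ j).2, ?_⟩
    have h1 := hK.1 _ _ (hφ j).1
    rw [(hφ j).2] at h1
    cases h2 : t (φ j).2
    · exact absurd h2.symm h1
    · rfl
  have h := attach_proper (F := F) (K := K) hF.1 hK.1 hs hφ'
  refine ⟨h, ?_⟩
  have hE : 0 < (sideEdges (attach F K φ) (attSide s t)).card := by
    rw [card_sideEdges _ _ h]
    exact lt_of_le_of_lt (Nat.zero_le _) (hlt true)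
  have p0 := side_pos h false hE
  have p1 := side_pos h true hE
  rw [← card_sideEdges _ _ h] at hlt
  obtain ⟨r1, r2, -⟩ := ratio_facts p0 (by rw [sideCard_eq]; exact hlt false)
  obtain ⟨s1, s2, -⟩ := ratio_facts p1 (by rw [sideCard_eq]; exact hlt true)
  refine (ksid_iff_pot (edeg_graph h) r1 s1 r2 s2 hE).2 ?_
  intro U _ m W u hn hu
  obtain ⟨hm, hm1, hW, hrow, hcol, -⟩ := hn
  set r' : ℝ := ((sideEdges (attach F K φ) (attSide s t)).card : ℝ) /
    sideCard (attSide (J := J) s t) false with hr'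
  set s' : ℝ := ((sideEdges (attach F K φ) (attSide s t)).card : ℝ) /
    sideCard (attSide (J := J) s t) true with hs'
  set c : A ⊕ (VK ⊕ (J × P)) → U → ℝ := fun v x => u (attSide s t v) x ^
    ((if attSide s t v then s' else r') - Nat.card ((attach F K φ).neighborSet v)) with hc
  have hcpos : ∀ v x, 0 < c v x := fun v x => Real.rpow_pos_of_pos (hu _ _) _
  set cP : P → U → ℝ := fun p x => u (s (Sum.inr (Sum.inr p))) x ^
    ((if s (Sum.inr (Sum.inr p)) then s' else r') -
      Nat.card (F.neighborSet (Sum.inr (Sum.inr p)))) with hcP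
  have hcPpos : ∀ v x, 0 < cP v x := fun v x => Real.rpow_pos_of_pos (hu _ _) _
  have c3 : ∀ q : J × P, c (Sum.inr (Sum.inr q)) = cP q.2 := by
    rintro ⟨j, p⟩
    funext x
    simp only [hc, hcP]
    rw [card_nbr hφ' j p]
    rfl
  have hbalH : ∀ b x, ∑ v ∈ univ.filter (fun v => attSide (J := J) s t v = b),
      Real.log (c v x) = 0 := by
    intro b x
    have e1 : ∀ v ∈ univ.filter (fun v => attSide (J := J) s t v = b), Real.log (c v x) =
        ((if b then s' else r') - Nat.card ((attach F K φ).neighborSet v)) *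
          Real.log (u b x) := by
      intro v hv
      have hv' := (Finset.mem_filter.1 hv).2
      simp only [hc]
      rw [Real.log_rpow (hu _ _), hv']
    rw [Finset.sum_congr rfl e1, ← Finset.sum_mul, (edeg_graph h).balance r2 s2 b, zero_mul]
  have hbal : ∀ b x, ∑ a ∈ univ.filter (fun a => s (Sum.inl a) = b),
      Real.log (c (Sum.inl a) x) + ∑ k ∈ univ.filter (fun k => t k = b),
      Real.log (c (Sum.inr (Sum.inl k)) x) + Nat.card J *
      ∑ p ∈ univ.filter (fun p => s (Sum.inr (Sum.inr p)) = b), Real.log (cP p x) = 0 := by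
    intro b x
    rw [← hbalH b x, sum_filter_sum, sum_filter_sum fun v => attSide (J := J) s t (Sum.inr v),
      ← sum_JP (J := J) (fun p => s (Sum.inr (Sum.inr p))) b fun p => Real.log (cP p x),
      add_assoc]
    congr 2
    refine Finset.sum_congr rfl fun q _ => ?_
    rw [c3]
  exact att_core hF hK hKlt hz hs hA hfor hφ hN hm hm1 hW hrow hcol
    (cA := fun a => c (Sum.inl a)) (cK := fun k => c (Sum.inr (Sum.inl k)))
    (fun a x => hcpos _ _) (fun a x => hcpos _ _) hcPpos hbal c (fun _ => rfl) (fun _ => rfl) c3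

end main

end Vale.Agent.P050.H177
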