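import Vale.Agent.P050.H177.Att6

/-!
Attachments: graphs without isolated vertices.
-/

namespace Vale.Agent.P050.H177

open Finset Vale.Agent.P050 Vale.Agent.P050.Lev Vale.Agent.P050.Cart

/-- the number of edges is the sum of the degrees of one side -/
theorem edges_eq_sum {V : Type} [Fintype V] [DecidableEq V] {H : SimpleGraph V} {side : V → Bool}
    (h : ∀ u v, H.Adj u v → side u ≠ side v) (b : Bool) :
    Nat.card H.edgeSet =
      ∑ v ∈ univ.filter (fun v => side v = b), Nat.card (H.neighborSet v) := by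
  have h1 := (edeg_graph h).sum_side_card b
  rw [card_sideEdges H side h] at h1
  exact_mod_cast h1.symm

theorem card_nbr_pos {V : Type} [Fintype V] {H : SimpleGraph V} {v : V} (h : ∃ w, H.Adj v w) :
    1 ≤ Nat.card (H.neighborSet v) := by
  obtain ⟨w, hw⟩ := h
  have : Nonempty (H.neighborSet v) := ⟨⟨w, hw⟩⟩
  exact Nat.card_pos

/-- a graph without isolated vertices in which some vertex of the side `b` has degree at least two
has more edges than vertices of the side `b` -/
theorem side_lt_edges {V : Type} [Fintype V] [DecidableEq V] {H : SimpleGraph V}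
    {side : V → Bool} (h : ∀ u v, H.Adj u v → side u ≠ side v) (b : Bool)
    (hiso : ∀ v, ∃ w, H.Adj v w) {v₀ : V} (hv₀ : side v₀ = b)
    (h2 : 2 ≤ Nat.card (H.neighborSet v₀)) :
    Nat.card {v // side v = b} < Nat.card H.edgeSet := by
  rw [edges_eq_sum h b, Nat.card_eq_fintype_card, Fintype.card_subtype, Finset.card_eq_sum_ones]
  exact Finset.sum_lt_sum (fun v _ => card_nbr_pos (hiso v))
    ⟨v₀, Finset.mem_filter.2 ⟨mem_univ _, hv₀⟩, h2⟩

/-- conversely, if there are more edges than vertices of the side `b`, some vertex has degree at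
least two -/
theorem exists_deg_two {V : Type} [Fintype V] [DecidableEq V] {H : SimpleGraph V}
    {side : V → Bool} (h : ∀ u v, H.Adj u v → side u ≠ side v) (b : Bool)
    (hlt : Nat.card {v // side v = b} < Nat.card H.edgeSet) :
    ∃ v, side v = b ∧ 2 ≤ Nat.card (H.neighborSet v) := by
  by_contra hcon
  push Not at hcon
  rw [edges_eq_sum h b, Nat.card_eq_fintype_card, Fintype.card_subtype,
    Finset.card_eq_sum_ones] at hlt
  refine absurd hlt (not_lt.2 (Finset.sum_le_sum fun v hv => ?_))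
  have := hcon v (Finset.mem_filter.1 hv).2
  omega

section main

variable {A P VK J : Type} {F : SimpleGraph (A ⊕ (Bool ⊕ P))} {K : SimpleGraph VK}
  {φ : J → VK × VK} {s : A ⊕ (Bool ⊕ P) → Bool} {t : VK → Bool}
variable [Fintype A] [Fintype P] [Fintype VK] [Fintype J]
  [DecidableEq A] [DecidableEq P] [DecidableEq VK] [DecidableEq J]

/-- **Attachments.** -/
theorem att_gsid' (hF : GSid F s) (hK : GSid K t) (hFiso : ∀ v, ∃ w, F.Adj v w)
    (hKiso : ∀ v, ∃ w, K.Adj v w)
    (hKlt : ∀ b, Nat.card {v // t v = b} < Nat.card K.edgeSet)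
    (hz : F.Adj (Sum.inr (Sum.inl false)) (Sum.inr (Sum.inl true)))
    (hs : ∀ b, s (Sum.inr (Sum.inl b)) = b)
    (hA : ∀ a b, ¬ F.Adj (Sum.inl a) (Sum.inr (Sum.inl b)))
    (hfor : (F.comap (Sum.inl : A → A ⊕ (Bool ⊕ P))).IsAcyclic)
    (hφ : ∀ j, K.Adj (φ j).1 (φ j).2 ∧ t (φ j).1 = false)
    (hN : Nat.card K.edgeSet ≤ Nat.card J) :
    GSid (attach F K φ) (attSide s t) := by
  classical
  have hφ' : ∀ j, t (φ j).1 = false ∧ t (φ j).2 = true := by
    intro j
    refine ⟨(hφ j).2, ?_⟩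
    have h1 := hK.1 _ _ (hφ j).1
    rw [(hφ j).2] at h1
    cases h2 : t (φ j).2
    · exact absurd h2.symm h1
    · rfl
  have h := attach_proper (F := F) (K := K) hF.1 hK.1 hs hφ'
  have hJ : Nonempty J := by
    have : 0 < Nat.card J := lt_of_lt_of_le (lt_of_le_of_lt (Nat.zero_le _) (hKlt true)) hN
    exact (Nat.card_pos_iff.1 this).1
  obtain ⟨j₀⟩ := hJ
  refine att_gsid hF hK hKlt hz hs hA hfor hφ hN fun b => ?_
  obtain ⟨k, hk, hk2⟩ := exists_deg_two hK.1 b (hKlt b)
  refine side_lt_edges h b ?_ (v₀ := Sum.inr (Sum.inl k)) hk ?_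
  · rintro (a | k | ⟨j, p⟩)
    · obtain ⟨w, hw⟩ := hFiso (Sum.inl a)
      rcases w with a' | b' | p
      · exact ⟨Sum.inl a', hw⟩
      · exact absurd hw (hA a b')
      · exact ⟨Sum.inr (Sum.inr (j₀, p)), hw⟩
    · obtain ⟨l, hl⟩ := hKiso k
      exact ⟨Sum.inr (Sum.inl l), hl⟩
    · obtain ⟨w, hw⟩ := hFiso (Sum.inr (Sum.inr p))
      rcases w with a' | b' | p'
      · exact ⟨Sum.inl a', F.symm.symm _ _ hw⟩
      · cases b'
        · exact ⟨Sum.inr (Sum.inl (φ j).1), Or.inl ⟨rfl, F.symm.symm _ _ hw⟩⟩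
        · exact ⟨Sum.inr (Sum.inl (φ j).2), Or.inr ⟨rfl, F.symm.symm _ _ hw⟩⟩
      · exact ⟨Sum.inr (Sum.inr (j, p')), rfl, hw⟩
  · refine hk2.trans ?_
    refine Nat.card_le_card_of_injective
      (fun w : K.neighborSet k => (⟨Sum.inr (Sum.inl w.1), w.2⟩ :
        (attach F K φ).neighborSet (Sum.inr (Sum.inl k)))) ?_
    intro w w' hww
    have := congrArg Subtype.val hww
    simp only [Sum.inr.injEq, Sum.inl.injEq] at this
    exact Subtype.ext this

end main

end Vale.Agent.P050.H177
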