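import Vale.Agent.P050.H177.Att7

/-!
Attachments with roots joined to one side of `K`: the graph, and its homomorphism density.
-/

namespace Vale.Agent.P050.H177

open Finset Vale.Agent.P050 Vale.Agent.P050.Lev

/-- `F` is a graph with the roots `A`, two further vertices `0`, `1` (a marked pair) and the other
vertices `P`; `K` is a graph with the 2-colouring `t`, `φ j` a pair of vertices of `K` for each
`j : J`. The graph `joins` consists of the vertices of `K` and, for each `j`, of a copy of `F`,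
whose marked pair is `φ j`; all copies have the roots `A` in common, and a root that is adjacent to
the marked vertex `b` in `F` is adjacent to all vertices of `K` of the colour `b`. The edges of `K`
are kept if the marked pair is an edge of `F`; otherwise they are deleted. -/
def joins {A P VK J : Type} (F : SimpleGraph (A ⊕ (Bool ⊕ P))) (K : SimpleGraph VK)
    (t : VK → Bool) (φ : J → VK × VK) : SimpleGraph (A ⊕ (VK ⊕ (J × P))) where
  Adj
    | Sum.inl a, Sum.inl b => F.Adj (Sum.inl a) (Sum.inl b)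
    | Sum.inl a, Sum.inr (Sum.inl k) => F.Adj (Sum.inl a) (Sum.inr (Sum.inl (t k)))
    | Sum.inl a, Sum.inr (Sum.inr q) => F.Adj (Sum.inl a) (Sum.inr (Sum.inr q.2))
    | Sum.inr (Sum.inl k), Sum.inl a => F.Adj (Sum.inl a) (Sum.inr (Sum.inl (t k)))
    | Sum.inr (Sum.inl k), Sum.inr (Sum.inl l) =>
      F.Adj (Sum.inr (Sum.inl false)) (Sum.inr (Sum.inl true)) ∧ K.Adj k l
    | Sum.inr (Sum.inl k), Sum.inr (Sum.inr q) =>
      (k = (φ q.1).1 ∧ F.Adj (Sum.inr (Sum.inl false)) (Sum.inr (Sum.inr q.2))) ∨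
        (k = (φ q.1).2 ∧ F.Adj (Sum.inr (Sum.inl true)) (Sum.inr (Sum.inr q.2)))
    | Sum.inr (Sum.inr q), Sum.inl a => F.Adj (Sum.inl a) (Sum.inr (Sum.inr q.2))
    | Sum.inr (Sum.inr q), Sum.inr (Sum.inl k) =>
      (k = (φ q.1).1 ∧ F.Adj (Sum.inr (Sum.inl false)) (Sum.inr (Sum.inr q.2))) ∨
        (k = (φ q.1).2 ∧ F.Adj (Sum.inr (Sum.inl true)) (Sum.inr (Sum.inr q.2)))
    | Sum.inr (Sum.inr q), Sum.inr (Sum.inr q') =>
      q.1 = q'.1 ∧ F.Adj (Sum.inr (Sum.inr q.2)) (Sum.inr (Sum.inr q'.2))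
  symm := ⟨by
    rintro (a | k | q) (b | l | q') h
    · exact F.symm.symm _ _ h
    · exact h
    · exact h
    · exact h
    · exact ⟨h.1, K.symm.symm _ _ h.2⟩
    · exact h
    · exact h
    · exact h
    · exact ⟨h.1.symm, F.symm.symm _ _ h.2⟩⟩
  loopless := ⟨by
    rintro (a | k | q) h
    · exact F.loopless.irrefl _ h
    · exact K.loopless.irrefl _ h.2
    · exact F.loopless.irrefl _ h.2⟩

/-- the 2-colouring of `joins` -/
def joinSide {A P VK J : Type} (s : A ⊕ (Bool ⊕ P) → Bool) (t : VK → Bool) :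
    A ⊕ (VK ⊕ (J × P)) → Bool
  | Sum.inl a => s (Sum.inl a)
  | Sum.inr (Sum.inl k) => s (Sum.inr (Sum.inl (t k)))
  | Sum.inr (Sum.inr q) => s (Sum.inr (Sum.inr q.2))

section

variable {A P VK J U : Type} [Fintype A] [Fintype P] [Fintype VK] [Fintype J]
  {F : SimpleGraph (A ⊕ (Bool ⊕ P))} {K : SimpleGraph VK} {φ : J → VK × VK}
  {s : A ⊕ (Bool ⊕ P) → Bool} {t : VK → Bool} {W : U → U → ℝ}

/-- the edges from the roots to the marked vertex `b` -/
noncomputable def alph (F : SimpleGraph (A ⊕ (Bool ⊕ P))) (s : A ⊕ (Bool ⊕ P) → Bool)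
    (W : U → U → ℝ) (r : A → U) (b : Bool) (x : U) : ℝ :=
  (∏ a, open Classical in
    if F.Adj (Sum.inl a) (Sum.inr (Sum.inl b)) ∧ s (Sum.inl a) = false ∧
      s (Sum.inr (Sum.inl b)) = true then W (r a) x else 1) *
  ∏ a, open Classical in
    if F.Adj (Sum.inl a) (Sum.inr (Sum.inl b)) ∧ s (Sum.inr (Sum.inl b)) = false ∧
      s (Sum.inl a) = true then W x (r a) else 1

theorem alph_nonneg (hW : ∀ x y, 0 ≤ W x y) (r : A → U) (b : Bool) (x : U) :
    0 ≤ alph F s W r b x := by
  unfold alph
  refine mul_nonneg (Finset.prod_nonneg fun a _ => ?_) (Finset.prod_nonneg fun a _ => ?_) <;>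
  · split_ifs
    · exact hW _ _
    · exact zero_le_one

open Classical in
/-- the kernel of the marked pair -/
noncomputable def markW (F : SimpleGraph (A ⊕ (Bool ⊕ P))) (W : U → U → ℝ) (x y : U) : ℝ :=
  if F.Adj (Sum.inr (Sum.inl false)) (Sum.inr (Sum.inl true)) then W x y else 1

theorem markW_nonneg (hW : ∀ x y, 0 ≤ W x y) (x y : U) : 0 ≤ markW F W x y := by
  unfold markW
  split_ifs
  · exact hW _ _
  · exact zero_le_one

theorem pprod_F' (hs : F.Adj (Sum.inr (Sum.inl false)) (Sum.inr (Sum.inl true)) →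
      ∀ b, s (Sum.inr (Sum.inl b)) = b) (r : A → U) (x y : U) (q : P → U) :
    pprod F s W (glueF r x y q) = rootProd F s W r *
      ((alph F s W r false x * alph F s W r true y) *
        (markW F W x y * restProd F s W r x y q)) := by
  classical
  rw [pprod_three]
  have h1 : bb F s W (fun y : Bool => Sum.inr (Sum.inl y)) (fun y : Bool => Sum.inr (Sum.inl y))
      (glueF r x y q) = markW F W x y := by
    unfold bb markW
    rw [Fintype.prod_bool, Fintype.prod_bool, Fintype.prod_bool]
    by_cases hz : F.Adj (Sum.inr (Sum.inl false)) (Sum.inr (Sum.inl true))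
    · have s0 := hs hz false
      have s1 := hs hz true
      rw [if_neg, if_neg, if_pos, if_neg, if_pos hz]
      · simp [glueF]
      · rintro ⟨-, -, h⟩
        rw [s0] at h
        exact Bool.false_ne_true h
      · exact ⟨hz, s0, s1⟩
      · rintro ⟨-, h, -⟩
        rw [s1] at h
        exact Bool.false_ne_true h.symm
      · rintro ⟨-, h, -⟩
        rw [s1] at h
        exact Bool.false_ne_true h.symm
    · rw [if_neg fun h => F.loopless.irrefl _ h.1, if_neg fun h => hz (F.symm.symm _ _ h.1),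
        if_neg fun h => hz h.1, if_neg fun h => F.loopless.irrefl _ h.1, if_neg hz]
      norm_num
  have h2 : bb F s W (fun x : A => Sum.inl x) (fun x : A => Sum.inl x) (glueF r x y q) =
      rootProd F s W r := rfl
  have h3 : bb F s W (fun x : A => Sum.inl x) (fun y : Bool => Sum.inr (Sum.inl y))
      (glueF r x y q) * bb F s W (fun y : Bool => Sum.inr (Sum.inl y))
      (fun x : A => Sum.inl x) (glueF r x y q) =
      alph F s W r false x * alph F s W r true y := by
    unfold bb alph
    rw [Finset.prod_comm, Fintype.prod_bool, Fintype.prod_bool]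
    have f1 : ∀ a : A, ∀ b : Bool, F.Adj (Sum.inr (Sum.inl b)) (Sum.inl a) ↔
        F.Adj (Sum.inl a) (Sum.inr (Sum.inl b)) := fun a b => F.adj_comm _ _
    simp only [f1, glueF]
    simp only [if_true, Bool.false_eq_true, if_false]
    ring
  rw [h1, h2]
  unfold restProd
  rw [← h3]
  ring

theorem pprod_H' (hs : F.Adj (Sum.inr (Sum.inl false)) (Sum.inr (Sum.inl true)) →
      ∀ b, s (Sum.inr (Sum.inl b)) = b)
    (hφ : ∀ j, t (φ j).1 = false ∧ t (φ j).2 = true) (r : A → U) (y : VK → U) (q : J × P → U) :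
    pprod (joins F K t φ) (joinSide s t) W (glueH r y q) =
      rootProd F s W r * ((∏ k, alph F s W r (t k) (y k)) * (pprod K t (markW F W) y *
        ∏ j, restProd F s W r (y (φ j).1) (y (φ j).2) fun p => q (j, p))) := by
  classical
  rw [pprod_three]
  have h0 : bb (joins F K t φ) (joinSide s t) W (fun x : A => Sum.inl x)
      (fun y : VK => Sum.inr (Sum.inl y)) (glueH r y q) *
      bb (joins F K t φ) (joinSide s t) W (fun y : VK => Sum.inr (Sum.inl y))
      (fun x : A => Sum.inl x) (glueH r y q) = ∏ k, alph F s W r (t k) (y k) := by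
    unfold bb alph
    rw [Finset.prod_comm, ← Finset.prod_mul_distrib]
    rfl
  have h1 : bb (joins F K t φ) (joinSide s t) W (fun x : A => Sum.inl x) (fun x : A => Sum.inl x)
      (glueH r y q) = rootProd F s W r := rfl
  have h2 : bb (joins F K t φ) (joinSide s t) W (fun y : VK => Sum.inr (Sum.inl y))
      (fun y : VK => Sum.inr (Sum.inl y)) (glueH r y q) = pprod K t (markW F W) y := by
    unfold bb pprod markW
    refine Finset.prod_congr rfl fun k _ => Finset.prod_congr rfl fun l _ => ?_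
    by_cases hz : F.Adj (Sum.inr (Sum.inl false)) (Sum.inr (Sum.inl true))
    · have e : ((joins F K t φ).Adj (Sum.inr (Sum.inl k)) (Sum.inr (Sum.inl l)) ∧
          joinSide (J := J) s t (Sum.inr (Sum.inl k)) = false ∧
          joinSide (J := J) s t (Sum.inr (Sum.inl l)) = true) ↔
          (K.Adj k l ∧ t k = false ∧ t l = true) := by
        change ((F.Adj (Sum.inr (Sum.inl false)) (Sum.inr (Sum.inl true)) ∧ K.Adj k l) ∧
          s (Sum.inr (Sum.inl (t k))) = false ∧ s (Sum.inr (Sum.inl (t l))) = true) ↔ _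
        rw [hs hz, hs hz]
        exact ⟨fun h => ⟨h.1.2, h.2⟩, fun h => ⟨⟨hz, h.1⟩, h.2⟩⟩
      simp only [e, hz, if_true]
      rfl
    · rw [if_neg fun h => hz h.1.1, if_neg hz]
      split_ifs <;> rfl
  have h3 : bb (joins F K t φ) (joinSide s t) W (fun x : A => Sum.inl x)
      (fun y : J × P => Sum.inr (Sum.inr y)) (glueH r y q) =
      ∏ j, bb F s W (fun x : A => Sum.inl x) (fun y : P => Sum.inr (Sum.inr y))
        (glueF r (y (φ j).1) (y (φ j).2) fun p => q (j, p)) := by
    unfold bb
    rw [Finset.prod_comm, Fintype.prod_prod_type]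
    refine Finset.prod_congr rfl fun j _ => ?_
    rw [Finset.prod_comm]
    rfl
  have h4 : bb (joins F K t φ) (joinSide s t) W (fun y : J × P => Sum.inr (Sum.inr y))
      (fun x : A => Sum.inl x) (glueH r y q) =
      ∏ j, bb F s W (fun y : P => Sum.inr (Sum.inr y)) (fun x : A => Sum.inl x)
        (glueF r (y (φ j).1) (y (φ j).2) fun p => q (j, p)) := by
    unfold bb
    rw [Fintype.prod_prod_type]
    refine Finset.prod_congr rfl fun j _ => Finset.prod_congr rfl fun p _ =>
      Finset.prod_congr rfl fun a _ => ?_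
    have e : (joins F K t φ).Adj (Sum.inr (Sum.inr (j, p))) (Sum.inl a) ↔
        F.Adj (Sum.inr (Sum.inr p)) (Sum.inl a) :=
      ⟨fun h => F.symm.symm _ _ h, fun h => F.symm.symm _ _ h⟩
    simp only [e]
    rfl
  have h5 : bb (joins F K t φ) (joinSide s t) W (fun y : J × P => Sum.inr (Sum.inr y))
      (fun y : J × P => Sum.inr (Sum.inr y)) (glueH r y q) =
      ∏ j, bb F s W (fun y : P => Sum.inr (Sum.inr y)) (fun y : P => Sum.inr (Sum.inr y))
        (glueF r (y (φ j).1) (y (φ j).2) fun p => q (j, p)) := by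
    unfold bb
    rw [Fintype.prod_prod_type]
    refine Finset.prod_congr rfl fun j _ => Finset.prod_congr rfl fun p _ => ?_
    rw [Fintype.prod_prod_type, Finset.prod_eq_single j]
    · refine Finset.prod_congr rfl fun p' _ => ?_
      have e : (joins F K t φ).Adj (Sum.inr (Sum.inr (j, p))) (Sum.inr (Sum.inr (j, p'))) ↔
          F.Adj (Sum.inr (Sum.inr p)) (Sum.inr (Sum.inr p')) :=
        ⟨fun h => h.2, fun h => ⟨rfl, h⟩⟩
      simp only [e]
      rfl
    · intro j' _ hj'
      exact Finset.prod_eq_one fun p' _ => if_neg fun h => hj' h.1.1.symm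
    · intro h
      exact absurd (mem_univ _) h
  have hne : ∀ j, (φ j).2 ≠ (φ j).1 := by
    intro j h
    have h1 := (hφ j).1
    rw [← h, (hφ j).2] at h1
    exact Bool.false_ne_true h1.symm
  have hA1 : ∀ j p, (joins F K t φ).Adj (Sum.inr (Sum.inl (φ j).1)) (Sum.inr (Sum.inr (j, p))) ↔
      F.Adj (Sum.inr (Sum.inl false)) (Sum.inr (Sum.inr p)) := by
    intro j p
    constructor
    · rintro (⟨-, h⟩ | ⟨h, -⟩)
      · exact h
      · exact absurd h.symm (hne j)
    · exact fun h => Or.inl ⟨rfl, h⟩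
  have hA2 : ∀ j p, (joins F K t φ).Adj (Sum.inr (Sum.inl (φ j).2)) (Sum.inr (Sum.inr (j, p))) ↔
      F.Adj (Sum.inr (Sum.inl true)) (Sum.inr (Sum.inr p)) := by
    intro j p
    constructor
    · rintro (⟨h, -⟩ | ⟨-, h⟩)
      · exact absurd h (hne j)
      · exact h
    · exact fun h => Or.inr ⟨rfl, h⟩
  have hs1 : ∀ j, joinSide (J := J) s t (Sum.inr (Sum.inl (φ j).1)) =
      s (Sum.inr (Sum.inl false)) := by
    intro j
    change s (Sum.inr (Sum.inl (t (φ j).1))) = _
    rw [(hφ j).1]
  have hs2 : ∀ j, joinSide (J := J) s t (Sum.inr (Sum.inl (φ j).2)) =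
      s (Sum.inr (Sum.inl true)) := by
    intro j
    change s (Sum.inr (Sum.inl (t (φ j).2))) = _
    rw [(hφ j).2]
  have h6 : bb (joins F K t φ) (joinSide s t) W (fun y : VK => Sum.inr (Sum.inl y))
      (fun y : J × P => Sum.inr (Sum.inr y)) (glueH r y q) =
      ∏ j, bb F s W (fun y : Bool => Sum.inr (Sum.inl y)) (fun y : P => Sum.inr (Sum.inr y))
        (glueF r (y (φ j).1) (y (φ j).2) fun p => q (j, p)) := by
    unfold bb
    rw [Finset.prod_comm, Fintype.prod_prod_type]
    refine Finset.prod_congr rfl fun j _ => ?_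
    rw [Fintype.prod_bool, ← Finset.prod_mul_distrib]
    refine Finset.prod_congr rfl fun p _ => ?_
    rw [Finset.prod_eq_mul (φ j).2 (φ j).1 (hne j)]
    · simp only [hA1, hA2, hs1, hs2]
      rfl
    · intro k _ hk
      refine if_neg ?_
      rintro ⟨h1, -⟩
      rcases h1 with ⟨h1, -⟩ | ⟨h1, -⟩
      · exact hk.2 h1
      · exact hk.1 h1
    · intro h
      exact absurd (mem_univ _) h
    · intro h
      exact absurd (mem_univ _) h
  have h7 : bb (joins F K t φ) (joinSide s t) W (fun y : J × P => Sum.inr (Sum.inr y))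
      (fun y : VK => Sum.inr (Sum.inl y)) (glueH r y q) =
      ∏ j, bb F s W (fun y : P => Sum.inr (Sum.inr y)) (fun y : Bool => Sum.inr (Sum.inl y))
        (glueF r (y (φ j).1) (y (φ j).2) fun p => q (j, p)) := by
    unfold bb
    rw [Fintype.prod_prod_type]
    refine Finset.prod_congr rfl fun j _ => Finset.prod_congr rfl fun p _ => ?_
    rw [Fintype.prod_bool, Finset.prod_eq_mul (φ j).2 (φ j).1 (hne j)]
    · have g1 : (joins F K t φ).Adj (Sum.inr (Sum.inr (j, p))) (Sum.inr (Sum.inl (φ j).1)) ↔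
          F.Adj (Sum.inr (Sum.inr p)) (Sum.inr (Sum.inl false)) := by
        rw [SimpleGraph.adj_comm, hA1, SimpleGraph.adj_comm]
      have g2 : (joins F K t φ).Adj (Sum.inr (Sum.inr (j, p))) (Sum.inr (Sum.inl (φ j).2)) ↔
          F.Adj (Sum.inr (Sum.inr p)) (Sum.inr (Sum.inl true)) := by
        rw [SimpleGraph.adj_comm, hA2, SimpleGraph.adj_comm]
      simp only [g1, g2, hs1, hs2]
      rfl
    · intro k _ hk
      refine if_neg ?_
      rintro ⟨h1, -⟩
      rcases h1 with ⟨h1, -⟩ | ⟨h1, -⟩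
      · exact hk.2 h1
      · exact hk.1 h1
    · intro h
      exact absurd (mem_univ _) h
    · intro h
      exact absurd (mem_univ _) h
  rw [h1, h2, h3, h4, h5, h6, h7, ← h0]
  unfold restProd
  simp only [Finset.prod_mul_distrib]
  ring

end

end Vale.Agent.P050.H177
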