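import Vale.Agent.P050.H177.Att8

/-!
Attachments with roots joined to one side of `K`: densities, and forests.
-/

namespace Vale.Agent.P050.H177

open Finset Vale.Agent.P050 Vale.Agent.P050.Lev Vale.Agent.P050.Cart

/-- the graph on the roots and the marked pair: the edges to the marked vertex `b` are present if
`S b`, the marked edge is present if `e` -/
def frame {A P : Type} (F : SimpleGraph (A ⊕ (Bool ⊕ P))) (S : Bool → Prop) (e : Prop) :
    SimpleGraph (A ⊕ Bool) where
  Adj
    | Sum.inl a, Sum.inl b => F.Adj (Sum.inl a) (Sum.inl b)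
    | Sum.inl a, Sum.inr b => S b ∧ F.Adj (Sum.inl a) (Sum.inr (Sum.inl b))
    | Sum.inr b, Sum.inl a => S b ∧ F.Adj (Sum.inl a) (Sum.inr (Sum.inl b))
    | Sum.inr b, Sum.inr c => e ∧ F.Adj (Sum.inr (Sum.inl b)) (Sum.inr (Sum.inl c))
  symm := ⟨by
    rintro (a | k) (b | l) h
    · exact F.symm.symm _ _ h
    · exact h
    · exact h
    · exact ⟨h.1, F.symm.symm _ _ h.2⟩⟩
  loopless := ⟨by
    rintro (a | k) h
    · exact F.loopless.irrefl _ h
    · exact F.loopless.irrefl _ h.2⟩

theorem pprod_two {X Y U : Type} [Fintype X] [Fintype Y]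
    (F : SimpleGraph (X ⊕ Y)) (s : X ⊕ Y → Bool) (W : U → U → ℝ) (z : X ⊕ Y → U) :
    pprod F s W z =
      (bb F s W (fun x : X => Sum.inl x) (fun x : X => Sum.inl x) z *
      bb F s W (fun x : X => Sum.inl x) (fun y : Y => Sum.inr y) z) *
      (bb F s W (fun y : Y => Sum.inr y) (fun x : X => Sum.inl x) z *
      bb F s W (fun y : Y => Sum.inr y) (fun y : Y => Sum.inr y) z) := by
  have h : pprod F s W z = bb F s W (fun x : X ⊕ Y => x) (fun x : X ⊕ Y => x) z := rfl
  rw [h, bb_left, bb_right (fun x : X => Sum.inl x) (fun x : X ⊕ Y => x),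
    bb_right (fun x : Y => Sum.inr x) (fun x : X ⊕ Y => x)]

section main

variable {A P VK J U : Type} [Fintype A] [Fintype P] [Fintype VK] [Fintype J]
  [DecidableEq A] [DecidableEq P] [DecidableEq VK] [DecidableEq J] [Fintype U]
  {F : SimpleGraph (A ⊕ (Bool ⊕ P))} {K : SimpleGraph VK} {φ : J → VK × VK}
  {s : A ⊕ (Bool ⊕ P) → Bool} {t : VK → Bool} {m : Bool → U → ℝ} {W : U → U → ℝ}

/-- the colouring of the roots and of the marked pair -/
def frameSide (s : A ⊕ (Bool ⊕ P) → Bool) : A ⊕ Bool → Bool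
  | Sum.inl a => s (Sum.inl a)
  | Sum.inr b => s (Sum.inr (Sum.inl b))

open Classical in
theorem pprod_frame (S : Bool → Prop) (e : Prop)
    (hz : e → F.Adj (Sum.inr (Sum.inl false)) (Sum.inr (Sum.inl true)))
    (hs : F.Adj (Sum.inr (Sum.inl false)) (Sum.inr (Sum.inl true)) →
      ∀ b, s (Sum.inr (Sum.inl b)) = b) (r : A → U) (z : Bool → U) :
    pprod (frame F S e) (frameSide s) W (Sum.elim r z) = rootProd F s W r *
      (((if S false then alph F s W r false (z false) else 1) *
        (if S true then alph F s W r true (z true) else 1)) *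
        (if e then W (z false) (z true) else 1)) := by
  rw [pprod_two]
  have h1 : bb (frame F S e) (frameSide s) W (fun y : Bool => Sum.inr y)
      (fun y : Bool => Sum.inr y) (Sum.elim r z) = if e then W (z false) (z true) else 1 := by
    unfold bb
    rw [Fintype.prod_bool, Fintype.prod_bool, Fintype.prod_bool]
    by_cases he : e
    · have s0 := hs (hz he) false
      have s1 := hs (hz he) true
      have n1 : ¬ ((frame F S e).Adj (Sum.inr true) (Sum.inr true) ∧
          frameSide s (Sum.inr true) = false ∧ frameSide s (Sum.inr true) = true) := by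
        rintro ⟨-, h, -⟩
        change s (Sum.inr (Sum.inl true)) = false at h
        rw [s1] at h
        exact Bool.false_ne_true h.symm
      have n2 : ¬ ((frame F S e).Adj (Sum.inr true) (Sum.inr false) ∧
          frameSide s (Sum.inr true) = false ∧ frameSide s (Sum.inr false) = true) := by
        rintro ⟨-, h, -⟩
        change s (Sum.inr (Sum.inl true)) = false at h
        rw [s1] at h
        exact Bool.false_ne_true h.symm
      have n3 : ¬ ((frame F S e).Adj (Sum.inr false) (Sum.inr false) ∧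
          frameSide s (Sum.inr false) = false ∧ frameSide s (Sum.inr false) = true) := by
        rintro ⟨-, -, h⟩
        change s (Sum.inr (Sum.inl false)) = true at h
        rw [s0] at h
        exact Bool.false_ne_true h
      have n4 : (frame F S e).Adj (Sum.inr false) (Sum.inr true) ∧
          frameSide s (Sum.inr false) = false ∧ frameSide s (Sum.inr true) = true :=
        ⟨⟨he, hz he⟩, s0, s1⟩
      have n5 := iff_true_intro n4
      rw [if_pos he]
      simp only [n1, n2, n3, n5, if_false, if_true, one_mul, mul_one, Sum.elim_inr]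
    · rw [if_neg fun h => he h.1.1, if_neg fun h => he h.1.1, if_neg fun h => he h.1.1,
        if_neg fun h => he h.1.1, if_neg he]
      norm_num
  have h2 : bb (frame F S e) (frameSide s) W (fun x : A => Sum.inl x) (fun x : A => Sum.inl x)
      (Sum.elim r z) = rootProd F s W r := rfl
  have h3 : bb (frame F S e) (frameSide s) W (fun x : A => Sum.inl x) (fun y : Bool => Sum.inr y)
      (Sum.elim r z) * bb (frame F S e) (frameSide s) W (fun y : Bool => Sum.inr y)
      (fun x : A => Sum.inl x) (Sum.elim r z) =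
      (if S false then alph F s W r false (z false) else 1) *
        (if S true then alph F s W r true (z true) else 1) := by
    have h4 : ∀ b, (∏ a : A, if (frame F S e).Adj (Sum.inl a) (Sum.inr b) ∧
          frameSide s (Sum.inl a) = false ∧ frameSide s (Sum.inr b) = true
          then W (r a) (z b) else 1) * (∏ a : A, if (frame F S e).Adj (Sum.inr b) (Sum.inl a) ∧
          frameSide s (Sum.inr b) = false ∧ frameSide s (Sum.inl a) = true
          then W (z b) (r a) else 1) = if S b then alph F s W r b (z b) else 1 := by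
      intro b
      by_cases hb : S b
      · rw [if_pos hb]
        unfold alph
        congr 1
        · refine Finset.prod_congr rfl fun a _ => ?_
          have : ((frame F S e).Adj (Sum.inl a) (Sum.inr b) ∧
              frameSide s (Sum.inl a) = false ∧ frameSide s (Sum.inr b) = true) ↔
              (F.Adj (Sum.inl a) (Sum.inr (Sum.inl b)) ∧ s (Sum.inl a) = false ∧
              s (Sum.inr (Sum.inl b)) = true) := by
            change ((S b ∧ F.Adj (Sum.inl a) (Sum.inr (Sum.inl b))) ∧
              s (Sum.inl a) = false ∧ s (Sum.inr (Sum.inl b)) = true) ↔ _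
            exact ⟨fun h => ⟨h.1.2, h.2⟩, fun h => ⟨⟨hb, h.1⟩, h.2⟩⟩
          simp only [this]
        · refine Finset.prod_congr rfl fun a _ => ?_
          have : ((frame F S e).Adj (Sum.inr b) (Sum.inl a) ∧
              frameSide s (Sum.inr b) = false ∧ frameSide s (Sum.inl a) = true) ↔
              (F.Adj (Sum.inl a) (Sum.inr (Sum.inl b)) ∧ s (Sum.inr (Sum.inl b)) = false ∧
              s (Sum.inl a) = true) := by
            change ((S b ∧ F.Adj (Sum.inl a) (Sum.inr (Sum.inl b))) ∧
              s (Sum.inr (Sum.inl b)) = false ∧ s (Sum.inl a) = true) ↔ _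
            exact ⟨fun h => ⟨h.1.2, h.2⟩, fun h => ⟨⟨hb, h.1⟩, h.2⟩⟩
          simp only [this]
      · rw [if_neg hb, Finset.prod_eq_one fun a _ => if_neg fun h => hb h.1.1,
          Finset.prod_eq_one fun a _ => if_neg fun h => hb h.1.1, one_mul]
    rw [← h4 false, ← h4 true]
    unfold bb
    rw [Finset.prod_comm, Fintype.prod_bool, Fintype.prod_bool]
    simp only [Sum.elim_inl, Sum.elim_inr]
    ring
  rw [h1, h2, ← h3]
  ring

theorem frame_le (S : Bool → Prop) (e : Prop) :
    frame F S e ≤ F.comap (Sum.map id Sum.inl : A ⊕ Bool → A ⊕ (Bool ⊕ P)) := by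
  intro v w h
  rcases v with a | b <;> rcases w with a' | b'
  · exact h
  · exact h.2
  · exact F.symm.symm _ _ h.2
  · exact h.2

open Classical in
/-- the roots and the marked pair -/
theorem frame_dens (S : Bool → Prop) (e : Prop) (hF : ∀ u v, F.Adj u v → s u ≠ s v)
    (hz : e → F.Adj (Sum.inr (Sum.inl false)) (Sum.inr (Sum.inl true)))
    (hs : F.Adj (Sum.inr (Sum.inl false)) (Sum.inr (Sum.inl true)) →
      ∀ b, s (Sum.inr (Sum.inl b)) = b)
    (hfor : (F.comap (Sum.map id Sum.inl : A ⊕ Bool → A ⊕ (Bool ⊕ P))).IsAcyclic)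
    (hm1 : ∀ b, ∑ x, m b x = 1) (hrow : ∀ x, ∑ y, m true y * W x y = 1)
    (hcol : ∀ y, ∑ x, m false x * W x y = 1) :
    ∑ r : A → U, ((∏ a, m (s (Sum.inl a)) (r a)) * rootProd F s W r) *
      (∑ x, ∑ y, m (s (Sum.inr (Sum.inl false))) x * m (s (Sum.inr (Sum.inl true))) y *
        (((if S false then alph F s W r false x else 1) *
          (if S true then alph F s W r true y else 1)) * (if e then W x y else 1))) = 1 := by
  have h := forest_dens hm1 hrow hcol (Fintype.card (A ⊕ Bool)) (A ⊕ Bool) (frame F S e)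
    (frameSide s) (hfor.anti (frame_le S e))
    (fun v w h => by
      have h1 := frame_le S e h
      rcases v with a | b <;> rcases w with a' | b' <;> exact hF _ _ h1) rfl
  rw [sum_sumArrow] at h
  refine Eq.trans ?_ h
  refine Finset.sum_congr rfl fun r _ => ?_
  rw [← (Equiv.boolArrowEquivProd U).symm.sum_comp, Fintype.sum_prod_type, Finset.mul_sum]
  refine Finset.sum_congr rfl fun x _ => ?_
  rw [Finset.mul_sum]
  refine Finset.sum_congr rfl fun y _ => ?_
  rw [pprod_frame S e hz hs, Fintype.prod_sum_type, Fintype.prod_bool]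
  have s0 : frameSide s (Sum.inr false) = s (Sum.inr (Sum.inl false)) := rfl
  have s1 : frameSide s (Sum.inr true) = s (Sum.inr (Sum.inl true)) := rfl
  have e0 : (Equiv.boolArrowEquivProd U).symm (x, y) false = x := rfl
  have e1 : (Equiv.boolArrowEquivProd U).symm (x, y) true = y := rfl
  simp only [Sum.elim_inl, Sum.elim_inr, s0, s1, e0, e1]
  change _ = (∏ a, m (s (Sum.inl a)) (r a)) * _ * _
  ring

/-- the density of `joins` -/
theorem dens_H' (hs : F.Adj (Sum.inr (Sum.inl false)) (Sum.inr (Sum.inl true)) →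
      ∀ b, s (Sum.inr (Sum.inl b)) = b)
    (hφ : ∀ j, t (φ j).1 = false ∧ t (φ j).2 = true) (cA : A → U → ℝ) (cK : VK → U → ℝ)
    (cP : P → U → ℝ) (c : A ⊕ (VK ⊕ (J × P)) → U → ℝ) (c1 : ∀ a, c (Sum.inl a) = cA a)
    (c2 : ∀ k, c (Sum.inr (Sum.inl k)) = cK k) (c3 : ∀ q, c (Sum.inr (Sum.inr q)) = cP q.2) :
    ∑ z : A ⊕ (VK ⊕ (J × P)) → U, (∏ v, m (joinSide s t v) (z v) * c v (z v)) *
      ∏ e ∈ sideEdges (joins F K t φ) (joinSide s t), W (z e.1) (z e.2) =
    ∑ r : A → U, ((∏ a, m (s (Sum.inl a)) (r a)) * rootProd F s W r) *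
      ((∏ a, cA a (r a)) * ∑ y : VK → U,
        (∏ k, (m (s (Sum.inr (Sum.inl (t k)))) (y k) * alph F s W r (t k) (y k)) * cK k (y k)) *
        ((∏ e ∈ sideEdges K t, markW F W (y e.1) (y e.2)) *
          ∏ j, hfun F s m W cP r (y (φ j).1) (y (φ j).2))) := by
  simp_rw [prod_sideEdges]
  rw [sum_glueH]
  refine Finset.sum_congr rfl fun r _ => ?_
  rw [Finset.mul_sum, Finset.mul_sum]
  refine Finset.sum_congr rfl fun y _ => ?_
  have e1 : ∀ q : J × P → U, (∏ v, m (joinSide s t v) (glueH r y q v) * c v (glueH r y q v)) *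
      pprod (joins F K t φ) (joinSide s t) W (glueH r y q) =
      ((∏ a, m (s (Sum.inl a)) (r a)) * rootProd F s W r) * ((∏ a, cA a (r a)) *
        ((∏ k, (m (s (Sum.inr (Sum.inl (t k)))) (y k) * alph F s W r (t k) (y k)) *
          cK k (y k)) * pprod K t (markW F W) y)) *
      ∏ j, ((∏ p, m (s (Sum.inr (Sum.inr p))) (q (j, p)) * cP p (q (j, p))) *
        restProd F s W r (y (φ j).1) (y (φ j).2) fun p => q (j, p)) := by
    intro q
    rw [pprod_H' hs hφ, Fintype.prod_sum_type, Fintype.prod_sum_type]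
    simp only [c1, c2, c3]
    rw [Finset.prod_mul_distrib (s := (univ : Finset J)),
      ← Fintype.prod_prod_type fun q' : J × P => m (s (Sum.inr (Sum.inr q'.2))) (q q') *
        cP q'.2 (q q')]
    change ((∏ a, m (s (Sum.inl a)) (r a) * cA a (r a)) *
      ((∏ k, m (s (Sum.inr (Sum.inl (t k)))) (y k) * cK k (y k)) *
      ∏ q' : J × P, m (s (Sum.inr (Sum.inr q'.2))) (q q') * cP q'.2 (q q'))) * _ = _
    rw [Finset.prod_mul_distrib (s := (univ : Finset A))]
    have e2 : ∏ k, (m (s (Sum.inr (Sum.inl (t k)))) (y k) * alph F s W r (t k) (y k)) *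
        cK k (y k) = (∏ k, alph F s W r (t k) (y k)) *
          ∏ k, m (s (Sum.inr (Sum.inl (t k)))) (y k) * cK k (y k) := by
      rw [← Finset.prod_mul_distrib]
      exact Finset.prod_congr rfl fun k _ => by ring
    rw [e2]
    ring
  simp_rw [e1]
  rw [← Finset.mul_sum, sum_copies fun j q => (∏ p, m (s (Sum.inr (Sum.inr p))) (q p) *
    cP p (q p)) * restProd F s W r (y (φ j).1) (y (φ j).2) q]
  unfold hfun
  ring

/-- the density of `F` -/
theorem dens_F' (hs : F.Adj (Sum.inr (Sum.inl false)) (Sum.inr (Sum.inl true)) →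
      ∀ b, s (Sum.inr (Sum.inl b)) = b) (cA : A → U → ℝ)
    (cB : Bool → U → ℝ) (cP : P → U → ℝ) (c : A ⊕ (Bool ⊕ P) → U → ℝ)
    (c1 : ∀ a, c (Sum.inl a) = cA a) (c2 : ∀ k, c (Sum.inr (Sum.inl k)) = cB k)
    (c3 : ∀ q, c (Sum.inr (Sum.inr q)) = cP q) :
    ∑ z : A ⊕ (Bool ⊕ P) → U, (∏ v, m (s v) (z v) * c v (z v)) *
      ∏ e ∈ sideEdges F s, W (z e.1) (z e.2) =
    ∑ r : A → U, ((∏ a, m (s (Sum.inl a)) (r a)) * rootProd F s W r) *
      ((∏ a, cA a (r a)) * ∑ x, ∑ y, (m (s (Sum.inr (Sum.inl false))) x *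
        alph F s W r false x) * (m (s (Sum.inr (Sum.inl true))) y * alph F s W r true y) *
        markW F W x y * (hfun F s m W cP r x y * (cB false x * cB true y))) := by
  simp_rw [prod_sideEdges]
  rw [sum_glueF]
  refine Finset.sum_congr rfl fun r _ => ?_
  rw [Finset.mul_sum, Finset.mul_sum]
  refine Finset.sum_congr rfl fun x _ => ?_
  rw [Finset.mul_sum, Finset.mul_sum]
  refine Finset.sum_congr rfl fun y _ => ?_
  unfold hfun
  rw [Finset.sum_mul, Finset.mul_sum, Finset.mul_sum, Finset.mul_sum]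
  refine Finset.sum_congr rfl fun q _ => ?_
  rw [pprod_F' hs, Fintype.prod_sum_type, Fintype.prod_sum_type, Fintype.prod_bool]
  simp only [c1, c2, c3]
  change ((∏ a, m (s (Sum.inl a)) (r a) * cA a (r a)) *
    ((m (s (Sum.inr (Sum.inl true))) y * cB true y) *
    (m (s (Sum.inr (Sum.inl false))) x * cB false x) *
    ∏ p, m (s (Sum.inr (Sum.inr p))) (q p) * cP p (q p))) * _ = _
  rw [Finset.prod_mul_distrib (s := (univ : Finset A))]
  ring

end main

end Vale.Agent.P050.H177
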