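import Vale.Agent.P050.Tmpl.Defs

/-!
Net-grown graphs and substitution.
-/

namespace Vale.Agent.P050.H177

open Vale.Agent.P050.Tmpl

/-- The separations after a new vertex `w` with the neighbourhood `D` in `S`; `M a A B` says that
`a` separates `A` and `B`. The old ones are kept; and if `a` separates `A` and `B'` (also if `B'` is
empty) and `D` is contained in `B'` together with `a`, then `w` can be added to `B'`. -/
def NextM {V : Type} [DecidableEq V] (S : Finset V) (M : V → Finset V → Finset V → Prop) (w : V)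
    (D : Finset V) (a : V) (A B : Finset V) : Prop :=
  M a A B ∨ ∃ B', (M a A B' ∨ M a B' A ∨ (B' = ∅ ∧ a ∈ S ∧ A ⊆ S)) ∧ D ⊆ insert a B' ∧
    B = insert w B'

/-- `NetExt H S₀ C₀ M₀ S C M`: the graph induced by `H` on `S` is obtained from the one on `S₀` by
adding, one after the other, isolated vertices, leaves, and copies, that is, vertices `w` whose
neighbourhood `D` in the old graph is a nonempty subset of a star at some vertex `v`. `C v D` says
that `D` is a star at `v`: an isolated vertex gets the star `∅`; a leaf `w` at `v` gets the star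
`{v}`, and `w` can be added to each star at `v`; a copy `w` with the neighbourhood `D` gets the
star `D`, and each vertex of `D` gets the star `{w}`; the union of two stars at `v` which are
separated by `v` is a star at `v`. `M v A B` says that `v` separates `A` and `B`, see `NextM`. The
stars and separations at the beginning are given by `C₀` and `M₀`. -/
inductive NetExt {V : Type} [DecidableEq V] (H : SimpleGraph V) (S₀ : Finset V)
    (C₀ : V → Finset V → Prop) (M₀ : V → Finset V → Finset V → Prop) :
    Finset V → (V → Finset V → Prop) → (V → Finset V → Finset V → Prop) → Prop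
  | base : NetExt H S₀ C₀ M₀ S₀ C₀ M₀
  | isolated {S : Finset V} {C : V → Finset V → Prop} {M : V → Finset V → Finset V → Prop}
      (w : V) : NetExt H S₀ C₀ M₀ S C M → w ∉ S → (∀ x ∈ S, ¬ H.Adj w x) →
      NetExt H S₀ C₀ M₀ (insert w S) (fun a B => C a B ∨ (a = w ∧ B = ∅)) (NextM S M w ∅)
  | leaf {S : Finset V} {C : V → Finset V → Prop} {M : V → Finset V → Finset V → Prop}
      (w v : V) : NetExt H S₀ C₀ M₀ S C M → w ∉ S → v ∈ S → (∀ x ∈ S, H.Adj w x ↔ x = v) →
      NetExt H S₀ C₀ M₀ (insert w S) (fun a B => C a B ∨ (a = w ∧ B = {v}) ∨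
        (a = v ∧ ∃ D, C v D ∧ B = insert w D)) (NextM S M w {v})
  | copy {S : Finset V} {C : V → Finset V → Prop} {M : V → Finset V → Finset V → Prop}
      (w v : V) (D₀ D : Finset V) : NetExt H S₀ C₀ M₀ S C M → w ∉ S → C v D₀ → D ⊆ D₀ →
      D.Nonempty → (∀ x ∈ S, H.Adj w x ↔ x ∈ D) →
      NetExt H S₀ C₀ M₀ (insert w S) (fun a B => C a B ∨ (a = w ∧ B = D) ∨ (a ∈ D ∧ B = {w}))
        (NextM S M w D)
  | star {S : Finset V} {C : V → Finset V → Prop} {M : V → Finset V → Finset V → Prop}
      (v : V) (A B A' B' : Finset V) : NetExt H S₀ C₀ M₀ S C M → C v A' → C v B' → M v A B →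
      A' ⊆ A → B' ⊆ B → NetExt H S₀ C₀ M₀ S (fun a D => C a D ∨ (a = v ∧ D = A' ∪ B')) M

/-- `Net H S C M`: the graph induced by `H` on `S`, with the stars `C` and the separations `M`, is
built in this way from the empty graph. -/
def Net {V : Type} [DecidableEq V] (H : SimpleGraph V) (S : Finset V) (C : V → Finset V → Prop)
    (M : V → Finset V → Finset V → Prop) : Prop :=
  NetExt H ∅ (fun _ _ => False) (fun _ _ _ => False) S C M

/-- `Thin H R W`: the vertices of `W`, none in `R`, can be ordered such that each has at most one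
neighbour in the union of `R` and of the vertices before it. -/
inductive Thin {V : Type} [DecidableEq V] (H : SimpleGraph V) (R : Finset V) : Finset V → Prop
  | empty : Thin H R ∅
  | insert {W : Finset V} (w : V) : Thin H R W → w ∉ R → w ∉ W →
      (∀ x ∈ R ∪ W, ∀ y ∈ R ∪ W, H.Adj w x → H.Adj w y → x = y) → Thin H R (insert w W)

/-- Substitution of the graph `H`, whose vertices outside `K` are divided into two parts by `τ`, into
the 2-coloured graph `(G, t)`. The vertices are those of `K`, and the pairs `(p, v)`, `p` a vertex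
of `G` and `v` a vertex of `H` outside `K` with `t p = τ v`. Two vertices of `K` are adjacent as in
`H`; a vertex `u` of `K` is adjacent to `(p, v)` iff `u` is adjacent to `v` in `H`; and `(p, u)` is
adjacent to `(q, v)` iff `u` is adjacent to `v` in `H`, and `p` and `q` are equal or adjacent. -/
def relSub {VG V : Type} (G : SimpleGraph VG) (t : VG → Bool) (H : SimpleGraph V)
    (τ : V → Bool) (K : Finset V) : SimpleGraph (RV t τ K) where
  Adj
    | Sum.inl u, Sum.inl v => H.Adj u v
    | Sum.inl u, Sum.inr q => H.Adj u q.1.2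
    | Sum.inr p, Sum.inl v => H.Adj p.1.2 v
    | Sum.inr p, Sum.inr q => (p.1.1 = q.1.1 ∨ G.Adj p.1.1 q.1.1) ∧ H.Adj p.1.2 q.1.2
  symm := ⟨by
    rintro (u | p) (v | q) h
    · exact h.symm
    · exact h.symm
    · exact h.symm
    · exact ⟨h.1.imp Eq.symm fun h' => h'.symm, h.2.symm⟩⟩
  loopless := ⟨by
    rintro (u | p) h
    · exact H.loopless.irrefl _ h
    · exact H.loopless.irrefl _ h.2⟩

/-- the 2-colouring of `relSub` given by a 2-colouring `s` of `H` -/
def subSide {VG V : Type} (s : V → Bool) (t : VG → Bool) (τ : V → Bool) (K : Finset V) :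
    RV t τ K → Bool
  | Sum.inl v => s v
  | Sum.inr p => s p.1.2

/-- the separations of a substitution: the lifts of the separations of `H` along the edges of `G` -/
def LiftSep {VG V : Type} (G : SimpleGraph VG) (t : VG → Bool) (τ : V → Bool) (K : Finset V)
    (M : V → Finset V → Finset V → Prop) (a : RV t τ K) (A B : Finset (RV t τ K)) : Prop :=
  ∃ p q, G.Adj p q ∧ ∃ v A' B', M v A' B' ∧ Lift p q v a ∧
    (∀ b, b ∈ A ↔ ∃ w ∈ A', Lift p q w b) ∧ ∀ b, b ∈ B ↔ ∃ w ∈ B', Lift p q w b

/-- The graph on `0, ..., 2k` in which `i` and `j` are adjacent iff `|i - j|` is `1` or `k`. -/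
def chordPath (k : ℕ) : SimpleGraph (Fin (2 * k + 1)) where
  Adj i j := i ≠ j ∧ ((i : ℕ) + 1 = j ∨ (j : ℕ) + 1 = i ∨ (i : ℕ) + k = j ∨ (j : ℕ) + k = i)
  symm := ⟨fun i j h => ⟨h.1.symm, by tauto⟩⟩
  loopless := ⟨fun i h => h.1 rfl⟩

end Vale.Agent.P050.H177
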