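import Vale.Agent.P050.Tmpl.Count
import Vale.Agent.P050.H177.NetDefs

/-!
The number of edges of a substitution.
-/

set_option linter.unusedSectionVars false

namespace Vale.Agent.P050.H177

open Finset Vale.Agent.P050.Tmpl Vale.Agent.P050.Lev

variable {V VG : Type} [Fintype V] [DecidableEq V] [Fintype VG] [DecidableEq VG]
  {G : SimpleGraph VG} {t : VG → Bool} {H : SimpleGraph V} {s τ : V → Bool} {K : Finset V}

theorem eb_ia (T : Finset V) : eb H s T =
    ∑ u, ∑ v, ia H s u v * (if u ∈ T ∧ v ∈ T then 1 else 0) := by
  classical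
  unfold eb ia
  rw [Finset.card_filter, Fintype.sum_prod_type]
  refine Finset.sum_congr rfl fun u _ => Finset.sum_congr rfl fun v _ => ?_
  by_cases h1 : u ∈ T ∧ v ∈ T
  · by_cases h2 : H.Adj u v ∧ s u = false ∧ s v = true
    · rw [if_pos ⟨h1, h2⟩, if_pos h1, if_pos h2]
    · rw [if_neg fun h => h2 h.2, if_pos h1, if_neg h2]
  · rw [if_neg fun h => h1 h.1, if_neg h1, mul_zero]

/-- the number of copies of a vertex -/
def cnt (t : VG → Bool) (b : Bool) : ℕ := (univ.filter fun p => t p = b).card

theorem sum_cnt (b : Bool) (x : ℕ) : (∑ q, if t q = b then x else 0) = x * cnt t b := by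
  rw [← Finset.sum_filter, Finset.sum_const, smul_eq_mul, mul_comm]
  rfl

open Classical in
/-- the number of pairs of copies of two vertices outside `K` -/
theorem sum_pairs (ht : ∀ p q, G.Adj p q → t p ≠ t q) (b c : Bool) (x : ℕ) :
    (∑ p, if t p = b then (∑ q, if t q = c then (if p = q ∨ G.Adj p q then x else 0) else 0)
      else 0) = x * (if b = c then cnt t b else (sideEdges G t).card) := by
  by_cases hbc : b = c
  · subst hbc
    rw [if_pos rfl, ← sum_cnt]
    refine Finset.sum_congr rfl fun p _ => ?_
    by_cases hp : t p = b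
    · rw [if_pos hp, if_pos hp, Finset.sum_eq_single p]
      · rw [if_pos hp, if_pos (Or.inl rfl)]
      · intro q _ hq
        by_cases hq' : t q = b
        · rw [if_pos hq', if_neg]
          rintro (h | h)
          · exact hq h.symm
          · exact ht p q h (hp.trans hq'.symm)
        · rw [if_neg hq']
      · intro h
        exact absurd (mem_univ _) h
    · rw [if_neg hp, if_neg hp]
  · rw [if_neg hbc]
    have key : ∀ b c : Bool, b = false → c = true →
        (∑ p, if t p = b then (∑ q, if t q = c then (if G.Adj p q then x else 0) else 0)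
          else 0) = x * (sideEdges G t).card := by
      rintro b c rfl rfl
      unfold sideEdges
      rw [Finset.card_filter, Fintype.sum_prod_type, Finset.mul_sum]
      refine Finset.sum_congr rfl fun p _ => ?_
      by_cases hp : t p = false
      · rw [if_pos hp, Finset.mul_sum]
        refine Finset.sum_congr rfl fun q _ => ?_
        by_cases hq : t q = true
        · by_cases hpq : G.Adj p q
          · simp [hp, hq, hpq]
          · simp [hpq]
        · simp [hq]
      · rw [if_neg hp]
        symm
        refine mul_eq_zero_of_right _ (Finset.sum_eq_zero fun q _ => if_neg fun h' => hp h'.2.1)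
    have h1 : (∑ p, if t p = b then (∑ q, if t q = c then (if p = q ∨ G.Adj p q then x else 0)
        else 0) else 0) = ∑ p, if t p = b then (∑ q, if t q = c then (if G.Adj p q then x else 0)
          else 0) else 0 := by
      refine Finset.sum_congr rfl fun p _ => ?_
      by_cases hp : t p = b
      · rw [if_pos hp, if_pos hp]
        refine Finset.sum_congr rfl fun q _ => ?_
        by_cases hq : t q = c
        · rw [if_pos hq, if_pos hq]
          refine if_congr (or_iff_right ?_) rfl rfl
          rintro rfl
          exact hbc (hp.symm.trans hq)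
        · rw [if_neg hq, if_neg hq]
      · rw [if_neg hp, if_neg hp]
    rw [h1]
    cases b <;> cases c
    · exact absurd rfl hbc
    · exact key _ _ rfl rfl
    · have h2 := key false true rfl rfl
      rw [← h2]
      have h3 : ∀ b c : Bool, (∑ p, if t p = b then (∑ q, if t q = c then
          (if G.Adj p q then x else 0) else 0) else 0) =
          ∑ p, ∑ q, if t p = b ∧ t q = c ∧ G.Adj p q then x else 0 := by
        intro b c
        refine Finset.sum_congr rfl fun p _ => ?_
        by_cases hp : t p = b
        · rw [if_pos hp]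
          refine Finset.sum_congr rfl fun q _ => ?_
          by_cases hq : t q = c
          · simp [hp, hq]
          · simp [hq]
        · simp [hp]
      rw [h3, h3, Finset.sum_comm]
      refine Finset.sum_congr rfl fun p _ => Finset.sum_congr rfl fun q _ => ?_
      refine if_congr ⟨fun h => ⟨h.2.1, h.1, h.2.2.symm⟩, fun h => ⟨h.2.1, h.1, h.2.2.symm⟩⟩ rfl rfl
    · exact absurd rfl hbc

/-- the number of pairs of copies of two vertices -/
def cf (t : VG → Bool) (g : ℕ) (τ : V → Bool) (K : Finset V) (u v : V) : ℕ :=
  if u ∈ K then (if v ∈ K then 1 else cnt t (τ v)) else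
    (if v ∈ K then cnt t (τ u) else (if τ u = τ v then cnt t (τ u) else g))

theorem card_sub' (ht : ∀ p q, G.Adj p q → t p ≠ t q) :
    (sideEdges (relSub G t H τ K) (subSide s t τ K)).card =
      ∑ u, ∑ v, ia H s u v * cf t (sideEdges G t).card τ K u v := by
  classical
  have h0 : (sideEdges (relSub G t H τ K) (subSide s t τ K)).card = ∑ a : RV t τ K,
      ∑ b : RV t τ K, if (relSub G t H τ K).Adj a b ∧ subSide s t τ K a = false ∧
        subSide s t τ K b = true then 1 else 0 := by
    unfold sideEdges
    rw [Finset.card_filter, Fintype.sum_prod_type]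
  have h1 : ∀ u : {v : V // v ∈ K}, (∑ b : RV t τ K, if (relSub G t H τ K).Adj (Sum.inl u) b ∧
      subSide s t τ K (Sum.inl u) = false ∧ subSide s t τ K b = true then 1 else 0) =
      (∑ v, if v ∈ K then ia H s u v else 0) +
      ∑ v, if v ∈ K then 0 else ∑ q, if t q = τ v then ia H s u v else 0 := fun u =>
    sum_rel _ _ _ (fun v => rfl) (fun p => rfl)
  have h2 : ∀ p : {p : VG × V // p.2 ∉ K ∧ t p.1 = τ p.2}, (∑ b : RV t τ K,
      if (relSub G t H τ K).Adj (Sum.inr p) b ∧
      subSide s t τ K (Sum.inr p) = false ∧ subSide s t τ K b = true then 1 else 0) =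
      (∑ v, if v ∈ K then ia H s p.1.2 v else 0) +
      ∑ v, if v ∈ K then 0 else ∑ q, if t q = τ v then
        (if p.1.1 = q ∨ G.Adj p.1.1 q then ia H s p.1.2 v else 0) else 0 := by
    intro p
    refine sum_rel _ (fun v => ia H s p.1.2 v) (fun q v => if p.1.1 = q ∨ G.Adj p.1.1 q then
      ia H s p.1.2 v else 0) (fun v => rfl) (fun q => ?_)
    unfold ia
    have h3 : ((relSub G t H τ K).Adj (Sum.inr p) (Sum.inr q) ∧
        subSide s t τ K (Sum.inr p) = false ∧ subSide s t τ K (Sum.inr q) = true) ↔
        ((p.1.1 = q.1.1 ∨ G.Adj p.1.1 q.1.1) ∧ H.Adj p.1.2 q.1.2) ∧ s p.1.2 = false ∧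
          s q.1.2 = true := Iff.rfl
    by_cases h : p.1.1 = q.1.1 ∨ G.Adj p.1.1 q.1.1
    · rw [if_pos h]
      refine if_congr (h3.trans ?_) rfl rfl
      simp [h]
    · rw [if_neg h, if_neg fun h4 => h (h3.1 h4).1.1]
  rw [h0, sum_rel _ (fun u => (∑ v, if v ∈ K then ia H s u v else 0) +
      ∑ v, if v ∈ K then 0 else ∑ q, if t q = τ v then ia H s u v else 0)
    (fun p u => (∑ v, if v ∈ K then ia H s u v else 0) +
      ∑ v, if v ∈ K then 0 else ∑ q, if t q = τ v then
        (if p = q ∨ G.Adj p q then ia H s u v else 0) else 0) h1 h2]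
  have d1 : (∑ u, if u ∈ K then ((∑ v, if v ∈ K then ia H s u v else 0) +
      ∑ v, if v ∈ K then 0 else ∑ q, if t q = τ v then ia H s u v else 0) else 0) =
      ∑ u, ∑ v, ia H s u v * (if u ∈ K then (if v ∈ K then 1 else cnt t (τ v)) else 0) := by
    refine Finset.sum_congr rfl fun u _ => ?_
    by_cases hu : u ∈ K
    · simp only [if_pos hu]
      rw [← Finset.sum_add_distrib]
      refine Finset.sum_congr rfl fun v _ => ?_
      by_cases hv : v ∈ K
      · simp [hv]
      · simp only [if_neg hv, zero_add]
        exact sum_cnt _ _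
    · simp [hu]
  have d2 : (∑ u, if u ∈ K then 0 else ∑ p, if t p = τ u then
      ((∑ v, if v ∈ K then ia H s u v else 0) + ∑ v, if v ∈ K then 0 else ∑ q, if t q = τ v then
        (if p = q ∨ G.Adj p q then ia H s u v else 0) else 0) else 0) =
      ∑ u, ∑ v, ia H s u v * (if u ∈ K then 0 else (if v ∈ K then cnt t (τ u) else
        (if τ u = τ v then cnt t (τ u) else (sideEdges G t).card))) := by
    refine Finset.sum_congr rfl fun u _ => ?_
    by_cases hu : u ∈ K
    · simp [hu]
    · simp only [if_neg hu]
      have e1 : ∀ p, (if t p = τ u then ((∑ v, if v ∈ K then ia H s u v else 0) +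
          ∑ v, if v ∈ K then 0 else ∑ q, if t q = τ v then
            (if p = q ∨ G.Adj p q then ia H s u v else 0) else 0) else 0) =
          ∑ v, if v ∈ K then (if t p = τ u then ia H s u v else 0) else
            (if t p = τ u then (∑ q, if t q = τ v then
              (if p = q ∨ G.Adj p q then ia H s u v else 0) else 0) else 0) := by
        intro p
        by_cases hp : t p = τ u
        · simp only [if_pos hp]
          rw [← Finset.sum_add_distrib]
          refine Finset.sum_congr rfl fun v _ => ?_
          by_cases hv : v ∈ K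
          · simp [hv]
          · simp [hv]
        · simp [hp]
      rw [Finset.sum_congr rfl fun p _ => e1 p, Finset.sum_comm]
      refine Finset.sum_congr rfl fun v _ => ?_
      by_cases hv : v ∈ K
      · simp only [if_pos hv]
        exact sum_cnt _ _
      · simp only [if_neg hv]
        exact sum_pairs ht _ _ _
  rw [d1, d2, ← Finset.sum_add_distrib]
  refine Finset.sum_congr rfl fun u _ => ?_
  rw [← Finset.sum_add_distrib]
  refine Finset.sum_congr rfl fun v _ => ?_
  rw [← mul_add]
  congr 1
  unfold cf
  by_cases hu : u ∈ K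
  · simp only [if_pos hu, add_zero]
  · simp only [if_neg hu, zero_add]

/-- **The number of edges of a substitution.** -/
theorem card_sub (ht : ∀ p q, G.Adj p q → t p ≠ t q) :
    (sideEdges (relSub G t H τ K) (subSide s t τ K)).card + (cnt t false + cnt t true) * eb H s K +
      (sideEdges G t).card * (eb H s (K ∪ sd τ false univ) + eb H s (K ∪ sd τ true univ)) =
    eb H s K + cnt t false * eb H s (K ∪ sd τ false univ) +
      cnt t true * eb H s (K ∪ sd τ true univ) +
      (sideEdges G t).card * (eb H s univ + eb H s K) := by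
  rw [card_sub' ht, eb_ia K, eb_ia (K ∪ sd τ false univ), eb_ia (K ∪ sd τ true univ),
    eb_ia (univ : Finset V)]
  simp only [Finset.mul_sum, ← Finset.sum_add_distrib]
  refine Finset.sum_congr rfl fun u _ => Finset.sum_congr rfl fun v _ => ?_
  unfold cf
  simp only [Finset.mem_union, mem_sd, Finset.mem_univ, true_and, and_self, if_true]
  by_cases hu : u ∈ K <;> by_cases hv : v ∈ K <;> cases hτu : τ u <;> cases hτv : τ v <;>
    simp [hu, hv] <;> ring

end Vale.Agent.P050.H177
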