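import Vale.Agent.P050.Lev.KSid

/-!
The gauge reduction: a weighted kernel is replaced by a doubly stochastic and hypercontractive one.
-/

namespace Vale.Agent.P050.H177

open Finset Vale.Agent.P050.Lev

section calculus

/-- log-sum-exp: first derivative -/
theorem hasDerivAt_logSum {ι : Type} [Fintype ι] (c k : ι → ℝ) (hc : ∀ i, 0 ≤ c i)
    (hc1 : ∑ i, c i = 1) (t : ℝ) :
    HasDerivAt (fun t => Real.log (∑ i, c i * Real.exp (t * k i)))
      ((∑ i, c i * k i * Real.exp (t * k i)) / ∑ i, c i * Real.exp (t * k i)) t := by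
  have hpos : 0 < ∑ i, c i * Real.exp (t * k i) := by
    have h1 : ∃ i, 0 < c i := by
      by_contra h
      push Not at h
      have h2 : ∑ i, c i ≤ 0 := Finset.sum_nonpos fun i _ => h i
      linarith
    obtain ⟨i, hi⟩ := h1
    exact Finset.sum_pos' (fun j _ => mul_nonneg (hc j) (Real.exp_pos _).le)
      ⟨i, Finset.mem_univ _, mul_pos hi (Real.exp_pos _)⟩
  have h1 : HasDerivAt (fun t => ∑ i, c i * Real.exp (t * k i))
      (∑ i, c i * k i * Real.exp (t * k i)) t := by
    refine HasDerivAt.fun_sum fun i _ => ?_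
    have h2 : HasDerivAt (fun t : ℝ => t * k i) (k i) t := by
      simpa using (hasDerivAt_id t).mul_const (k i)
    exact ((h2.exp).const_mul (c i)).congr_deriv (by ring)
  exact h1.log hpos.ne'

/-- log-sum-exp: second derivative at `0` -/
theorem hasDerivAt_logSum' {ι : Type} [Fintype ι] (c k : ι → ℝ) (hc1 : ∑ i, c i = 1) :
    HasDerivAt (fun t => (∑ i, c i * k i * Real.exp (t * k i)) / ∑ i, c i * Real.exp (t * k i))
      (∑ i, c i * k i ^ 2 - (∑ i, c i * k i) ^ 2) 0 := by
  have h0 : ∀ d : ι → ℝ, HasDerivAt (fun t => ∑ i, d i * Real.exp (t * k i))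
      (∑ i, d i * k i) 0 := by
    intro d
    have h : HasDerivAt (fun t => ∑ i, d i * Real.exp (t * k i))
        (∑ i, d i * k i * Real.exp (0 * k i)) 0 := by
      refine HasDerivAt.fun_sum fun i _ => ?_
      have h2 : HasDerivAt (fun t : ℝ => t * k i) (k i) 0 := by
        simpa using (hasDerivAt_id (0 : ℝ)).mul_const (k i)
      exact ((h2.exp).const_mul (d i)).congr_deriv (by ring)
    simpa using h
  have h1 := h0 (fun i => c i * k i)
  have h2 := h0 c
  have h3 := h1.div h2 (by simp [hc1])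
  refine h3.congr_deriv ?_
  simp only [zero_mul, Real.exp_zero, mul_one, hc1, one_pow, div_one]
  have h4 : ∑ i, c i * k i * k i = ∑ i, c i * k i ^ 2 :=
    Finset.sum_congr rfl fun i _ => by ring
  rw [h4]
  ring

/-- necessary conditions at a minimum -/
theorem min_conditions {h h1 : ℝ → ℝ} {c : ℝ} (hd : ∀ t, HasDerivAt h (h1 t) t)
    (hc : HasDerivAt h1 c 0) (hmin : ∀ t, h 0 ≤ h t) : h1 0 = 0 ∧ 0 ≤ c := by
  have e0 : h1 0 = 0 := by
    have : IsLocalMin h 0 := Filter.Eventually.of_forall hmin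
    exact this.hasDerivAt_eq_zero (hd 0)
  refine ⟨e0, ?_⟩
  by_contra hneg
  push Not at hneg
  have hs := hc.tendsto_slope_zero_right
  have hev : ∀ᶠ t in nhdsWithin (0 : ℝ) (Set.Ioi 0), t⁻¹ • (h1 (0 + t) - h1 0) < c / 2 :=
    hs.eventually (gt_mem_nhds (by linarith))
  obtain ⟨δ, hδ, hlt⟩ := (mem_nhdsGT_iff_exists_Ioo_subset).1 hev
  have hδ' : (0 : ℝ) < δ := hδ
  obtain ⟨ξ, hξ, hξe⟩ := exists_hasDerivAt_eq_slope h h1 (a := 0) (b := δ / 2) (by linarith)
    (fun t _ => (hd t).continuousAt.continuousWithinAt) (fun t _ => hd t)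
  have h2 := hlt (⟨hξ.1, by have := hξ.2; linarith⟩ : ξ ∈ Set.Ioo 0 δ)
  simp only [Set.mem_ofPred_eq, zero_add, e0, sub_zero, smul_eq_mul] at h2
  have h3 : h1 ξ < 0 := by
    have h4 : 0 < ξ := hξ.1
    have h5 : h1 ξ < c / 2 * ξ := by
      have := mul_lt_mul_of_pos_right h2 h4
      rwa [mul_comm ξ⁻¹, mul_assoc, inv_mul_cancel₀ h4.ne', mul_one] at this
    have h6 : c / 2 * ξ < 0 := mul_neg_of_neg_of_pos (by linarith) h4
    linarith
  rw [hξe] at h3
  have h7 := hmin (δ / 2)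
  have h8 : 0 ≤ (h (δ / 2) - h 0) / (δ / 2 - 0) := div_nonneg (by linarith) (by linarith)
  linarith

end calculus

end Vale.Agent.P050.H177
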