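import Vale.Agent.P050.H177.Gauge9

/-!
`K_{5,5}` minus a cycle of length 10: degrees.
-/

namespace Vale.Agent.P050.H177

open Finset Vale.Agent.P050 Vale.Agent.P050.Lev Vale.Agent.P050.H148

/-- the parity of a residue modulo 10 -/
def par10 (v : ZMod 10) : Bool := decide (v.val % 2 = 1)

/-- adjacency is decidable -/
local instance decAdj10 : DecidableRel K55minusC10.Adj := fun u v =>
  inferInstanceAs (Decidable ((u - v).val % 2 = 1 ∧ u ≠ v + 1 ∧ v ≠ u + 1))

theorem bireg10 : Bireg K55minusC10 par10 3 3 := by
  have hc : ∀ v, Nat.card (K55minusC10.neighborSet v) =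
      (univ.filter fun w => K55minusC10.Adj v w).card := by
    intro v
    rw [Nat.card_eq_fintype_card, ← Set.toFinset_card]
    congr 1
    ext w
    simp [SimpleGraph.mem_neighborSet]
  refine ⟨by decide, fun v _ => ?_, fun v _ => ?_⟩
  · rw [hc]
    revert v
    decide
  · rw [hc]
    revert v
    decide

theorem card_edges10 : Nat.card K55minusC10.edgeSet = 15 := by
  have h1 : Nat.card {v // par10 v = false} = 5 := by
    rw [Nat.card_eq_fintype_card, Fintype.card_subtype]
    decide
  have := card_fst bireg10.edges
  rw [card_sideEdges K55minusC10 par10 bireg10.1, sideCard_eq, h1] at this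
  have h4 : ((Nat.card K55minusC10.edgeSet : ℕ) : ℝ) = ((15 : ℕ) : ℝ) := by
    rw [this]
    norm_num
  exact_mod_cast h4

theorem corrBound10 : corrBound K55minusC10 par10 = 4 / 25 := by
  have h1 : Nat.card {v // par10 v = false} = 5 := by
    rw [Nat.card_eq_fintype_card, Fintype.card_subtype]
    decide
  have h2 : Nat.card {v // par10 v = true} = 5 := by
    rw [Nat.card_eq_fintype_card, Fintype.card_subtype]
    decide
  unfold corrBound
  rw [h1, h2, card_edges10]
  norm_num

end Vale.Agent.P050.H177
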