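import Vale.Agent.P050.H177.Gauge9
import Vale.Agent.P050.Cart.Product

/-!
The gauge reduction for all bipartite graphs: the vertices carry potentials.
-/

namespace Vale.Agent.P050.H177

open Finset Vale.Agent.P050 Vale.Agent.P050.Lev Vale.Agent.P050.Cart

variable {U : Type} [Fintype U]

/-- the vertex `v` is in `g v` edges -/
def EDeg {V : Type} [DecidableEq V] (E : Finset (V × V)) (side : V → Bool) (g : V → ℕ) : Prop :=
  (∀ e ∈ E, side e.1 = false ∧ side e.2 = true) ∧
    (∀ v, side v = false → (E.filter fun e => e.1 = v).card = g v) ∧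
    ∀ v, side v = true → (E.filter fun e => e.2 = v).card = g v

/-- the homomorphism density with potentials -/
noncomputable def pdens {V : Type} [Fintype V] [DecidableEq V] (E : Finset (V × V))
    (side : V → Bool) (g : V → ℕ) (d : Bool → ℝ) (m : Bool → U → ℝ) (W : U → U → ℝ)
    (u : Bool → U → ℝ) : ℝ :=
  ∑ z : V → U, (∏ v, m (side v) (z v) * u (side v) (z v) ^ (d (side v) - g v)) *
    ∏ e ∈ E, W (z e.1) (z e.2)

section count

variable {V : Type} [Fintype V] [DecidableEq V] {E : Finset (V × V)} {side : V → Bool}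
  {g : V → ℕ}

theorem EDeg.prod_fst (h : EDeg E side g) (f : V → ℝ) :
    ∏ e ∈ E, f e.1 = ∏ v ∈ univ.filter (fun v => side v = false), f v ^ g v := by
  rw [← Finset.prod_fiberwise_of_maps_to (t := univ.filter fun v => side v = false)
    (g := fun e : V × V => e.1) (fun e he => by simp [(h.1 e he).1])]
  refine Finset.prod_congr rfl fun v hv => ?_
  rw [Finset.prod_congr rfl (g := fun _ => f v) fun e he => by rw [(Finset.mem_filter.1 he).2],
    Finset.prod_const, h.2.1 v (Finset.mem_filter.1 hv).2]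

theorem EDeg.prod_snd (h : EDeg E side g) (f : V → ℝ) :
    ∏ e ∈ E, f e.2 = ∏ v ∈ univ.filter (fun v => side v = true), f v ^ g v := by
  rw [← Finset.prod_fiberwise_of_maps_to (t := univ.filter fun v => side v = true)
    (g := fun e : V × V => e.2) (fun e he => by simp [(h.1 e he).2])]
  refine Finset.prod_congr rfl fun v hv => ?_
  rw [Finset.prod_congr rfl (g := fun _ => f v) fun e he => by rw [(Finset.mem_filter.1 he).2],
    Finset.prod_const, h.2.2 v (Finset.mem_filter.1 hv).2]

theorem EDeg.prod_edges (h : EDeg E side g) (u : Bool → U → ℝ) (z : V → U) :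
    ∏ e ∈ E, (u false (z e.1) * u true (z e.2)) = ∏ v, u (side v) (z v) ^ g v := by
  rw [Finset.prod_mul_distrib, h.prod_fst fun v => u false (z v),
    h.prod_snd fun v => u true (z v), prod_side side fun b v => u b (z v) ^ g v]

/-- the potential of the gauge -/
noncomputable def gpot (d : Bool → ℝ) (m n : Bool → U → ℝ) (b : Bool) (x : U) : ℝ :=
  open Classical in if n b x = 0 then 1 else (m b x / n b x) ^ (1 / d b)

/-- the new kernel with the potential has a smaller homomorphism density -/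
theorem gauge_pdens (h : EDeg E side g) {d : Bool → ℝ} (hd : ∀ b, 0 < d b) {p q Φ : ℝ}
    (hpr : 1 - 1 / p = 1 / d false) (hqs : 1 - 1 / q = 1 / d true) {m : Bool → U → ℝ}
    {W : U → U → ℝ} (hm : ∀ b x, 0 ≤ m b x) (hW : ∀ x y, 0 ≤ W x y) {a b : U → ℝ}
    (ha : ∀ x, 0 ≤ a x) (hb : ∀ y, 0 ≤ b y) (hΦ : 0 < Φ)
    (hab : ∀ i x, gM a b i x ≠ 0 → m i x ≠ 0) :
    Φ ^ E.card * pdens E side g d (gM a b) (gW p q (gmat p q m W) a b Φ)
      (gpot d m (gM a b)) ≤ kdens E side m W := by
  classical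
  unfold kdens pdens
  rw [Finset.mul_sum]
  refine Finset.sum_le_sum fun z _ => ?_
  have hr0 : 0 ≤ (∏ v, m (side v) (z v)) * ∏ e ∈ E, W (z e.1) (z e.2) :=
    mul_nonneg (Finset.prod_nonneg fun v _ => hm _ _) (Finset.prod_nonneg fun e _ => hW _ _)
  by_cases h0 : ∃ v, gM a b (side v) (z v) = 0
  · obtain ⟨v, hv⟩ := h0
    rw [Finset.prod_eq_zero (Finset.mem_univ v) (by rw [hv, zero_mul]), zero_mul, mul_zero]
    exact hr0
  push Not at h0
  have hgM : ∀ i x, 0 ≤ gM a b i x := by
    rintro (_ | _) x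
    · exact ha x
    · exact hb x
  have hA : ∀ e ∈ E, a (z e.1) ≠ 0 := fun e he => by
    have := h0 e.1
    rwa [(h.1 e he).1] at this
  have hB : ∀ e ∈ E, b (z e.2) ≠ 0 := fun e he => by
    have := h0 e.2
    rwa [(h.1 e he).2] at this
  have hpos : ∀ v, 0 < gM a b (side v) (z v) := fun v => lt_of_le_of_ne (hgM _ _) (Ne.symm (h0 v))
  have hmpos : ∀ v, 0 < m (side v) (z v) := fun v =>
    lt_of_le_of_ne (hm _ _) (Ne.symm (hab _ _ (h0 v)))
  have hu : ∀ v, gpot d m (gM a b) (side v) (z v) =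
      (m (side v) (z v) / gM a b (side v) (z v)) ^ (1 / d (side v)) := fun v => if_neg (h0 v)
  have hupos : ∀ v, 0 < gpot d m (gM a b) (side v) (z v) := fun v => by
    rw [hu]
    exact Real.rpow_pos_of_pos (div_pos (hmpos v) (hpos v)) _
  have e1 : ∏ e ∈ E, gW p q (gmat p q m W) a b Φ (z e.1) (z e.2) =
      ∏ e ∈ E, (W (z e.1) (z e.2) * (gpot d m (gM a b) false (z e.1) *
        gpot d m (gM a b) true (z e.2))) / Φ := by
    refine Finset.prod_congr rfl fun e he => ?_
    obtain ⟨s1, s2⟩ := h.1 e he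
    have u1 := hu e.1
    have u2 := hu e.2
    have m1 := hmpos e.1
    have m2 := hmpos e.2
    have p1 := hpos e.1
    have p2 := hpos e.2
    rw [s1] at u1 m1 p1
    rw [s2] at u2 m2 p2
    unfold gW
    rw [if_neg (by simp [hA e he, hB e he]), hpr, hqs, u1, u2, Real.div_rpow m1.le p1.le,
      Real.div_rpow m2.le p2.le]
    unfold gmat
    rw [hpr, hqs]
    simp only [gM] at p1 p2 ⊢
    have q1 := (Real.rpow_pos_of_pos p1 (1 / d false)).ne'
    have q2 := (Real.rpow_pos_of_pos p2 (1 / d true)).ne'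
    field_simp
  have e3 : ∀ v, gM a b (side v) (z v) * gpot d m (gM a b) (side v) (z v) ^ (d (side v) - g v) *
      gpot d m (gM a b) (side v) (z v) ^ g v = m (side v) (z v) := by
    intro v
    rw [mul_assoc, ← Real.rpow_natCast, ← Real.rpow_add (hupos v), sub_add_cancel, hu,
      ← Real.rpow_mul (div_nonneg (hmpos v).le (hpos v).le), one_div_mul_cancel (hd _).ne',
      Real.rpow_one, mul_div_cancel₀ _ (h0 v)]
  have e5 : ∏ e ∈ E, gW p q (gmat p q m W) a b Φ (z e.1) (z e.2) =
      (∏ e ∈ E, W (z e.1) (z e.2)) * (∏ v, gpot d m (gM a b) (side v) (z v) ^ g v) /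
        Φ ^ E.card := by
    rw [e1, Finset.prod_div_distrib, Finset.prod_mul_distrib, h.prod_edges, Finset.prod_const]
  rw [e5]
  have hΦ' : Φ ^ E.card ≠ 0 := (pow_pos hΦ _).ne'
  have e4 : (∏ v, gM a b (side v) (z v) *
      gpot d m (gM a b) (side v) (z v) ^ (d (side v) - g v)) *
      (∏ v, gpot d m (gM a b) (side v) (z v) ^ g v) = ∏ v, m (side v) (z v) := by
    rw [← Finset.prod_mul_distrib]
    exact Finset.prod_congr rfl fun v _ => e3 v
  apply le_of_eq
  rw [← e4]
  field_simp

end count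

end Vale.Agent.P050.H177
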