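import Vale.Agent.P050.H177.Gauge11

/-!
The gauge reduction for all bipartite graphs: real exponents, and the norm of the kernel.
-/

namespace Vale.Agent.P050.H177

open Finset Vale.Agent.P050 Vale.Agent.P050.Lev Vale.Agent.P050.Cart

variable {U : Type} [Fintype U]

/-- The kernel `W ≥ 0` with the probability weights `m false`, `m true` is doubly stochastic, and a
contraction from `L ^ (r / (r - 1))` to `L ^ s`, the dual of `L ^ (s / (s - 1))`. -/
def NiceHost {U : Type} [Fintype U] (r s : ℝ) (m : Bool → U → ℝ) (W : U → U → ℝ) : Prop :=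
  (∀ b x, 0 ≤ m b x) ∧ (∀ b, ∑ x, m b x = 1) ∧ (∀ x y, 0 ≤ W x y) ∧
    (∀ x, ∑ y, m true y * W x y = 1) ∧ (∀ y, ∑ x, m false x * W x y = 1) ∧
    HyperContr (r / (r - 1)) (s / (s - 1)) m W

theorem NiceHost.corrLe {m : Bool → U → ℝ} {W : U → U → ℝ} {r s : ℝ} (hr : 1 < r) (hs : 1 < s)
    (h : NiceHost r s m W) : CorrLe (1 / ((r - 1) * (s - 1))) m W := by
  intro u v hu hv
  obtain ⟨hm, hm1, hW, hrow, hcol, hyp⟩ := h
  have hp1 : 1 < r / (r - 1) := by
    rw [lt_div_iff₀ (by linarith)]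
    linarith
  have hq1 : 1 < s / (s - 1) := by
    rw [lt_div_iff₀ (by linarith)]
    linarith
  have h1 := hyp.corr hp1 hq1 hm hm1 hW hrow hcol u v hu hv
  have h2 : (r / (r - 1) - 1) * (s / (s - 1) - 1) = 1 / ((r - 1) * (s - 1)) := by
    have e1 : r - 1 ≠ 0 := by linarith
    have e2 : s - 1 ≠ 0 := by linarith
    field_simp
    ring
  rwa [h2] at h1

/-- the norm of the kernel is the maximum of the objective function -/
theorem norm_le {p q Φ : ℝ} {m : Bool → U → ℝ} {W : U → U → ℝ} (hp : 1 < p) (hq : 1 < q)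
    (hm : ∀ b x, 0 ≤ m b x)
    (hmax : ∀ a' ∈ stdSimplex ℝ U, ∀ b' ∈ stdSimplex ℝ U, gobj p q (gmat p q m W) a' b' ≤ Φ)
    (f g : U → ℝ) (hf : ∀ x, 0 ≤ f x) (hg : ∀ y, 0 ≤ g y) :
    ∑ x, ∑ y, m false x * m true y * W x y * (f x * g y) ≤
      Φ * ((∑ x, m false x * f x ^ p) ^ (1 / p) * (∑ y, m true y * g y ^ q) ^ (1 / q)) := by
  have hp' : 1 / p ≠ 0 := (one_div_pos.2 (by linarith)).ne'
  have hq' : 1 / q ≠ 0 := (one_div_pos.2 (by linarith)).ne'
  set S := ∑ x, m false x * f x ^ p with hS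
  set T := ∑ y, m true y * g y ^ q with hT
  have hS0 : ∀ x, 0 ≤ m false x * f x ^ p := fun x => mul_nonneg (hm _ x)
    (Real.rpow_nonneg (hf x) _)
  have hT0 : ∀ y, 0 ≤ m true y * g y ^ q := fun y => mul_nonneg (hm _ y)
    (Real.rpow_nonneg (hg y) _)
  have hS1 : 0 ≤ S := Finset.sum_nonneg fun x _ => hS0 x
  have hT1 : 0 ≤ T := Finset.sum_nonneg fun y _ => hT0 y
  have e1 : ∀ x y, m false x * m true y * W x y * (f x * g y) = gmat p q m W x y *
      ((m false x * f x ^ p) ^ (1 / p) * (m true y * g y ^ q) ^ (1 / q)) := by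
    intro x y
    rw [← rpow_pull hp (hm false x) (hf x), ← rpow_pull hq (hm true y) (hg y)]
    have h1 := rpow_split hp (hm false x)
    have h2 := rpow_split hq (hm true y)
    unfold gmat
    calc m false x * m true y * W x y * (f x * g y)
        = (m false x ^ (1 - 1 / p) * m false x ^ (1 / p)) *
          (m true y ^ (1 - 1 / q) * m true y ^ (1 / q)) * W x y * (f x * g y) := by rw [h1, h2]
      _ = _ := by ring
  simp_rw [e1]
  rcases hS1.eq_or_lt with h | hSp
  · have h1 : ∀ x, m false x * f x ^ p = 0 := fun x =>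
      (Finset.sum_eq_zero_iff_of_nonneg fun x _ => hS0 x).1 h.symm x (Finset.mem_univ x)
    simp_rw [h1]
    rw [Real.zero_rpow hp', ← h, Real.zero_rpow hp']
    simp
  rcases hT1.eq_or_lt with h | hTp
  · have h1 : ∀ y, m true y * g y ^ q = 0 := fun y =>
      (Finset.sum_eq_zero_iff_of_nonneg fun y _ => hT0 y).1 h.symm y (Finset.mem_univ y)
    simp_rw [h1]
    rw [Real.zero_rpow hq', ← h, Real.zero_rpow hq']
    simp
  have ha' : (fun x => m false x * f x ^ p / S) ∈ stdSimplex ℝ U :=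
    ⟨fun x => div_nonneg (hS0 x) hS1, by rw [← Finset.sum_div, ← hS, div_self hSp.ne']⟩
  have hb' : (fun y => m true y * g y ^ q / T) ∈ stdSimplex ℝ U :=
    ⟨fun y => div_nonneg (hT0 y) hT1, by rw [← Finset.sum_div, ← hT, div_self hTp.ne']⟩
  have h1 := hmax _ ha' _ hb'
  have e2 : gobj p q (gmat p q m W) (fun x => m false x * f x ^ p / S)
      (fun y => m true y * g y ^ q / T) =
      (∑ x, ∑ y, gmat p q m W x y * ((m false x * f x ^ p) ^ (1 / p) *
        (m true y * g y ^ q) ^ (1 / q))) / (S ^ (1 / p) * T ^ (1 / q)) := by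
    unfold gobj
    simp_rw [Finset.sum_div]
    refine Finset.sum_congr rfl fun x _ => Finset.sum_congr rfl fun y _ => ?_
    rw [Real.div_rpow (hS0 x) hS1, Real.div_rpow (hT0 y) hT1]
    ring
  rwa [e2, div_le_iff₀ (mul_pos (Real.rpow_pos_of_pos hSp _) (Real.rpow_pos_of_pos hTp _))] at h1

/-- **The gauge reduction**, real exponents -/
theorem gaugeR {r s : ℝ} (hr : 1 < r) (hs : 1 < s) {m : Bool → U → ℝ} {W : U → U → ℝ}
    (hm : ∀ b x, 0 ≤ m b x) (hm1 : ∀ b, ∑ x, m b x = 1) (hW : ∀ x y, 0 ≤ W x y)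
    (hk : 0 < kmean m W) :
    ∃ (m' : Bool → U → ℝ) (W' : U → U → ℝ) (u : Bool → U → ℝ) (Φ : ℝ), NiceHost r s m' W' ∧
      (∀ b x, 0 < u b x) ∧
      (∀ x y, m' false x * m' true y * W' x y ≠ 0 → m false x * m true y * W x y ≠ 0) ∧
      kmean m W ≤ Φ ∧
      (∀ f g : U → ℝ, (∀ x, 0 ≤ f x) → (∀ y, 0 ≤ g y) →
        ∑ x, ∑ y, m false x * m true y * W x y * (f x * g y) ≤
          Φ * ((∑ x, m false x * f x ^ (r / (r - 1))) ^ (1 / (r / (r - 1))) *
            (∑ y, m true y * g y ^ (s / (s - 1))) ^ (1 / (s / (s - 1))))) ∧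
      ∀ (V : Type) [Fintype V] [DecidableEq V] (E : Finset (V × V)) (side : V → Bool)
        (g : V → ℕ), EDeg E side g → Φ ^ E.card * pdens E side g
          (fun b => if b then s else r) m' W' u ≤ kdens E side m W := by
  classical
  set p : ℝ := r / (r - 1) with hp
  set q : ℝ := s / (s - 1) with hq
  have hp1 : 1 < p := by
    rw [hp, lt_div_iff₀ (by linarith)]
    linarith
  have hq1 : 1 < q := by
    rw [hq, lt_div_iff₀ (by linarith)]
    linarith
  have hpr : 1 - 1 / p = 1 / r := by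
    rw [hp]
    have h1 : r - 1 ≠ 0 := by linarith
    have h2 : r ≠ 0 := by linarith
    field_simp
    ring
  have hqs : 1 - 1 / q = 1 / s := by
    rw [hq]
    have h1 : s - 1 ≠ 0 := by linarith
    have h2 : s ≠ 0 := by linarith
    field_simp
    ring
  have hr0 : 1 / r ≠ 0 := (one_div_pos.2 (by linarith)).ne'
  have hs0 : 1 / s ≠ 0 := (one_div_pos.2 (by linarith)).ne'
  have hne : Nonempty U := by
    by_contra h
    rw [not_nonempty_iff] at h
    have := hm1 false
    rw [Finset.univ_eq_empty, Finset.sum_empty] at this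
    exact zero_ne_one this
  obtain ⟨a, ha, b, hb, hmax⟩ := exists_max hp1 hq1 (gmat p q m W)
  set Φ := gobj p q (gmat p q m W) a b with hΦ
  have hle : kmean m W ≤ Φ := by
    rw [← gobj_self hp1 hq1 W hm]
    exact hmax _ ⟨hm false, hm1 false⟩ _ ⟨hm true, hm1 true⟩
  have hΦ0 : 0 < Φ := hk.trans_le hle
  have hc : ∀ x y, 0 ≤ gmat p q m W x y := fun x y => mul_nonneg (hW x y)
    (mul_nonneg (Real.rpow_nonneg (hm _ _) _) (Real.rpow_nonneg (hm _ _) _))
  have hgM : ∀ i x, 0 ≤ gM a b i x := by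
    rintro (_ | _) x
    · exact ha.1 x
    · exact hb.1 x
  have hgM1 : ∀ i, ∑ x, gM a b i x = 1 := by
    rintro (_ | _)
    · exact ha.2
    · exact hb.2
  have hgW : ∀ x y, 0 ≤ gW p q (gmat p q m W) a b Φ x y := gW_nonneg ha.1 hb.1 hc hΦ0.le
  have hmean := gW_mean (Φ := Φ) hp1 hq1 ha.1 hb.1 hΦ.symm hΦ0
  have hyp := gW_hyper hp1 hq1 ha hb hΦ.symm hΦ0 hmax
  have hrow : ∀ x, ∑ y, gM a b true y * gW p q (gmat p q m W) a b Φ x y = 1 := by
    intro x
    by_cases hx : a x = 0
    · have : ∀ y, gW p q (gmat p q m W) a b Φ x y = 1 := fun y => if_pos (Or.inl hx)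
      simp_rw [this, mul_one]
      exact hgM1 true
    · exact hyp.row hp1 hq1 hgM hgM1 hgW hmean x hx
  have hcol : ∀ y, ∑ x, gM a b false x * gW p q (gmat p q m W) a b Φ x y = 1 := by
    intro y
    by_cases hy : b y = 0
    · have : ∀ x, gW p q (gmat p q m W) a b Φ x y = 1 := fun x => if_pos (Or.inr hy)
      simp_rw [this, mul_one]
      exact hgM1 false
    · exact hyp.col hp1 hq1 hgM hgM1 hgW hmean y hy
  have hsup : ∀ x y, gM a b false x * gM a b true y * gW p q (gmat p q m W) a b Φ x y ≠ 0 →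
      m false x * m true y * W x y ≠ 0 := by
    intro x y hxy h0
    apply hxy
    change a x * b y * gW p q (gmat p q m W) a b Φ x y = 0
    rw [gW_mul hp1 hq1 ha.1 hb.1]
    have hg : gmat p q m W x y = 0 := by
      unfold gmat
      rcases mul_eq_zero.1 h0 with h1 | h1
      · rcases mul_eq_zero.1 h1 with h2 | h2
        · rw [h2, hpr, Real.zero_rpow hr0]
          ring
        · rw [h2, hqs, Real.zero_rpow hs0]
          ring
      · rw [h1, zero_mul]
    rw [hg, zero_mul, zero_div]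
  have hab : ∀ i x, gM a b i x ≠ 0 → m i x ≠ 0 := by
    rintro (_ | _) x hx h0
    · have h1 : ∑ y, gM a b true y * gW p q (gmat p q m W) a b Φ x y = 0 := by
        refine Finset.sum_eq_zero fun y _ => ?_
        by_contra h2
        exact hsup x y (by
          rw [mul_assoc]
          exact mul_ne_zero hx h2) (by rw [h0]; ring)
      rw [hrow] at h1
      exact one_ne_zero h1
    · have h1 : ∑ y, gM a b false y * gW p q (gmat p q m W) a b Φ y x = 0 := by
        refine Finset.sum_eq_zero fun y _ => ?_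
        by_contra h2
        exact hsup y x (by
          rw [mul_right_comm]
          exact mul_ne_zero h2 hx) (by rw [h0]; ring)
      rw [hcol] at h1
      exact one_ne_zero h1
  have hd : ∀ i : Bool, 0 < (fun i : Bool => if i then s else r) i := by
    rintro (_ | _)
    · simp only [Bool.false_eq_true, if_false]
      linarith
    · simp only [if_true]
      linarith
  refine ⟨gM a b, gW p q (gmat p q m W) a b Φ, gpot (fun i => if i then s else r) m (gM a b), Φ,
    ⟨hgM, hgM1, hgW, hrow, hcol, hyp⟩, ?_, hsup, hle, norm_le hp1 hq1 hm hmax, ?_⟩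
  · intro i x
    unfold gpot
    split_ifs with h0
    · exact one_pos
    · exact Real.rpow_pos_of_pos (div_pos (lt_of_le_of_ne (hm _ _) (Ne.symm (hab _ _ h0)))
        (lt_of_le_of_ne (hgM _ _) (Ne.symm h0))) _
  · intro V _ _ E side g hE
    exact gauge_pdens hE hd (by simpa using hpr) (by simpa using hqs) hm hW ha.1 hb.1 hΦ0 hab

end Vale.Agent.P050.H177
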