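import Vale.Agent.P050.H177.Gauge10
import Vale.Agent.P050.H177.Gauge13

/-!
The gauge reduction for all bipartite graphs: final forms.
-/

namespace Vale.Agent.P050.H177

open Finset Vale.Agent.P050 Vale.Agent.P050.Lev Vale.Agent.P050.Cart

/-- The homomorphism density of `H`, 2-coloured by `side`, in the kernel `W` with the weights
`m false`, `m true` and the potentials `u false`, `u true`: a vertex `v` has the additional weight
`u ^ (r - deg v)`, if its colour is `false`, and `u ^ (s - deg v)`, if its colour is `true`. -/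
noncomputable def potDens {V U : Type} [Fintype V] [DecidableEq V] [Fintype U] (H : SimpleGraph V)
    (side : V → Bool) (r s : ℝ) (m : Bool → U → ℝ) (W : U → U → ℝ) (u : Bool → U → ℝ) : ℝ :=
  ∑ z : V → U, (∏ v, m (side v) (z v) *
    u (side v) (z v) ^ ((if side v then s else r) - Nat.card (H.neighborSet v))) *
      ∏ e ∈ sideEdges H side, W (z e.1) (z e.2)

variable {V : Type} [Fintype V] [DecidableEq V] {H : SimpleGraph V} {side : V → Bool}

theorem edeg_graph (h : ∀ u v, H.Adj u v → side u ≠ side v) :
    EDeg (sideEdges H side) side fun v => Nat.card (H.neighborSet v) := by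
  classical
  have hmem : ∀ e : V × V, e ∈ sideEdges H side ↔
      H.Adj e.1 e.2 ∧ side e.1 = false ∧ side e.2 = true := fun e => by
    unfold sideEdges
    rw [Finset.mem_filter]
    simp
  refine ⟨fun e he => ((hmem e).1 he).2, fun v hv => ?_, fun v hv => ?_⟩
  · simp only
    rw [Nat.card_eq_fintype_card, ← Set.toFinset_card]
    refine Finset.card_bij (fun e _ => e.2) ?_ ?_ ?_
    · intro e he
      rw [Finset.mem_filter] at he
      rw [Set.mem_toFinset, SimpleGraph.mem_neighborSet, ← he.2]
      exact ((hmem e).1 he.1).1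
    · intro e he e' he' hee
      rw [Finset.mem_filter] at he he'
      exact Prod.ext (he.2.trans he'.2.symm) hee
    · intro w hw
      rw [Set.mem_toFinset, SimpleGraph.mem_neighborSet] at hw
      have hw' : side w = true := by
        have := h _ _ hw
        rw [hv] at this
        cases hs : side w
        · exact absurd hs.symm this
        · rfl
      exact ⟨(v, w), Finset.mem_filter.2 ⟨(hmem _).2 ⟨hw, hv, hw'⟩, rfl⟩, rfl⟩
  · simp only
    rw [Nat.card_eq_fintype_card, ← Set.toFinset_card]
    refine Finset.card_bij (fun e _ => e.1) ?_ ?_ ?_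
    · intro e he
      rw [Finset.mem_filter] at he
      rw [Set.mem_toFinset, SimpleGraph.mem_neighborSet, ← he.2]
      exact ((hmem e).1 he.1).1.symm
    · intro e he e' he' hee
      rw [Finset.mem_filter] at he he'
      exact Prod.ext hee (he.2.trans he'.2.symm)
    · intro w hw
      rw [Set.mem_toFinset, SimpleGraph.mem_neighborSet] at hw
      have hw' : side w = false := by
        have := h _ _ hw
        rw [hv] at this
        cases hs : side w
        · rfl
        · exact absurd hs.symm this
      exact ⟨(w, v), Finset.mem_filter.2 ⟨(hmem _).2 ⟨hw.symm, hw', hv⟩, rfl⟩, rfl⟩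

theorem ratio_facts {a e : ℕ} (ha : 0 < a) (hae : a < e) :
    1 < (e : ℝ) / a ∧ (e : ℝ) = (e : ℝ) / a * a ∧
      (e : ℝ) / a / ((e : ℝ) / a - 1) = e / (e - a) := by
  have h1 : (0 : ℝ) < a := by exact_mod_cast ha
  have h2 : (a : ℝ) < e := by exact_mod_cast hae
  have h3 : (e : ℝ) - a ≠ 0 := by linarith
  refine ⟨by rwa [lt_div_iff₀ h1, one_mul], by field_simp, ?_⟩
  have h4 : (e : ℝ) / a - 1 ≠ 0 := by
    have : 1 < (e : ℝ) / a := by rwa [lt_div_iff₀ h1, one_mul]
    linarith
  rw [div_eq_div_iff h4 h3]
  field_simp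

theorem side_pos (h : ∀ u v, H.Adj u v → side u ≠ side v) (b : Bool)
    (hE : 0 < (sideEdges H side).card) : 0 < sideCard side b := by
  classical
  obtain ⟨e, he⟩ := Finset.card_pos.1 hE
  have h1 := (edeg_graph h).1 e he
  unfold sideCard
  rw [Finset.card_pos]
  cases b
  · exact ⟨e.1, Finset.mem_filter.2 ⟨mem_univ _, h1.1⟩⟩
  · exact ⟨e.2, Finset.mem_filter.2 ⟨mem_univ _, h1.2⟩⟩

/-- the reduction for all bipartite graphs -/
theorem gsid_iff_pot (h : ∀ u v, H.Adj u v → side u ≠ side v)
    (hlt : ∀ b, Nat.card {v // side v = b} < Nat.card H.edgeSet) :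
    GSid H side ↔ ∀ (U : Type) [Fintype U] (m : Bool → U → ℝ) (W : U → U → ℝ)
      (u : Bool → U → ℝ), NiceHost (Nat.card H.edgeSet / Nat.card {v // side v = false})
        (Nat.card H.edgeSet / Nat.card {v // side v = true}) m W → (∀ b x, 0 < u b x) →
        1 ≤ potDens H side (Nat.card H.edgeSet / Nat.card {v // side v = false})
          (Nat.card H.edgeSet / Nat.card {v // side v = true}) m W u := by
  have hE : 0 < (sideEdges H side).card := by
    rw [card_sideEdges H side h]
    exact lt_of_le_of_lt (Nat.zero_le _) (hlt true)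
  have p0 := side_pos h false hE
  have p1 := side_pos h true hE
  rw [← card_sideEdges H side h] at hlt ⊢
  rw [← sideCard_eq, ← sideCard_eq]
  obtain ⟨r1, r2, -⟩ := ratio_facts p0 (by rw [sideCard_eq]; exact hlt false)
  obtain ⟨s1, s2, -⟩ := ratio_facts p1 (by rw [sideCard_eq]; exact hlt true)
  have := ksid_iff_pot (edeg_graph h) r1 s1 r2 s2 hE
  constructor
  · intro hG
    exact this.1 hG.2
  · intro hall
    exact ⟨h, this.2 hall⟩

/-- the norm inequality for all bipartite graphs -/
theorem gsid_iff_norm (h : ∀ u v, H.Adj u v → side u ≠ side v)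
    (hlt : ∀ b, Nat.card {v // side v = b} < Nat.card H.edgeSet) :
    GSid H side ↔ ∀ (U : Type) [Fintype U] (m : Bool → U → ℝ) (W : U → U → ℝ),
      (∀ b x, 0 ≤ m b x) → (∀ b, ∑ x, m b x = 1) → (∀ x y, 0 ≤ W x y) →
      ∀ f g : U → ℝ, (∀ x, 0 ≤ f x) → (∀ y, 0 ≤ g y) →
      (∑ x, ∑ y, m false x * m true y * W x y * (f x * g y)) ^ Nat.card H.edgeSet ≤
        kdens (sideEdges H side) side m W *
          ((∑ x, m false x * f x ^ ((Nat.card H.edgeSet : ℝ) / (Nat.card H.edgeSet -
              Nat.card {v // side v = false}))) ^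
            (Nat.card H.edgeSet - Nat.card {v // side v = false}) *
          (∑ y, m true y * g y ^ ((Nat.card H.edgeSet : ℝ) / (Nat.card H.edgeSet -
              Nat.card {v // side v = true}))) ^
            (Nat.card H.edgeSet - Nat.card {v // side v = true})) := by
  have hE : 0 < (sideEdges H side).card := by
    rw [card_sideEdges H side h]
    exact lt_of_le_of_lt (Nat.zero_le _) (hlt true)
  have p0 := side_pos h false hE
  have p1 := side_pos h true hE
  rw [← card_sideEdges H side h] at hlt ⊢
  rw [← sideCard_eq, ← sideCard_eq]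
  obtain ⟨r1, r2, r3⟩ := ratio_facts p0 (by rw [sideCard_eq]; exact hlt false)
  obtain ⟨s1, s2, s3⟩ := ratio_facts p1 (by rw [sideCard_eq]; exact hlt true)
  constructor
  · intro hG U _ m W hm hm1 hW f g hf hg
    have := norm_dens (edeg_graph h) r1 s1 r2 s2 hE hG.2 hm hm1 hW f g hf hg
    rwa [r3, s3] at this
  · intro hall
    refine ⟨h, (edeg_graph h).1, fun U _ m W hm hm1 hW => ?_⟩
    have h1 := hall U m W hm hm1 hW (fun _ => 1) (fun _ => 1) (fun _ => zero_le_one)
      (fun _ => zero_le_one)
    simp only [mul_one, Real.one_rpow, hm1, one_pow] at h1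
    exact h1

end Vale.Agent.P050.H177
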