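import Vale.Agent.P050.H177.Gauge14

/-!
The gauge reduction for all bipartite graphs: a weight for every vertex.
-/

namespace Vale.Agent.P050.H177

open Finset Vale.Agent.P050 Vale.Agent.P050.Lev Vale.Agent.P050.Cart

variable {U V : Type} [Fintype U] [Fintype V] [DecidableEq V] {E : Finset (V × V)}
  {side : V → Bool} {g : V → ℕ}

/-- the new kernel with the potential has a smaller homomorphism density, with a weight -/
theorem gauge_pdens_weight (h : EDeg E side g) {d : Bool → ℝ} (hd : ∀ b, 0 < d b) {p q Φ : ℝ}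
    (hpr : 1 - 1 / p = 1 / d false) (hqs : 1 - 1 / q = 1 / d true) {m : Bool → U → ℝ}
    {W : U → U → ℝ} (hm : ∀ b x, 0 ≤ m b x) (hW : ∀ x y, 0 ≤ W x y) {a b : U → ℝ}
    (ha : ∀ x, 0 ≤ a x) (hb : ∀ y, 0 ≤ b y) (hΦ : 0 < Φ)
    (hab : ∀ i x, gM a b i x ≠ 0 → m i x ≠ 0) (K : (V → U) → ℝ) (hK : ∀ z, 0 ≤ K z) :
    Φ ^ E.card * ∑ z : V → U, K z * ((∏ v, gM a b (side v) (z v) *
        gpot d m (gM a b) (side v) (z v) ^ (d (side v) - g v)) *
          ∏ e ∈ E, gW p q (gmat p q m W) a b Φ (z e.1) (z e.2)) ≤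
      ∑ z : V → U, K z * ((∏ v, m (side v) (z v)) * ∏ e ∈ E, W (z e.1) (z e.2)) := by
  classical
  rw [Finset.mul_sum]
  refine Finset.sum_le_sum fun z _ => ?_
  rw [mul_left_comm]
  refine mul_le_mul_of_nonneg_left ?_ (hK z)
  have hr0 : 0 ≤ (∏ v, m (side v) (z v)) * ∏ e ∈ E, W (z e.1) (z e.2) :=
    mul_nonneg (Finset.prod_nonneg fun v _ => hm _ _) (Finset.prod_nonneg fun e _ => hW _ _)
  by_cases h0 : ∃ v, gM a b (side v) (z v) = 0
  · obtain ⟨v, hv⟩ := h0
    rw [Finset.prod_eq_zero (Finset.mem_univ v) (by rw [hv, zero_mul]), zero_mul, mul_zero]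
    exact hr0
  push Not at h0
  have hgM : ∀ i x, 0 ≤ gM a b i x := by
    rintro (_ | _) x
    · exact ha x
    · exact hb x
  have hA : ∀ e ∈ E, a (z e.1) ≠ 0 := fun e he => by
    have := h0 e.1
    rwa [(h.1 e he).1] at this
  have hB : ∀ e ∈ E, b (z e.2) ≠ 0 := fun e he => by
    have := h0 e.2
    rwa [(h.1 e he).2] at this
  have hpos : ∀ v, 0 < gM a b (side v) (z v) := fun v => lt_of_le_of_ne (hgM _ _) (Ne.symm (h0 v))
  have hmpos : ∀ v, 0 < m (side v) (z v) := fun v =>
    lt_of_le_of_ne (hm _ _) (Ne.symm (hab _ _ (h0 v)))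
  have hu : ∀ v, gpot d m (gM a b) (side v) (z v) =
      (m (side v) (z v) / gM a b (side v) (z v)) ^ (1 / d (side v)) := fun v => if_neg (h0 v)
  have hupos : ∀ v, 0 < gpot d m (gM a b) (side v) (z v) := fun v => by
    rw [hu]
    exact Real.rpow_pos_of_pos (div_pos (hmpos v) (hpos v)) _
  have e1 : ∏ e ∈ E, gW p q (gmat p q m W) a b Φ (z e.1) (z e.2) =
      ∏ e ∈ E, (W (z e.1) (z e.2) * (gpot d m (gM a b) false (z e.1) *
        gpot d m (gM a b) true (z e.2))) / Φ := by
    refine Finset.prod_congr rfl fun e he => ?_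
    obtain ⟨s1, s2⟩ := h.1 e he
    have u1 := hu e.1
    have u2 := hu e.2
    have m1 := hmpos e.1
    have m2 := hmpos e.2
    have p1 := hpos e.1
    have p2 := hpos e.2
    rw [s1] at u1 m1 p1
    rw [s2] at u2 m2 p2
    unfold gW
    rw [if_neg (by simp [hA e he, hB e he]), hpr, hqs, u1, u2, Real.div_rpow m1.le p1.le,
      Real.div_rpow m2.le p2.le]
    unfold gmat
    rw [hpr, hqs]
    simp only [gM] at p1 p2 ⊢
    have q1 := (Real.rpow_pos_of_pos p1 (1 / d false)).ne'
    have q2 := (Real.rpow_pos_of_pos p2 (1 / d true)).ne'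
    field_simp
  have e3 : ∀ v, gM a b (side v) (z v) * gpot d m (gM a b) (side v) (z v) ^ (d (side v) - g v) *
      gpot d m (gM a b) (side v) (z v) ^ g v = m (side v) (z v) := by
    intro v
    rw [mul_assoc, ← Real.rpow_natCast, ← Real.rpow_add (hupos v), sub_add_cancel, hu,
      ← Real.rpow_mul (div_nonneg (hmpos v).le (hpos v).le), one_div_mul_cancel (hd _).ne',
      Real.rpow_one, mul_div_cancel₀ _ (h0 v)]
  have e5 : ∏ e ∈ E, gW p q (gmat p q m W) a b Φ (z e.1) (z e.2) =
      (∏ e ∈ E, W (z e.1) (z e.2)) * (∏ v, gpot d m (gM a b) (side v) (z v) ^ g v) /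
        Φ ^ E.card := by
    rw [e1, Finset.prod_div_distrib, Finset.prod_mul_distrib, h.prod_edges, Finset.prod_const]
  rw [e5]
  have hΦ' : Φ ^ E.card ≠ 0 := (pow_pos hΦ _).ne'
  have e4 : (∏ v, gM a b (side v) (z v) *
      gpot d m (gM a b) (side v) (z v) ^ (d (side v) - g v)) *
      (∏ v, gpot d m (gM a b) (side v) (z v) ^ g v) = ∏ v, m (side v) (z v) := by
    rw [← Finset.prod_mul_distrib]
    exact Finset.prod_congr rfl fun v _ => e3 v
  apply le_of_eq
  rw [← e4]
  field_simp

/-- the homomorphism density of a two-sided Sidorenko graph with weights of the vertices, in a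
doubly stochastic kernel -/
theorem one_le_wdens (hK : KSid E side) {m : Bool → U → ℝ}
    {W : U → U → ℝ} (hm : ∀ b x, 0 ≤ m b x) (hm1 : ∀ b, ∑ x, m b x = 1) (hW : ∀ x y, 0 ≤ W x y)
    (hrow : ∀ x, ∑ y, m true y * W x y = 1) (hcol : ∀ y, ∑ x, m false x * W x y = 1)
    {c : V → U → ℝ} (hc : ∀ v x, 0 < c v x)
    (hc1 : ∀ b x, ∑ v ∈ univ.filter (fun v => side v = b), Real.log (c v x) = 0) :
    1 ≤ ∑ z : V → U, (∏ v, m (side v) (z v) * c v (z v)) * ∏ e ∈ E, W (z e.1) (z e.2) := by
  classical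
  set π : U → U → ℝ := fun x y => m false x * m true y * W x y with hπdef
  have hπ : ∀ x y, 0 ≤ π x y := fun x y => mul_nonneg (mul_nonneg (hm _ _) (hm _ _)) (hW _ _)
  have h1 : ∀ x, ∑ y, π x y = m false x := by
    intro x
    calc ∑ y, m false x * m true y * W x y = m false x * ∑ y, m true y * W x y := by
          rw [Finset.mul_sum]
          exact Finset.sum_congr rfl fun y _ => by ring
      _ = m false x := by rw [hrow, mul_one]
  have h2 : ∀ y, ∑ x, π x y = m true y := by
    intro y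
    calc ∑ x, m false x * m true y * W x y = m true y * ∑ x, m false x * W x y := by
          rw [Finset.mul_sum]
          exact Finset.sum_congr rfl fun x _ => by ring
      _ = m true y := by rw [hcol, mul_one]
  obtain ⟨ν, hν⟩ := Cart.KSid.sidLaw hK hm hm1 hπ h1 h2
  have hmne : ∀ z, ν z ≠ 0 → ∀ v, m (side v) (z v) ≠ 0 := fun z hz v => hν.law_ne_zero hz v
  have hWne : ∀ z, ν z ≠ 0 → ∀ e ∈ E, W (z e.1) (z e.2) ≠ 0 := fun z hz e he h0 =>
    hν.edge_ne_zero hz he (by simp only [hπdef, h0, mul_zero])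
  obtain ⟨hgibbs, hpos⟩ := gibbs_log (p := ν) (q := fun z =>
      (∏ v, m (side v) (z v) * c v (z v)) * ∏ e ∈ E, W (z e.1) (z e.2)) hν.nonneg
    (fun z => mul_nonneg (Finset.prod_nonneg fun v _ => mul_nonneg (hm _ _) (hc v _).le)
      (Finset.prod_nonneg fun e _ => hW _ _))
    (fun z hz => by
      by_contra hcon
      rcases mul_eq_zero.1 hz with h5 | h5
      · obtain ⟨v, -, h6⟩ := Finset.prod_eq_zero_iff.1 h5
        exact mul_ne_zero (hmne z hcon v) (hc v _).ne' h6
      · obtain ⟨e, he, h6⟩ := Finset.prod_eq_zero_iff.1 h5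
        exact hWne z hcon e he h6) hν.total
  have hinf : Cart.inf m π = ∑ x, ∑ y, π x y * Real.log (W x y) := by
    unfold Cart.inf
    refine Finset.sum_congr rfl fun x _ => Finset.sum_congr rfl fun y _ => ?_
    by_cases h3 : π x y = 0
    · rw [h3]; ring
    have h5 : W x y ≠ 0 := right_ne_zero_of_mul h3
    have h6 : m false x ≠ 0 := left_ne_zero_of_mul (left_ne_zero_of_mul h3)
    have h7 : m true y ≠ 0 := right_ne_zero_of_mul (left_ne_zero_of_mul h3)
    have h8 : Real.log (π x y) = Real.log (m false x) + Real.log (m true y) +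
        Real.log (W x y) := by
      simp only [hπdef]
      rw [Real.log_mul (mul_ne_zero h6 h7) h5, Real.log_mul h6 h7]
    rw [h8]
    ring
  have hmain : 0 ≤ ∑ z, ν z * (Real.log ((∏ v, m (side v) (z v) * c v (z v)) *
      ∏ e ∈ E, W (z e.1) (z e.2)) - Real.log (ν z)) := by
    have h3 : ∀ z, ν z * (Real.log ((∏ v, m (side v) (z v) * c v (z v)) *
        ∏ e ∈ E, W (z e.1) (z e.2)) - Real.log (ν z))
        = ∑ v, ν z * Real.log (c v (z v))
          + ∑ e ∈ E, ν z * Real.log (W (z e.1) (z e.2))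
          - ν z * (Real.log (ν z) - ∑ v, Real.log (m (side v) (z v))) := by
      intro z
      by_cases hz : ν z = 0
      · simp [hz]
      · have h4 : (∏ v, m (side v) (z v) * c v (z v)) ≠ 0 :=
          Finset.prod_ne_zero_iff.2 fun v _ => mul_ne_zero (hmne z hz v) (hc v _).ne'
        have h5 : ∏ e ∈ E, W (z e.1) (z e.2) ≠ 0 :=
          Finset.prod_ne_zero_iff.2 fun e he => hWne z hz e he
        rw [Real.log_mul h4 h5, Real.log_prod (fun v _ => mul_ne_zero (hmne z hz v)
          (hc v _).ne'), Real.log_prod (fun e he => hWne z hz e he)]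
        have h6 : ∑ v, Real.log (m (side v) (z v) * c v (z v)) =
            ∑ v, Real.log (m (side v) (z v)) + ∑ v, Real.log (c v (z v)) := by
          rw [← Finset.sum_add_distrib]
          refine Finset.sum_congr rfl fun v _ => ?_
          rw [Real.log_mul (hmne z hz v) (hc v _).ne']
        rw [h6, ← Finset.mul_sum, ← Finset.mul_sum]
        ring
    simp_rw [h3]
    rw [Finset.sum_sub_distrib, Finset.sum_add_distrib, Finset.sum_comm (s := univ) (t := univ),
      Finset.sum_comm (s := univ) (t := E)]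
    have h4 : ∑ v, ∑ z, ν z * Real.log (c v (z v)) = 0 := by
      have h5 : ∀ v, ∑ z, ν z * Real.log (c v (z v)) =
          ∑ x, m (side v) x * Real.log (c v x) := fun v =>
        hν.vertex v fun x => Real.log (c v x)
      simp_rw [h5]
      rw [sum_side side fun b v => ∑ x, m b x * Real.log (c v x)]
      rw [Finset.sum_comm, Finset.sum_comm (s := univ.filter fun v => side v = true)]
      simp_rw [← Finset.mul_sum, hc1, mul_zero, Finset.sum_const_zero, add_zero]
    have h5 : ∑ e ∈ E, ∑ z, ν z * Real.log (W (z e.1) (z e.2)) = E.card * Cart.inf m π := by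
      rw [hinf, Finset.sum_congr rfl fun e he => hν.edge e he fun x y => Real.log (W x y),
        Finset.sum_const, nsmul_eq_mul]
    have h6 : ∑ z, ν z * (Real.log (ν z) - ∑ v, Real.log (m (side v) (z v))) ≤
        E.card * Cart.inf m π := hν.bound
    rw [h4, h5]
    linarith
  have h3 := hmain.trans hgibbs
  by_contra hcon
  push Not at hcon
  exact absurd (Real.log_neg hpos hcon) (not_lt.2 h3)

end Vale.Agent.P050.H177
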