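import Vale.Agent.P050.H177.Gauge15

/-!
The gauge reduction for all bipartite graphs: a weight for every vertex.
-/

namespace Vale.Agent.P050.H177

open Finset Vale.Agent.P050 Vale.Agent.P050.Lev Vale.Agent.P050.Cart

section

variable {U : Type} [Fintype U]

/-- **The gauge reduction**, real exponents, with a weight -/
theorem gaugeRK {r s : ℝ} (hr : 1 < r) (hs : 1 < s) {m : Bool → U → ℝ} {W : U → U → ℝ}
    (hm : ∀ b x, 0 ≤ m b x) (hm1 : ∀ b, ∑ x, m b x = 1) (hW : ∀ x y, 0 ≤ W x y)
    (hk : 0 < kmean m W) :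
    ∃ (m' : Bool → U → ℝ) (W' : U → U → ℝ) (u : Bool → U → ℝ) (Φ : ℝ), NiceHost r s m' W' ∧
      (∀ b x, 0 < u b x) ∧
      (∀ x y, m' false x * m' true y * W' x y ≠ 0 → m false x * m true y * W x y ≠ 0) ∧
      kmean m W ≤ Φ ∧
      (∀ f g : U → ℝ, (∀ x, 0 ≤ f x) → (∀ y, 0 ≤ g y) →
        ∑ x, ∑ y, m false x * m true y * W x y * (f x * g y) ≤
          Φ * ((∑ x, m false x * f x ^ (r / (r - 1))) ^ (1 / (r / (r - 1))) *
            (∑ y, m true y * g y ^ (s / (s - 1))) ^ (1 / (s / (s - 1))))) ∧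
      ∀ (V : Type) [Fintype V] [DecidableEq V] (E : Finset (V × V)) (side : V → Bool)
        (g : V → ℕ) (K : (V → U) → ℝ), EDeg E side g → (∀ z, 0 ≤ K z) →
        Φ ^ E.card * ∑ z : V → U, K z * ((∏ v, m' (side v) (z v) *
          u (side v) (z v) ^ ((if side v then s else r) - g v)) * ∏ e ∈ E, W' (z e.1) (z e.2)) ≤
        ∑ z : V → U, K z * ((∏ v, m (side v) (z v)) * ∏ e ∈ E, W (z e.1) (z e.2)) := by
  classical
  set p : ℝ := r / (r - 1) with hp
  set q : ℝ := s / (s - 1) with hq
  have hp1 : 1 < p := by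
    rw [hp, lt_div_iff₀ (by linarith)]
    linarith
  have hq1 : 1 < q := by
    rw [hq, lt_div_iff₀ (by linarith)]
    linarith
  have hpr : 1 - 1 / p = 1 / r := by
    rw [hp]
    have h1 : r - 1 ≠ 0 := by linarith
    have h2 : r ≠ 0 := by linarith
    field_simp
    ring
  have hqs : 1 - 1 / q = 1 / s := by
    rw [hq]
    have h1 : s - 1 ≠ 0 := by linarith
    have h2 : s ≠ 0 := by linarith
    field_simp
    ring
  have hr0 : 1 / r ≠ 0 := (one_div_pos.2 (by linarith)).ne'
  have hs0 : 1 / s ≠ 0 := (one_div_pos.2 (by linarith)).ne'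
  have hne : Nonempty U := by
    by_contra h
    rw [not_nonempty_iff] at h
    have := hm1 false
    rw [Finset.univ_eq_empty, Finset.sum_empty] at this
    exact zero_ne_one this
  obtain ⟨a, ha, b, hb, hmax⟩ := exists_max hp1 hq1 (gmat p q m W)
  set Φ := gobj p q (gmat p q m W) a b with hΦ
  have hle : kmean m W ≤ Φ := by
    rw [← gobj_self hp1 hq1 W hm]
    exact hmax _ ⟨hm false, hm1 false⟩ _ ⟨hm true, hm1 true⟩
  have hΦ0 : 0 < Φ := hk.trans_le hle
  have hc : ∀ x y, 0 ≤ gmat p q m W x y := fun x y => mul_nonneg (hW x y)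
    (mul_nonneg (Real.rpow_nonneg (hm _ _) _) (Real.rpow_nonneg (hm _ _) _))
  have hgM : ∀ i x, 0 ≤ gM a b i x := by
    rintro (_ | _) x
    · exact ha.1 x
    · exact hb.1 x
  have hgM1 : ∀ i, ∑ x, gM a b i x = 1 := by
    rintro (_ | _)
    · exact ha.2
    · exact hb.2
  have hgW : ∀ x y, 0 ≤ gW p q (gmat p q m W) a b Φ x y := gW_nonneg ha.1 hb.1 hc hΦ0.le
  have hmean := gW_mean (Φ := Φ) hp1 hq1 ha.1 hb.1 hΦ.symm hΦ0
  have hyp := gW_hyper hp1 hq1 ha hb hΦ.symm hΦ0 hmax
  have hrow : ∀ x, ∑ y, gM a b true y * gW p q (gmat p q m W) a b Φ x y = 1 := by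
    intro x
    by_cases hx : a x = 0
    · have : ∀ y, gW p q (gmat p q m W) a b Φ x y = 1 := fun y => if_pos (Or.inl hx)
      simp_rw [this, mul_one]
      exact hgM1 true
    · exact hyp.row hp1 hq1 hgM hgM1 hgW hmean x hx
  have hcol : ∀ y, ∑ x, gM a b false x * gW p q (gmat p q m W) a b Φ x y = 1 := by
    intro y
    by_cases hy : b y = 0
    · have : ∀ x, gW p q (gmat p q m W) a b Φ x y = 1 := fun x => if_pos (Or.inr hy)
      simp_rw [this, mul_one]
      exact hgM1 false
    · exact hyp.col hp1 hq1 hgM hgM1 hgW hmean y hy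
  have hsup : ∀ x y, gM a b false x * gM a b true y * gW p q (gmat p q m W) a b Φ x y ≠ 0 →
      m false x * m true y * W x y ≠ 0 := by
    intro x y hxy h0
    apply hxy
    change a x * b y * gW p q (gmat p q m W) a b Φ x y = 0
    rw [gW_mul hp1 hq1 ha.1 hb.1]
    have hg : gmat p q m W x y = 0 := by
      unfold gmat
      rcases mul_eq_zero.1 h0 with h1 | h1
      · rcases mul_eq_zero.1 h1 with h2 | h2
        · rw [h2, hpr, Real.zero_rpow hr0]
          ring
        · rw [h2, hqs, Real.zero_rpow hs0]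
          ring
      · rw [h1, zero_mul]
    rw [hg, zero_mul, zero_div]
  have hab : ∀ i x, gM a b i x ≠ 0 → m i x ≠ 0 := by
    rintro (_ | _) x hx h0
    · have h1 : ∑ y, gM a b true y * gW p q (gmat p q m W) a b Φ x y = 0 := by
        refine Finset.sum_eq_zero fun y _ => ?_
        by_contra h2
        exact hsup x y (by
          rw [mul_assoc]
          exact mul_ne_zero hx h2) (by rw [h0]; ring)
      rw [hrow] at h1
      exact one_ne_zero h1
    · have h1 : ∑ y, gM a b false y * gW p q (gmat p q m W) a b Φ y x = 0 := by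
        refine Finset.sum_eq_zero fun y _ => ?_
        by_contra h2
        exact hsup y x (by
          rw [mul_right_comm]
          exact mul_ne_zero h2 hx) (by rw [h0]; ring)
      rw [hcol] at h1
      exact one_ne_zero h1
  have hd : ∀ i : Bool, 0 < (fun i : Bool => if i then s else r) i := by
    rintro (_ | _)
    · simp only [Bool.false_eq_true, if_false]
      linarith
    · simp only [if_true]
      linarith
  refine ⟨gM a b, gW p q (gmat p q m W) a b Φ, gpot (fun i => if i then s else r) m (gM a b), Φ,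
    ⟨hgM, hgM1, hgW, hrow, hcol, hyp⟩, ?_, hsup, hle, norm_le hp1 hq1 hm hmax, ?_⟩
  · intro i x
    unfold gpot
    split_ifs with h0
    · exact one_pos
    · exact Real.rpow_pos_of_pos (div_pos (lt_of_le_of_ne (hm _ _) (Ne.symm (hab _ _ h0)))
        (lt_of_le_of_ne (hgM _ _) (Ne.symm h0))) _
  · intro V _ _ E side g K hE hK
    exact gauge_pdens_weight hE hd (by simpa using hpr) (by simpa using hqs) hm hW ha.1 hb.1 hΦ0
      hab K hK

end

variable {U V : Type} [Fintype U] [Fintype V] [DecidableEq V] {E : Finset (V × V)}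
  {side : V → Bool} {g : V → ℕ}

theorem EDeg.sum_side_card (h : EDeg E side g) (b : Bool) :
    ∑ v ∈ univ.filter (fun v => side v = b), (g v : ℝ) = E.card := by
  cases b
  · exact h.card_fst.symm
  · exact h.card_snd.symm

/-- the mean weight of the vertices of the colour `b` -/
noncomputable def vmean (E : Finset (V × V)) (side : V → Bool) (w : V → U → ℝ) (b : Bool)
    (x : U) : ℝ := (∏ v ∈ univ.filter (fun v => side v = b), w v x) ^ (1 / (E.card : ℝ))

/-- **All bipartite graphs**: a weight for every vertex, and the norm of the kernel. -/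
theorem weighted_norm (h : EDeg E side g) {r s : ℝ} (hr : 1 < r) (hs : 1 < s)
    (hre : (E.card : ℝ) = r * sideCard side false) (hse : (E.card : ℝ) = s * sideCard side true)
    (hE : 0 < E.card) (hK : KSid E side) {m : Bool → U → ℝ} {W : U → U → ℝ}
    (hm : ∀ b x, 0 ≤ m b x) (hm1 : ∀ b, ∑ x, m b x = 1) (hW : ∀ x y, 0 ≤ W x y)
    (w : V → U → ℝ) (hw : ∀ v x, 0 < w v x)
    (f f' : U → ℝ) (hf : ∀ x, 0 ≤ f x) (hf' : ∀ y, 0 ≤ f' y) :
    (∑ x, ∑ y, m false x * m true y * (W x y * (vmean E side w false x *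
        vmean E side w true y)) * (f x * f' y)) ^ E.card ≤
      (∑ z : V → U, (∏ v, m (side v) (z v) * w v (z v)) * ∏ e ∈ E, W (z e.1) (z e.2)) *
        ((∑ x, m false x * f x ^ (r / (r - 1))) ^ (E.card - sideCard side false) *
        (∑ y, m true y * f' y ^ (s / (s - 1))) ^ (E.card - sideCard side true)) := by
  set F : Bool → U → ℝ := vmean E side w with hF
  set W2 : U → U → ℝ := fun x y => W x y * (F false x * F true y) with hW2
  have hEr : (0 : ℝ) < E.card := by exact_mod_cast hE
  have hFpos : ∀ b x, 0 < F b x := fun b x =>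
    Real.rpow_pos_of_pos (Finset.prod_pos fun v _ => hw v x) _
  have hW20 : ∀ x y, 0 ≤ W2 x y := fun x y =>
    mul_nonneg (hW x y) (mul_nonneg (hFpos _ _).le (hFpos _ _).le)
  have hk0 : 0 ≤ kmean m W2 := Finset.sum_nonneg fun x _ => Finset.sum_nonneg fun y _ =>
      mul_nonneg (mul_nonneg (hm _ _) (hm _ _)) (hW20 _ _)
  have hlogF : ∀ b x, E.card * Real.log (F b x) =
      ∑ v ∈ univ.filter (fun v => side v = b), Real.log (w v x) := by
    intro b x
    simp only [hF, vmean]
    rw [Real.log_rpow (Finset.prod_pos fun v _ => hw v x), Real.log_prod fun v _ => (hw v x).ne',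
      ← mul_assoc, mul_one_div_cancel hEr.ne', one_mul]
  set S := ∑ x, m false x * f x ^ (r / (r - 1)) with hS
  set T := ∑ y, m true y * f' y ^ (s / (s - 1)) with hT
  have hS0 : 0 ≤ S := Finset.sum_nonneg fun x _ => mul_nonneg (hm _ _) (Real.rpow_nonneg (hf x) _)
  have hT0 : 0 ≤ T := Finset.sum_nonneg fun x _ => mul_nonneg (hm _ _) (Real.rpow_nonneg (hf' x) _)
  set D := ∑ z : V → U, (∏ v, m (side v) (z v) * w v (z v)) * ∏ e ∈ E, W (z e.1) (z e.2) with hD
  have hD0 : 0 ≤ D := Finset.sum_nonneg fun z _ => mul_nonneg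
    (Finset.prod_nonneg fun v _ => mul_nonneg (hm _ _) (hw _ _).le)
    (Finset.prod_nonneg fun e _ => hW _ _)
  change (∑ x, ∑ y, m false x * m true y * W2 x y * (f x * f' y)) ^ E.card ≤ _
  rcases hk0.eq_or_lt with h0 | hk
  · have h1 : ∀ x y, m false x * m true y * W2 x y = 0 := by
      intro x y
      have h2 := (Finset.sum_eq_zero_iff_of_nonneg fun x _ => Finset.sum_nonneg fun y _ =>
        mul_nonneg (mul_nonneg (hm _ _) (hm _ _)) (hW20 _ _)).1 h0.symm x (mem_univ x)
      exact (Finset.sum_eq_zero_iff_of_nonneg fun y _ =>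
        mul_nonneg (mul_nonneg (hm _ _) (hm _ _)) (hW20 _ _)).1 h2 y (mem_univ y)
    simp_rw [h1, zero_mul, Finset.sum_const_zero]
    rw [zero_pow hE.ne']
    exact mul_nonneg hD0 (mul_nonneg (pow_nonneg hS0 _) (pow_nonneg hT0 _))
  obtain ⟨m', W', u, Φ, hn, hu, -, hle, hnorm, hdens⟩ := gaugeRK hr hs hm hm1 hW20 hk
  obtain ⟨hm', hm1', hW', hrow', hcol', -⟩ := hn
  set k : V → U → ℝ := fun v x => w v x / F (side v) x ^ g v with hkdef
  have hkpos : ∀ v x, 0 < k v x := fun v x => div_pos (hw v x) (pow_pos (hFpos _ _) _)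
  set c : V → U → ℝ := fun v x => u (side v) x ^ ((if side v then s else r) - g v) * k v x with hc
  have hcpos : ∀ v x, 0 < c v x := fun v x => mul_pos (Real.rpow_pos_of_pos (hu _ _) _) (hkpos v x)
  have hc1 : ∀ b x, ∑ v ∈ univ.filter (fun v => side v = b), Real.log (c v x) = 0 := by
    intro b x
    have e1 : ∀ v ∈ univ.filter (fun v => side v = b), Real.log (c v x) =
        ((if b then s else r) - g v) * Real.log (u b x) + Real.log (w v x) -
          g v * Real.log (F b x) := by
      intro v hv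
      have hv' := (Finset.mem_filter.1 hv).2
      simp only [hc, hkdef]
      rw [Real.log_mul (Real.rpow_pos_of_pos (hu _ _) _).ne' (hkpos v x).ne',
        Real.log_rpow (hu _ _), Real.log_div (hw v x).ne' (pow_pos (hFpos _ _) _).ne',
        Real.log_pow, hv']
      ring
    rw [Finset.sum_congr rfl e1, Finset.sum_sub_distrib, Finset.sum_add_distrib,
      ← Finset.sum_mul, ← Finset.sum_mul, h.balance hre hse b, ← hlogF, h.sum_side_card b]
    ring
  have h1 := one_le_wdens hK hm' hm1' hW' hrow' hcol' hcpos hc1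
  have h2 := hdens V E side g (fun z => ∏ v, k v (z v)) h
    fun z => Finset.prod_nonneg fun v _ => (hkpos v _).le
  have h3 : ∑ z : V → U, (∏ v, k v (z v)) * ((∏ v, m' (side v) (z v) *
      u (side v) (z v) ^ ((if side v then s else r) - g v)) * ∏ e ∈ E, W' (z e.1) (z e.2)) =
      ∑ z : V → U, (∏ v, m' (side v) (z v) * c v (z v)) * ∏ e ∈ E, W' (z e.1) (z e.2) := by
    refine Finset.sum_congr rfl fun z _ => ?_
    rw [← mul_assoc, ← Finset.prod_mul_distrib]
    congr 1
    exact Finset.prod_congr rfl fun v _ => by simp only [hc]; ring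
  have h4 : ∑ z : V → U, (∏ v, k v (z v)) * ((∏ v, m (side v) (z v)) *
      ∏ e ∈ E, W2 (z e.1) (z e.2)) = D := by
    rw [hD]
    refine Finset.sum_congr rfl fun z _ => ?_
    have e1 : ∏ e ∈ E, W2 (z e.1) (z e.2) =
        (∏ e ∈ E, W (z e.1) (z e.2)) * ∏ v, F (side v) (z v) ^ g v := by
      simp only [hW2]
      rw [Finset.prod_mul_distrib, h.prod_edges]
    have e2 : (∏ v, k v (z v)) * ∏ v, F (side v) (z v) ^ g v = ∏ v, w v (z v) := by
      rw [← Finset.prod_mul_distrib]
      refine Finset.prod_congr rfl fun v _ => ?_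
      simp only [hkdef]
      rw [div_mul_cancel₀ _ (pow_pos (hFpos _ _) _).ne']
    rw [e1, Finset.prod_mul_distrib, ← e2]
    ring
  rw [h3, h4] at h2
  have hΦ : 0 ≤ Φ := hk0.trans hle
  have h5 : Φ ^ E.card ≤ D := (le_mul_of_one_le_right (pow_nonneg hΦ _) h1).trans h2
  have h6 := hnorm f f' hf hf'
  have hL0 : 0 ≤ ∑ x, ∑ y, m false x * m true y * W2 x y * (f x * f' y) :=
    Finset.sum_nonneg fun x _ => Finset.sum_nonneg fun y _ =>
      mul_nonneg (mul_nonneg (mul_nonneg (hm _ _) (hm _ _)) (hW20 _ _))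
        (mul_nonneg (hf x) (hf' y))
  have c0 : (sideCard side false : ℝ) ≤ E.card := by
    have : (0 : ℝ) ≤ sideCard side false := Nat.cast_nonneg _
    nlinarith
  have c1 : (sideCard side true : ℝ) ≤ E.card := by
    have : (0 : ℝ) ≤ sideCard side true := Nat.cast_nonneg _
    nlinarith
  have c0' : sideCard side false ≤ E.card := by exact_mod_cast c0
  have c1' : sideCard side true ≤ E.card := by exact_mod_cast c1
  have key : ∀ {X t : ℝ} {k : ℕ}, 0 ≤ X → 1 < t → k ≤ E.card → (E.card : ℝ) = t * k →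
      (X ^ (1 / (t / (t - 1)))) ^ E.card = X ^ (E.card - k) := by
    intro X t k hX ht hk' hte
    rw [← Real.rpow_natCast, ← Real.rpow_mul hX, ← Real.rpow_natCast X]
    congr 1
    rw [Nat.cast_sub hk', hte]
    have h5 : t ≠ 0 := by linarith
    have h6 : t - 1 ≠ 0 := by linarith
    field_simp
  calc (∑ x, ∑ y, m false x * m true y * W2 x y * (f x * f' y)) ^ E.card
      ≤ (Φ * (S ^ (1 / (r / (r - 1))) * T ^ (1 / (s / (s - 1))))) ^ E.card :=
        pow_le_pow_left₀ hL0 h6 _
    _ = Φ ^ E.card * (S ^ (E.card - sideCard side false) * T ^ (E.card - sideCard side true)) := by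
        rw [mul_pow, mul_pow, key hS0 hr c0' hre, key hT0 hs c1' hse]
    _ ≤ _ := mul_le_mul_of_nonneg_right h5 (mul_nonneg (pow_nonneg hS0 _) (pow_nonneg hT0 _))

end Vale.Agent.P050.H177
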