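import Vale.Agent.P050.H177.Gauge16

/-!
The gauge reduction for all bipartite graphs: a weight for every vertex, final form.
-/

namespace Vale.Agent.P050.H177

open Finset Vale.Agent.P050 Vale.Agent.P050.Lev Vale.Agent.P050.Cart

/-- The product over the vertices `v` of `H` of the colour `b` of the weights `w v x`, to the power
`1 / e(H)`. -/
noncomputable def sideMean {V U : Type} [Fintype V] (H : SimpleGraph V) (side : V → Bool)
    (w : V → U → ℝ) (b : Bool) (x : U) : ℝ :=
  (∏ v ∈ univ.filter (fun v => side v = b), w v x) ^ (1 / (Nat.card H.edgeSet : ℝ))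

variable {V : Type} [Fintype V] [DecidableEq V] {H : SimpleGraph V} {side : V → Bool}

/-- the norm inequality with vertex weights for all bipartite graphs -/
theorem gsid_iff_weight (h : ∀ u v, H.Adj u v → side u ≠ side v)
    (hlt : ∀ b, Nat.card {v // side v = b} < Nat.card H.edgeSet) :
    GSid H side ↔ ∀ (U : Type) [Fintype U] (m : Bool → U → ℝ) (W : U → U → ℝ),
      (∀ b x, 0 ≤ m b x) → (∀ b, ∑ x, m b x = 1) → (∀ x y, 0 ≤ W x y) →
      ∀ (w : V → U → ℝ) (f g : U → ℝ), (∀ v x, 0 < w v x) → (∀ x, 0 ≤ f x) → (∀ y, 0 ≤ g y) →
      (∑ x, ∑ y, m false x * m true y * W x y * (sideMean H side w false x *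
          sideMean H side w true y * (f x * g y))) ^ Nat.card H.edgeSet ≤
        (∑ z : V → U, (∏ v, m (side v) (z v) * w v (z v)) *
          ∏ e ∈ sideEdges H side, W (z e.1) (z e.2)) *
          ((∑ x, m false x * f x ^ ((Nat.card H.edgeSet : ℝ) / (Nat.card H.edgeSet -
              Nat.card {v // side v = false}))) ^
            (Nat.card H.edgeSet - Nat.card {v // side v = false}) *
          (∑ y, m true y * g y ^ ((Nat.card H.edgeSet : ℝ) / (Nat.card H.edgeSet -
              Nat.card {v // side v = true}))) ^
            (Nat.card H.edgeSet - Nat.card {v // side v = true})) := by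
  have hE : 0 < (sideEdges H side).card := by
    rw [card_sideEdges H side h]
    exact lt_of_le_of_lt (Nat.zero_le _) (hlt true)
  have p0 := side_pos h false hE
  have p1 := side_pos h true hE
  have hm : ∀ (U : Type) (w : V → U → ℝ) (b : Bool) (x : U), sideMean H side w b x =
      vmean (sideEdges H side) side w b x := by
    intro U w b x
    unfold sideMean vmean
    rw [card_sideEdges H side h]
  simp_rw [hm]
  rw [← card_sideEdges H side h] at hlt ⊢
  rw [← sideCard_eq, ← sideCard_eq]
  obtain ⟨r1, r2, r3⟩ := ratio_facts p0 (by rw [sideCard_eq]; exact hlt false)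
  obtain ⟨s1, s2, s3⟩ := ratio_facts p1 (by rw [sideCard_eq]; exact hlt true)
  constructor
  · intro hG U _ m W hm hm1 hW w f g hw hf hg
    have := weighted_norm (edeg_graph h) r1 s1 r2 s2 hE hG.2 hm hm1 hW w hw f g hf hg
    rw [r3, s3] at this
    have e : ∑ x, ∑ y, m false x * m true y * W x y * (vmean (sideEdges H side) side w false x *
        vmean (sideEdges H side) side w true y * (f x * g y)) =
        ∑ x, ∑ y, m false x * m true y * (W x y * (vmean (sideEdges H side) side w false x *
          vmean (sideEdges H side) side w true y)) * (f x * g y) :=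
      Finset.sum_congr rfl fun x _ => Finset.sum_congr rfl fun y _ => by ring
    rwa [e]
  · intro hall
    refine ⟨h, (edeg_graph h).1, fun U _ m W hm hm1 hW => ?_⟩
    have h1 := hall U m W hm hm1 hW (fun _ _ => 1) (fun _ => 1) (fun _ => 1)
      (fun _ _ => one_pos) (fun _ => zero_le_one) (fun _ => zero_le_one)
    simp only [mul_one, Real.one_rpow, hm1, one_pow, vmean, Finset.prod_const_one] at h1
    exact h1

end Vale.Agent.P050.H177
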