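import Vale.Agent.P050.H177.Gauge16

/-!
The gauge reduction for all bipartite graphs: a kernel for every edge.
-/

namespace Vale.Agent.P050.H177

open Finset Vale.Agent.P050 Vale.Agent.P050.Lev Vale.Agent.P050.Cart

variable {U V : Type} [Fintype U] [Fintype V] [DecidableEq V] {E : Finset (V × V)}
  {side : V → Bool} {g : V → ℕ}

/-- the homomorphism density of a two-sided Sidorenko graph with weights of the vertices and of the
edges, in a doubly stochastic kernel -/
theorem one_le_edens (hK : KSid E side) {m : Bool → U → ℝ}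
    {W : U → U → ℝ} (hm : ∀ b x, 0 ≤ m b x) (hm1 : ∀ b, ∑ x, m b x = 1) (hW : ∀ x y, 0 ≤ W x y)
    (hrow : ∀ x, ∑ y, m true y * W x y = 1) (hcol : ∀ y, ∑ x, m false x * W x y = 1)
    {c : V → U → ℝ} (hc : ∀ v x, 0 < c v x)
    (hc1 : ∀ b x, ∑ v ∈ univ.filter (fun v => side v = b), Real.log (c v x) = 0)
    {k : V × V → U → U → ℝ} (hk : ∀ e x y, 0 < k e x y)
    (hk1 : ∀ x y, ∑ e ∈ E, Real.log (k e x y) = 0) :
    1 ≤ ∑ z : V → U, (∏ v, m (side v) (z v) * c v (z v)) *
      ∏ e ∈ E, (W (z e.1) (z e.2) * k e (z e.1) (z e.2)) := by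
  classical
  set π : U → U → ℝ := fun x y => m false x * m true y * W x y with hπdef
  have hπ : ∀ x y, 0 ≤ π x y := fun x y => mul_nonneg (mul_nonneg (hm _ _) (hm _ _)) (hW _ _)
  have h1 : ∀ x, ∑ y, π x y = m false x := by
    intro x
    calc ∑ y, m false x * m true y * W x y = m false x * ∑ y, m true y * W x y := by
          rw [Finset.mul_sum]
          exact Finset.sum_congr rfl fun y _ => by ring
      _ = m false x := by rw [hrow, mul_one]
  have h2 : ∀ y, ∑ x, π x y = m true y := by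
    intro y
    calc ∑ x, m false x * m true y * W x y = m true y * ∑ x, m false x * W x y := by
          rw [Finset.mul_sum]
          exact Finset.sum_congr rfl fun x _ => by ring
      _ = m true y := by rw [hcol, mul_one]
  obtain ⟨ν, hν⟩ := Cart.KSid.sidLaw hK hm hm1 hπ h1 h2
  have hmne : ∀ z, ν z ≠ 0 → ∀ v, m (side v) (z v) ≠ 0 := fun z hz v => hν.law_ne_zero hz v
  have hWne : ∀ z, ν z ≠ 0 → ∀ e ∈ E, W (z e.1) (z e.2) ≠ 0 := fun z hz e he h0 =>
    hν.edge_ne_zero hz he (by simp only [hπdef, h0, mul_zero])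
  obtain ⟨hgibbs, hpos⟩ := gibbs_log (p := ν) (q := fun z =>
      (∏ v, m (side v) (z v) * c v (z v)) *
        ∏ e ∈ E, (W (z e.1) (z e.2) * k e (z e.1) (z e.2))) hν.nonneg
    (fun z => mul_nonneg (Finset.prod_nonneg fun v _ => mul_nonneg (hm _ _) (hc v _).le)
      (Finset.prod_nonneg fun e _ => mul_nonneg (hW _ _) (hk _ _ _).le))
    (fun z hz => by
      by_contra hcon
      rcases mul_eq_zero.1 hz with h5 | h5
      · obtain ⟨v, -, h6⟩ := Finset.prod_eq_zero_iff.1 h5
        exact mul_ne_zero (hmne z hcon v) (hc v _).ne' h6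
      · obtain ⟨e, he, h6⟩ := Finset.prod_eq_zero_iff.1 h5
        exact mul_ne_zero (hWne z hcon e he) (hk _ _ _).ne' h6) hν.total
  have hinf : Cart.inf m π = ∑ x, ∑ y, π x y * Real.log (W x y) := by
    unfold Cart.inf
    refine Finset.sum_congr rfl fun x _ => Finset.sum_congr rfl fun y _ => ?_
    by_cases h3 : π x y = 0
    · rw [h3]; ring
    have h5 : W x y ≠ 0 := right_ne_zero_of_mul h3
    have h6 : m false x ≠ 0 := left_ne_zero_of_mul (left_ne_zero_of_mul h3)
    have h7 : m true y ≠ 0 := right_ne_zero_of_mul (left_ne_zero_of_mul h3)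
    have h8 : Real.log (π x y) = Real.log (m false x) + Real.log (m true y) +
        Real.log (W x y) := by
      simp only [hπdef]
      rw [Real.log_mul (mul_ne_zero h6 h7) h5, Real.log_mul h6 h7]
    rw [h8]
    ring
  have hmain : 0 ≤ ∑ z, ν z * (Real.log ((∏ v, m (side v) (z v) * c v (z v)) *
      ∏ e ∈ E, (W (z e.1) (z e.2) * k e (z e.1) (z e.2))) - Real.log (ν z)) := by
    have h3 : ∀ z, ν z * (Real.log ((∏ v, m (side v) (z v) * c v (z v)) *
        ∏ e ∈ E, (W (z e.1) (z e.2) * k e (z e.1) (z e.2))) - Real.log (ν z))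
        = ∑ v, ν z * Real.log (c v (z v))
          + ∑ e ∈ E, ν z * (Real.log (W (z e.1) (z e.2)) + Real.log (k e (z e.1) (z e.2)))
          - ν z * (Real.log (ν z) - ∑ v, Real.log (m (side v) (z v))) := by
      intro z
      by_cases hz : ν z = 0
      · simp [hz]
      · have h4 : (∏ v, m (side v) (z v) * c v (z v)) ≠ 0 :=
          Finset.prod_ne_zero_iff.2 fun v _ => mul_ne_zero (hmne z hz v) (hc v _).ne'
        have h5 : ∏ e ∈ E, (W (z e.1) (z e.2) * k e (z e.1) (z e.2)) ≠ 0 :=
          Finset.prod_ne_zero_iff.2 fun e he => mul_ne_zero (hWne z hz e he) (hk _ _ _).ne'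
        rw [Real.log_mul h4 h5, Real.log_prod (fun v _ => mul_ne_zero (hmne z hz v)
          (hc v _).ne'), Real.log_prod (fun e he => mul_ne_zero (hWne z hz e he) (hk _ _ _).ne'),
          Finset.sum_congr rfl fun e he => Real.log_mul (hWne z hz e he)
            (hk e (z e.1) (z e.2)).ne']
        have h6 : ∑ v, Real.log (m (side v) (z v) * c v (z v)) =
            ∑ v, Real.log (m (side v) (z v)) + ∑ v, Real.log (c v (z v)) := by
          rw [← Finset.sum_add_distrib]
          refine Finset.sum_congr rfl fun v _ => ?_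
          rw [Real.log_mul (hmne z hz v) (hc v _).ne']
        rw [h6, ← Finset.mul_sum, ← Finset.mul_sum]
        ring
    simp_rw [h3]
    rw [Finset.sum_sub_distrib, Finset.sum_add_distrib, Finset.sum_comm (s := univ) (t := univ),
      Finset.sum_comm (s := univ) (t := E)]
    have h4 : ∑ v, ∑ z, ν z * Real.log (c v (z v)) = 0 := by
      have h5 : ∀ v, ∑ z, ν z * Real.log (c v (z v)) =
          ∑ x, m (side v) x * Real.log (c v x) := fun v =>
        hν.vertex v fun x => Real.log (c v x)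
      simp_rw [h5]
      rw [sum_side side fun b v => ∑ x, m b x * Real.log (c v x)]
      rw [Finset.sum_comm, Finset.sum_comm (s := univ.filter fun v => side v = true)]
      simp_rw [← Finset.mul_sum, hc1, mul_zero, Finset.sum_const_zero, add_zero]
    have h5 : ∑ e ∈ E, ∑ z, ν z * (Real.log (W (z e.1) (z e.2)) +
        Real.log (k e (z e.1) (z e.2))) = E.card * Cart.inf m π := by
      have e1 : ∀ e ∈ E, ∑ z, ν z * (Real.log (W (z e.1) (z e.2)) +
          Real.log (k e (z e.1) (z e.2))) = ∑ x, ∑ y, π x y * Real.log (W x y) +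
            ∑ x, ∑ y, π x y * Real.log (k e x y) := by
        intro e he
        rw [← hν.edge e he fun x y => Real.log (W x y),
          ← hν.edge e he fun x y => Real.log (k e x y), ← Finset.sum_add_distrib]
        exact Finset.sum_congr rfl fun z _ => mul_add _ _ _
      have e2 : ∑ e ∈ E, ∑ x, ∑ y, π x y * Real.log (k e x y) = 0 := by
        rw [Finset.sum_comm]
        refine Finset.sum_eq_zero fun x _ => ?_
        rw [Finset.sum_comm]
        refine Finset.sum_eq_zero fun y _ => ?_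
        rw [← Finset.mul_sum, hk1, mul_zero]
      rw [Finset.sum_congr rfl e1, Finset.sum_add_distrib, e2, hinf, Finset.sum_const,
        nsmul_eq_mul, add_zero]
    have h6 : ∑ z, ν z * (Real.log (ν z) - ∑ v, Real.log (m (side v) (z v))) ≤
        E.card * Cart.inf m π := hν.bound
    rw [h4, h5]
    linarith
  have h3 := hmain.trans hgibbs
  by_contra hcon
  push Not at hcon
  exact absurd (Real.log_neg hpos hcon) (not_lt.2 h3)


/-- the geometric mean of the kernels of the edges -/
noncomputable def emean (E : Finset (V × V)) (K : V × V → U → U → ℝ) (x y : U) : ℝ :=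
  ∏ e ∈ E, K e x y ^ (1 / (E.card : ℝ))

/-- **All bipartite graphs**: a kernel for every edge, and the norm of the geometric mean. -/
theorem edge_norm (h : EDeg E side g) {r s : ℝ} (hr : 1 < r) (hs : 1 < s)
    (hre : (E.card : ℝ) = r * sideCard side false) (hse : (E.card : ℝ) = s * sideCard side true)
    (hE : 0 < E.card) (hK : KSid E side) {m : Bool → U → ℝ} {K : V × V → U → U → ℝ}
    (hm : ∀ b x, 0 ≤ m b x) (hm1 : ∀ b, ∑ x, m b x = 1) (hKn : ∀ e x y, 0 ≤ K e x y)
    (f f' : U → ℝ) (hf : ∀ x, 0 ≤ f x) (hf' : ∀ y, 0 ≤ f' y) :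
    (∑ x, ∑ y, m false x * m true y * emean E K x y * (f x * f' y)) ^ E.card ≤
      (∑ z : V → U, (∏ v, m (side v) (z v)) * ∏ e ∈ E, K e (z e.1) (z e.2)) *
        ((∑ x, m false x * f x ^ (r / (r - 1))) ^ (E.card - sideCard side false) *
        (∑ y, m true y * f' y ^ (s / (s - 1))) ^ (E.card - sideCard side true)) := by
  classical
  set W2 : U → U → ℝ := emean E K with hW2
  have hEr : (0 : ℝ) < E.card := by exact_mod_cast hE
  have hW20 : ∀ x y, 0 ≤ W2 x y := fun x y =>
    Finset.prod_nonneg fun e _ => Real.rpow_nonneg (hKn _ _ _) _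
  have hW2ne : ∀ x y, W2 x y ≠ 0 → ∀ e ∈ E, 0 < K e x y := by
    intro x y hxy e he
    refine lt_of_le_of_ne (hKn _ _ _) fun h0 => hxy ?_
    refine Finset.prod_eq_zero he ?_
    rw [← h0, Real.zero_rpow (one_div_pos.2 hEr).ne']
  have hlogW2 : ∀ x y, W2 x y ≠ 0 → E.card * Real.log (W2 x y) =
      ∑ e ∈ E, Real.log (K e x y) := by
    intro x y hxy
    have h1 := hW2ne x y hxy
    simp only [hW2, emean]
    rw [Real.log_prod fun e he => (Real.rpow_pos_of_pos (h1 e he) _).ne', Finset.mul_sum]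
    refine Finset.sum_congr rfl fun e he => ?_
    rw [Real.log_rpow (h1 e he), ← mul_assoc, mul_one_div_cancel hEr.ne', one_mul]
  have hk0 : 0 ≤ kmean m W2 := Finset.sum_nonneg fun x _ => Finset.sum_nonneg fun y _ =>
      mul_nonneg (mul_nonneg (hm _ _) (hm _ _)) (hW20 _ _)
  set S := ∑ x, m false x * f x ^ (r / (r - 1)) with hS
  set T := ∑ y, m true y * f' y ^ (s / (s - 1)) with hT
  have hS0 : 0 ≤ S := Finset.sum_nonneg fun x _ => mul_nonneg (hm _ _) (Real.rpow_nonneg (hf x) _)
  have hT0 : 0 ≤ T := Finset.sum_nonneg fun x _ => mul_nonneg (hm _ _) (Real.rpow_nonneg (hf' x) _)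
  set D := ∑ z : V → U, (∏ v, m (side v) (z v)) * ∏ e ∈ E, K e (z e.1) (z e.2) with hD
  have hD0 : 0 ≤ D := Finset.sum_nonneg fun z _ => mul_nonneg
    (Finset.prod_nonneg fun v _ => hm _ _) (Finset.prod_nonneg fun e _ => hKn _ _ _)
  rcases hk0.eq_or_lt with h0 | hkpos
  · have h1 : ∀ x y, m false x * m true y * W2 x y = 0 := by
      intro x y
      have h2 := (Finset.sum_eq_zero_iff_of_nonneg fun x _ => Finset.sum_nonneg fun y _ =>
        mul_nonneg (mul_nonneg (hm _ _) (hm _ _)) (hW20 _ _)).1 h0.symm x (mem_univ x)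
      exact (Finset.sum_eq_zero_iff_of_nonneg fun y _ =>
        mul_nonneg (mul_nonneg (hm _ _) (hm _ _)) (hW20 _ _)).1 h2 y (mem_univ y)
    simp_rw [h1, zero_mul, Finset.sum_const_zero]
    rw [zero_pow hE.ne']
    exact mul_nonneg hD0 (mul_nonneg (pow_nonneg hS0 _) (pow_nonneg hT0 _))
  obtain ⟨m', W', u, Φ, hn, hu, -, hle, hnorm, hdens⟩ := gaugeRK hr hs hm hm1 hW20 hkpos
  obtain ⟨hm', hm1', hW', hrow', hcol', -⟩ := hn
  set k : V × V → U → U → ℝ := fun e x y =>
    if W2 x y = 0 ∨ e ∉ E then 1 else K e x y / W2 x y with hkdef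
  have hkpos' : ∀ e x y, 0 < k e x y := by
    intro e x y
    simp only [hkdef]
    split_ifs with h1
    · exact one_pos
    · push Not at h1
      exact div_pos (hW2ne x y h1.1 e h1.2) (lt_of_le_of_ne (hW20 _ _) (Ne.symm h1.1))
  have hk1 : ∀ x y, ∑ e ∈ E, Real.log (k e x y) = 0 := by
    intro x y
    by_cases hxy : W2 x y = 0
    · refine Finset.sum_eq_zero fun e _ => ?_
      simp only [hkdef, hxy, true_or, if_true, Real.log_one]
    · have e1 : ∀ e ∈ E, Real.log (k e x y) = Real.log (K e x y) - Real.log (W2 x y) := by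
        intro e he
        simp only [hkdef]
        rw [if_neg (by simp [hxy, he]), Real.log_div (hW2ne x y hxy e he).ne' hxy]
      rw [Finset.sum_congr rfl e1, Finset.sum_sub_distrib, ← hlogW2 x y hxy, Finset.sum_const,
        nsmul_eq_mul, sub_self]
  set c : V → U → ℝ := fun v x => u (side v) x ^ ((if side v then s else r) - g v) with hc
  have hcpos : ∀ v x, 0 < c v x := fun v x => Real.rpow_pos_of_pos (hu _ _) _
  have hc1 : ∀ b x, ∑ v ∈ univ.filter (fun v => side v = b), Real.log (c v x) = 0 := by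
    intro b x
    have e1 : ∀ v ∈ univ.filter (fun v => side v = b), Real.log (c v x) =
        ((if b then s else r) - g v) * Real.log (u b x) := by
      intro v hv
      have hv' := (Finset.mem_filter.1 hv).2
      simp only [hc]
      rw [Real.log_rpow (hu _ _), hv']
    rw [Finset.sum_congr rfl e1, ← Finset.sum_mul, h.balance hre hse b, zero_mul]
  have h1 := one_le_edens hK hm' hm1' hW' hrow' hcol' hcpos hc1 hkpos' hk1
  have h2 := hdens V E side g (fun z => ∏ e ∈ E, k e (z e.1) (z e.2)) h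
    fun z => Finset.prod_nonneg fun e _ => (hkpos' _ _ _).le
  have h3 : ∑ z : V → U, (∏ e ∈ E, k e (z e.1) (z e.2)) * ((∏ v, m' (side v) (z v) *
      u (side v) (z v) ^ ((if side v then s else r) - g v)) * ∏ e ∈ E, W' (z e.1) (z e.2)) =
      ∑ z : V → U, (∏ v, m' (side v) (z v) * c v (z v)) *
        ∏ e ∈ E, (W' (z e.1) (z e.2) * k e (z e.1) (z e.2)) := by
    refine Finset.sum_congr rfl fun z _ => ?_
    rw [Finset.prod_mul_distrib (s := E)]
    simp only [hc]
    ring
  have h4 : ∑ z : V → U, (∏ e ∈ E, k e (z e.1) (z e.2)) * ((∏ v, m (side v) (z v)) *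
      ∏ e ∈ E, W2 (z e.1) (z e.2)) ≤ D := by
    rw [hD]
    refine Finset.sum_le_sum fun z _ => ?_
    have e1 : (∏ e ∈ E, k e (z e.1) (z e.2)) * ∏ e ∈ E, W2 (z e.1) (z e.2) ≤
        ∏ e ∈ E, K e (z e.1) (z e.2) := by
      rw [← Finset.prod_mul_distrib]
      refine Finset.prod_le_prod (fun e _ => mul_nonneg (hkpos' _ _ _).le (hW20 _ _))
        fun e he => ?_
      by_cases h0 : W2 (z e.1) (z e.2) = 0
      · rw [h0, mul_zero]
        exact hKn _ _ _
      · simp only [hkdef]
        rw [if_neg (by simp [h0, he]), div_mul_cancel₀ _ h0]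
    calc (∏ e ∈ E, k e (z e.1) (z e.2)) * ((∏ v, m (side v) (z v)) *
          ∏ e ∈ E, W2 (z e.1) (z e.2)) = (∏ v, m (side v) (z v)) *
          ((∏ e ∈ E, k e (z e.1) (z e.2)) * ∏ e ∈ E, W2 (z e.1) (z e.2)) := by ring
      _ ≤ _ := mul_le_mul_of_nonneg_left e1 (Finset.prod_nonneg fun v _ => hm _ _)
  rw [h3] at h2
  have hΦ : 0 ≤ Φ := hk0.trans hle
  have h5 : Φ ^ E.card ≤ D :=
    ((le_mul_of_one_le_right (pow_nonneg hΦ _) h1).trans h2).trans h4
  have h6 := hnorm f f' hf hf'
  have hL0 : 0 ≤ ∑ x, ∑ y, m false x * m true y * W2 x y * (f x * f' y) :=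
    Finset.sum_nonneg fun x _ => Finset.sum_nonneg fun y _ =>
      mul_nonneg (mul_nonneg (mul_nonneg (hm _ _) (hm _ _)) (hW20 _ _))
        (mul_nonneg (hf x) (hf' y))
  have c0 : (sideCard side false : ℝ) ≤ E.card := by
    have : (0 : ℝ) ≤ sideCard side false := Nat.cast_nonneg _
    nlinarith
  have c1 : (sideCard side true : ℝ) ≤ E.card := by
    have : (0 : ℝ) ≤ sideCard side true := Nat.cast_nonneg _
    nlinarith
  have c0' : sideCard side false ≤ E.card := by exact_mod_cast c0
  have c1' : sideCard side true ≤ E.card := by exact_mod_cast c1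
  have key : ∀ {X t : ℝ} {k : ℕ}, 0 ≤ X → 1 < t → k ≤ E.card → (E.card : ℝ) = t * k →
      (X ^ (1 / (t / (t - 1)))) ^ E.card = X ^ (E.card - k) := by
    intro X t k hX ht hk' hte
    rw [← Real.rpow_natCast, ← Real.rpow_mul hX, ← Real.rpow_natCast X]
    congr 1
    rw [Nat.cast_sub hk', hte]
    have h5 : t ≠ 0 := by linarith
    have h6 : t - 1 ≠ 0 := by linarith
    field_simp
  calc (∑ x, ∑ y, m false x * m true y * W2 x y * (f x * f' y)) ^ E.card
      ≤ (Φ * (S ^ (1 / (r / (r - 1))) * T ^ (1 / (s / (s - 1))))) ^ E.card :=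
        pow_le_pow_left₀ hL0 h6 _
    _ = Φ ^ E.card * (S ^ (E.card - sideCard side false) * T ^ (E.card - sideCard side true)) := by
        rw [mul_pow, mul_pow, key hS0 hr c0' hre, key hT0 hs c1' hse]
    _ ≤ _ := mul_le_mul_of_nonneg_right h5 (mul_nonneg (pow_nonneg hS0 _) (pow_nonneg hT0 _))

end Vale.Agent.P050.H177
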