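import Vale.Agent.P050.H177.Gauge14
import Vale.Agent.P050.H177.Gauge18

/-!
The gauge reduction for all bipartite graphs: a kernel for every edge, final form.
-/

namespace Vale.Agent.P050.H177

open Finset Vale.Agent.P050 Vale.Agent.P050.Lev Vale.Agent.P050.Cart

/-- The geometric mean of the kernels `K e` over the edges `e` of `H`. -/
noncomputable def edgeMean {V U : Type} [Fintype V] (H : SimpleGraph V) (side : V → Bool)
    (K : V × V → U → U → ℝ) (x y : U) : ℝ :=
  ∏ e ∈ sideEdges H side, K e x y ^ (1 / (Nat.card H.edgeSet : ℝ))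

variable {V : Type} [Fintype V] [DecidableEq V] {H : SimpleGraph V} {side : V → Bool}

/-- the norm inequality with a kernel for every edge, for all bipartite graphs -/
theorem gsid_iff_edges (h : ∀ u v, H.Adj u v → side u ≠ side v)
    (hlt : ∀ b, Nat.card {v // side v = b} < Nat.card H.edgeSet) :
    GSid H side ↔ ∀ (U : Type) [Fintype U] (m : Bool → U → ℝ) (K : V × V → U → U → ℝ),
      (∀ b x, 0 ≤ m b x) → (∀ b, ∑ x, m b x = 1) → (∀ e x y, 0 ≤ K e x y) →
      ∀ f g : U → ℝ, (∀ x, 0 ≤ f x) → (∀ y, 0 ≤ g y) →
      (∑ x, ∑ y, m false x * m true y * edgeMean H side K x y * (f x * g y)) ^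
          Nat.card H.edgeSet ≤
        (∑ z : V → U, (∏ v, m (side v) (z v)) *
          ∏ e ∈ sideEdges H side, K e (z e.1) (z e.2)) *
          ((∑ x, m false x * f x ^ ((Nat.card H.edgeSet : ℝ) / (Nat.card H.edgeSet -
              Nat.card {v // side v = false}))) ^
            (Nat.card H.edgeSet - Nat.card {v // side v = false}) *
          (∑ y, m true y * g y ^ ((Nat.card H.edgeSet : ℝ) / (Nat.card H.edgeSet -
              Nat.card {v // side v = true}))) ^
            (Nat.card H.edgeSet - Nat.card {v // side v = true})) := by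
  have hE : 0 < (sideEdges H side).card := by
    rw [card_sideEdges H side h]
    exact lt_of_le_of_lt (Nat.zero_le _) (hlt true)
  have p0 := side_pos h false hE
  have p1 := side_pos h true hE
  have hm : ∀ (U : Type) (K : V × V → U → U → ℝ) (x y : U), edgeMean H side K x y =
      emean (sideEdges H side) K x y := by
    intro U K x y
    unfold edgeMean emean
    rw [card_sideEdges H side h]
  simp_rw [hm]
  rw [← card_sideEdges H side h] at hlt ⊢
  rw [← sideCard_eq, ← sideCard_eq]
  obtain ⟨r1, r2, r3⟩ := ratio_facts p0 (by rw [sideCard_eq]; exact hlt false)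
  obtain ⟨s1, s2, s3⟩ := ratio_facts p1 (by rw [sideCard_eq]; exact hlt true)
  constructor
  · intro hG U _ m K hm hm1 hK f g hf hg
    have := edge_norm (edeg_graph h) r1 s1 r2 s2 hE hG.2 hm hm1 hK f g hf hg
    rwa [r3, s3] at this
  · intro hall
    refine ⟨h, (edeg_graph h).1, fun U _ m W hm hm1 hW => ?_⟩
    have h1 := hall U m (fun _ => W) hm hm1 (fun _ => hW) (fun _ => 1) (fun _ => 1)
      (fun _ => zero_le_one) (fun _ => zero_le_one)
    have h2 : ∀ x y, emean (sideEdges H side) (fun _ : V × V => W) x y = W x y := by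
      intro x y
      unfold emean
      rw [Finset.prod_const, ← Real.rpow_natCast, ← Real.rpow_mul (hW x y),
        one_div_mul_cancel (by exact_mod_cast hE.ne'), Real.rpow_one]
    simp only [mul_one, Real.one_rpow, hm1, one_pow, h2] at h1
    exact h1

end Vale.Agent.P050.H177
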