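import Vale.Agent.P050.H177.Gauge

/-!
The gauge reduction: existence of the new kernel.
-/

namespace Vale.Agent.P050.H177

open Finset Vale.Agent.P050.Lev

variable {U : Type} [Fintype U]

/-- The mean of the kernel `W` for the weights `m false`, `m true`. -/
def kmean (m : Bool → U → ℝ) (W : U → U → ℝ) : ℝ := ∑ x, ∑ y, m false x * m true y * W x y

/-- `W` is a contraction from `L ^ p` to the dual of `L ^ q`, tested on nonnegative functions. -/
def HyperContr (p q : ℝ) (m : Bool → U → ℝ) (W : U → U → ℝ) : Prop :=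
  ∀ f g : U → ℝ, (∀ x, 0 ≤ f x) → (∀ y, 0 ≤ g y) →
    ∑ x, ∑ y, m false x * m true y * W x y * (f x * g y) ≤
      (∑ x, m false x * f x ^ p) ^ (1 / p) * (∑ y, m true y * g y ^ q) ^ (1 / q)

/-- the objective function of the gauge -/
noncomputable def gobj (p q : ℝ) (c : U → U → ℝ) (a b : U → ℝ) : ℝ :=
  ∑ x, ∑ y, c x y * (a x ^ (1 / p) * b y ^ (1 / q))

/-- the matrix of the gauge -/
noncomputable def gmat (p q : ℝ) (m : Bool → U → ℝ) (W : U → U → ℝ) (x y : U) : ℝ :=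
  W x y * (m false x ^ (1 - 1 / p) * m true y ^ (1 - 1 / q))

theorem rpow_split {p a : ℝ} (hp : 1 < p) (ha : 0 ≤ a) : a ^ (1 - 1 / p) * a ^ (1 / p) = a := by
  rcases ha.eq_or_lt with rfl | ha
  · rw [Real.zero_rpow (one_div_pos.2 (by linarith)).ne', mul_zero]
  · rw [← Real.rpow_add ha]
    norm_num

theorem gobj_self {p q : ℝ} (hp : 1 < p) (hq : 1 < q) {m : Bool → U → ℝ} (W : U → U → ℝ)
    (hm : ∀ b x, 0 ≤ m b x) : gobj p q (gmat p q m W) (m false) (m true) = kmean m W := by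
  unfold gobj gmat kmean
  refine Finset.sum_congr rfl fun x _ => Finset.sum_congr rfl fun y _ => ?_
  have h1 := rpow_split hp (hm false x)
  have h2 := rpow_split hq (hm true y)
  calc W x y * (m false x ^ (1 - 1 / p) * m true y ^ (1 - 1 / q)) *
        (m false x ^ (1 / p) * m true y ^ (1 / q))
      = W x y * ((m false x ^ (1 - 1 / p) * m false x ^ (1 / p)) *
        (m true y ^ (1 - 1 / q) * m true y ^ (1 / q))) := by ring
    _ = m false x * m true y * W x y := by rw [h1, h2]; ring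

theorem cont_gobj {p q : ℝ} (hp : 1 < p) (hq : 1 < q) (c : U → U → ℝ) :
    Continuous fun z : (U → ℝ) × (U → ℝ) => gobj p q c z.1 z.2 := by
  unfold gobj
  have h1 : 0 ≤ 1 / p := (one_div_pos.2 (by linarith)).le
  have h2 : 0 ≤ 1 / q := (one_div_pos.2 (by linarith)).le
  refine continuous_finsetSum _ fun x _ => continuous_finsetSum _ fun y _ => ?_
  have h3 : Continuous fun z : (U → ℝ) × (U → ℝ) => z.1 x :=
    (continuous_apply x).comp continuous_fst
  have h4 : Continuous fun z : (U → ℝ) × (U → ℝ) => z.2 y :=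
    (continuous_apply y).comp continuous_snd
  exact continuous_const.mul ((h3.rpow_const fun _ => Or.inr h1).mul
    (h4.rpow_const fun _ => Or.inr h2))

theorem exists_max {p q : ℝ} (hp : 1 < p) (hq : 1 < q) [Nonempty U] (c : U → U → ℝ) :
    ∃ a ∈ stdSimplex ℝ U, ∃ b ∈ stdSimplex ℝ U, ∀ a' ∈ stdSimplex ℝ U, ∀ b' ∈ stdSimplex ℝ U,
      gobj p q c a' b' ≤ gobj p q c a b := by
  classical
  have hK : IsCompact (stdSimplex ℝ U ×ˢ stdSimplex ℝ U) :=
    (isCompact_stdSimplex ℝ U).prod (isCompact_stdSimplex ℝ U)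
  obtain ⟨x⟩ := ‹Nonempty U›
  have hs : (Pi.single x 1 : U → ℝ) ∈ stdSimplex ℝ U := single_mem_stdSimplex ℝ x
  have hne : (stdSimplex ℝ U ×ˢ stdSimplex ℝ U).Nonempty :=
    ⟨(Pi.single x 1, Pi.single x 1), Set.mk_mem_prod hs hs⟩
  obtain ⟨z, hz, hmax⟩ := hK.exists_isMaxOn hne (cont_gobj hp hq c).continuousOn
  refine ⟨z.1, hz.1, z.2, hz.2, fun a' ha' b' hb' => ?_⟩
  have h := isMaxOn_iff.1 hmax (a', b') (Set.mk_mem_prod ha' hb')
  exact h

/-- the new weights -/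
def gM (a b : U → ℝ) : Bool → U → ℝ
  | false => a
  | true => b

open Classical in
/-- the new kernel -/
noncomputable def gW (p q : ℝ) (c : U → U → ℝ) (a b : U → ℝ) (Φ : ℝ) (x y : U) : ℝ :=
  if a x = 0 ∨ b y = 0 then 1 else c x y / (a x ^ (1 - 1 / p) * b y ^ (1 - 1 / q) * Φ)

section new

variable {p q Φ : ℝ} {c : U → U → ℝ} {a b : U → ℝ}

theorem gW_mul (hp : 1 < p) (hq : 1 < q) (ha : ∀ x, 0 ≤ a x) (hb : ∀ y, 0 ≤ b y) (x y : U) :
    a x * b y * gW p q c a b Φ x y = c x y * (a x ^ (1 / p) * b y ^ (1 / q)) / Φ := by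
  have hp' : 1 / p ≠ 0 := (one_div_pos.2 (by linarith)).ne'
  have hq' : 1 / q ≠ 0 := (one_div_pos.2 (by linarith)).ne'
  unfold gW
  split_ifs with h
  · rcases h with h | h
    · rw [h, Real.zero_rpow hp']
      ring
    · rw [h, Real.zero_rpow hq']
      ring
  · push Not at h
    have h1 : 0 < a x := lt_of_le_of_ne (ha x) (Ne.symm h.1)
    have h2 : 0 < b y := lt_of_le_of_ne (hb y) (Ne.symm h.2)
    have h3 := rpow_split hp (ha x)
    have h4 := rpow_split hq (hb y)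
    have h5 : a x ^ (1 - 1 / p) ≠ 0 := (Real.rpow_pos_of_pos h1 _).ne'
    have h6 : b y ^ (1 - 1 / q) ≠ 0 := (Real.rpow_pos_of_pos h2 _).ne'
    by_cases hΦ : Φ = 0
    · simp [hΦ]
    · rw [mul_div_assoc', div_eq_div_iff (mul_ne_zero (mul_ne_zero h5 h6) hΦ) hΦ]
      conv_lhs => rw [← h3, ← h4]
      ring

theorem gW_nonneg (ha : ∀ x, 0 ≤ a x) (hb : ∀ y, 0 ≤ b y) (hc : ∀ x y, 0 ≤ c x y) (hΦ : 0 ≤ Φ)
    (x y : U) : 0 ≤ gW p q c a b Φ x y := by
  unfold gW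
  split_ifs
  · exact zero_le_one
  · exact div_nonneg (hc x y) (mul_nonneg (mul_nonneg (Real.rpow_nonneg (ha x) _)
      (Real.rpow_nonneg (hb y) _)) hΦ)

theorem gW_mean (hp : 1 < p) (hq : 1 < q) (ha : ∀ x, 0 ≤ a x) (hb : ∀ y, 0 ≤ b y)
    (hΦ : gobj p q c a b = Φ) (hΦ0 : 0 < Φ) : kmean (gM a b) (gW p q c a b Φ) = 1 := by
  unfold kmean
  simp only [gM]
  simp_rw [gW_mul hp hq ha hb, ← Finset.sum_div]
  change gobj p q c a b / Φ = 1
  rw [hΦ, div_self hΦ0.ne']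

theorem rpow_pull {p a f : ℝ} (hp : 1 < p) (ha : 0 ≤ a) (hf : 0 ≤ f) :
    a ^ (1 / p) * f = (a * f ^ p) ^ (1 / p) := by
  rw [Real.mul_rpow ha (Real.rpow_nonneg hf _), ← Real.rpow_mul hf,
    mul_one_div_cancel (by linarith : p ≠ 0), Real.rpow_one]

theorem gW_hyper (hp : 1 < p) (hq : 1 < q) (ha : a ∈ stdSimplex ℝ U) (hb : b ∈ stdSimplex ℝ U)
    (hΦ : gobj p q c a b = Φ) (hΦ0 : 0 < Φ)
    (hmax : ∀ a' ∈ stdSimplex ℝ U, ∀ b' ∈ stdSimplex ℝ U, gobj p q c a' b' ≤ Φ) :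
    HyperContr p q (gM a b) (gW p q c a b Φ) := by
  intro f g hf hg
  simp only [gM]
  have hp' : 1 / p ≠ 0 := (one_div_pos.2 (by linarith)).ne'
  have hq' : 1 / q ≠ 0 := (one_div_pos.2 (by linarith)).ne'
  set S := ∑ x, a x * f x ^ p with hS
  set T := ∑ y, b y * g y ^ q with hT
  have hS0 : ∀ x, 0 ≤ a x * f x ^ p := fun x => mul_nonneg (ha.1 x) (Real.rpow_nonneg (hf x) _)
  have hT0 : ∀ y, 0 ≤ b y * g y ^ q := fun y => mul_nonneg (hb.1 y) (Real.rpow_nonneg (hg y) _)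
  have hS1 : 0 ≤ S := Finset.sum_nonneg fun x _ => hS0 x
  have hT1 : 0 ≤ T := Finset.sum_nonneg fun y _ => hT0 y
  have e1 : ∀ x y, a x * b y * gW p q c a b Φ x y * (f x * g y) =
      c x y * ((a x * f x ^ p) ^ (1 / p) * (b y * g y ^ q) ^ (1 / q)) / Φ := by
    intro x y
    rw [gW_mul hp hq ha.1 hb.1, ← rpow_pull hp (ha.1 x) (hf x), ← rpow_pull hq (hb.1 y) (hg y)]
    ring
  simp_rw [e1, ← Finset.sum_div]
  rw [div_le_iff₀ hΦ0]
  rcases hS1.eq_or_lt with h | hSp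
  · have h1 : ∀ x, a x * f x ^ p = 0 := fun x =>
      (Finset.sum_eq_zero_iff_of_nonneg fun x _ => hS0 x).1 h.symm x (Finset.mem_univ x)
    simp_rw [h1]
    rw [Real.zero_rpow hp', ← h, Real.zero_rpow hp']
    simp
  rcases hT1.eq_or_lt with h | hTp
  · have h1 : ∀ y, b y * g y ^ q = 0 := fun y =>
      (Finset.sum_eq_zero_iff_of_nonneg fun y _ => hT0 y).1 h.symm y (Finset.mem_univ y)
    simp_rw [h1]
    rw [Real.zero_rpow hq', ← h, Real.zero_rpow hq']
    simp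
  have ha' : (fun x => a x * f x ^ p / S) ∈ stdSimplex ℝ U :=
    ⟨fun x => div_nonneg (hS0 x) hS1, by rw [← Finset.sum_div, ← hS, div_self hSp.ne']⟩
  have hb' : (fun y => b y * g y ^ q / T) ∈ stdSimplex ℝ U :=
    ⟨fun y => div_nonneg (hT0 y) hT1, by rw [← Finset.sum_div, ← hT, div_self hTp.ne']⟩
  have h1 := hmax _ ha' _ hb'
  have e2 : gobj p q c (fun x => a x * f x ^ p / S) (fun y => b y * g y ^ q / T) =
      (∑ x, ∑ y, c x y * ((a x * f x ^ p) ^ (1 / p) * (b y * g y ^ q) ^ (1 / q))) /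
        (S ^ (1 / p) * T ^ (1 / q)) := by
    unfold gobj
    simp_rw [Finset.sum_div]
    refine Finset.sum_congr rfl fun x _ => Finset.sum_congr rfl fun y _ => ?_
    rw [Real.div_rpow (hS0 x) hS1, Real.div_rpow (hT0 y) hT1]
    ring
  rw [e2, div_le_iff₀ (mul_pos (Real.rpow_pos_of_pos hSp _) (Real.rpow_pos_of_pos hTp _))] at h1
  linarith

end new

end Vale.Agent.P050.H177
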