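import Vale.Agent.P050.H177.Gauge2

/-!
Hypercontractive kernels: marginals and correlations.
-/

namespace Vale.Agent.P050.H177

open Finset Vale.Agent.P050.Lev

variable {U : Type} [Fintype U] {p q : ℝ} {m : Bool → U → ℝ} {W : U → U → ℝ}

/-- necessary conditions of first and second order -/
theorem HyperContr.conditions (h : HyperContr p q m W) (hp : 1 < p) (hq : 1 < q)
    (hm : ∀ b x, 0 ≤ m b x) (hm1 : ∀ b, ∑ x, m b x = 1) (hW : ∀ x y, 0 ≤ W x y)
    (hk : kmean m W = 1) (u v : U → ℝ) :
    ∑ x, m false x * u x + ∑ y, m true y * v y -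
        ∑ x, ∑ y, m false x * m true y * W x y * (u x + v y) = 0 ∧
      0 ≤ p * (∑ x, m false x * u x ^ 2 - (∑ x, m false x * u x) ^ 2) +
        q * (∑ y, m true y * v y ^ 2 - (∑ y, m true y * v y) ^ 2) -
        (∑ x, ∑ y, m false x * m true y * W x y * (u x + v y) ^ 2 -
          (∑ x, ∑ y, m false x * m true y * W x y * (u x + v y)) ^ 2) := by
  have hp0 : p ≠ 0 := by linarith
  have hq0 : q ≠ 0 := by linarith
  set cc : U × U → ℝ := fun z => m false z.1 * m true z.2 * W z.1 z.2 with hcc
  set kk : U × U → ℝ := fun z => u z.1 + v z.2 with hkk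
  have hcc0 : ∀ z, 0 ≤ cc z := fun z => mul_nonneg (mul_nonneg (hm _ _) (hm _ _)) (hW _ _)
  have hcc1 : ∑ z, cc z = 1 := by
    rw [Fintype.sum_prod_type]
    exact hk
  have e1 : ∀ t, ∑ z, cc z * Real.exp (t * kk z) = ∑ x, ∑ y, m false x * m true y * W x y *
      (Real.exp (t * u x) * Real.exp (t * v y)) := by
    intro t
    rw [Fintype.sum_prod_type]
    refine Finset.sum_congr rfl fun x _ => Finset.sum_congr rfl fun y _ => ?_
    simp only [hcc, hkk]
    rw [mul_add, Real.exp_add]
  have pos : ∀ {ι : Type} [Fintype ι] (c k : ι → ℝ), (∀ i, 0 ≤ c i) → ∑ i, c i = 1 → ∀ t : ℝ,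
      0 < ∑ i, c i * Real.exp (t * k i) := by
    intro ι _ c k hc hc1 t
    have h1 : ∃ i, 0 < c i := by
      by_contra h
      push Not at h
      have h2 : ∑ i, c i ≤ 0 := Finset.sum_nonpos fun i _ => h i
      linarith
    obtain ⟨i, hi⟩ := h1
    exact Finset.sum_pos' (fun j _ => mul_nonneg (hc j) (Real.exp_pos _).le)
      ⟨i, Finset.mem_univ _, mul_pos hi (Real.exp_pos _)⟩
  set H : ℝ → ℝ := fun t => (1 / p) * Real.log (∑ x, m false x * Real.exp (t * (p * u x))) +
    (1 / q) * Real.log (∑ y, m true y * Real.exp (t * (q * v y))) -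
    Real.log (∑ z, cc z * Real.exp (t * kk z)) with hH
  set H1 : ℝ → ℝ := fun t => (1 / p) * ((∑ x, m false x * (p * u x) * Real.exp (t * (p * u x))) /
      ∑ x, m false x * Real.exp (t * (p * u x))) +
    (1 / q) * ((∑ y, m true y * (q * v y) * Real.exp (t * (q * v y))) /
      ∑ y, m true y * Real.exp (t * (q * v y))) -
    (∑ z, cc z * kk z * Real.exp (t * kk z)) / ∑ z, cc z * Real.exp (t * kk z) with hH1
  have hd : ∀ t, HasDerivAt H (H1 t) t := fun t =>
    (((hasDerivAt_logSum (m false) (fun x => p * u x) (hm false) (hm1 false) t).const_mul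
      (1 / p)).add ((hasDerivAt_logSum (m true) (fun y => q * v y) (hm true) (hm1 true) t).const_mul
      (1 / q))).sub (hasDerivAt_logSum cc kk hcc0 hcc1 t)
  have hd1 : HasDerivAt H1 ((1 / p) * (∑ x, m false x * (p * u x) ^ 2 -
      (∑ x, m false x * (p * u x)) ^ 2) + (1 / q) * (∑ y, m true y * (q * v y) ^ 2 -
      (∑ y, m true y * (q * v y)) ^ 2) - (∑ z, cc z * kk z ^ 2 - (∑ z, cc z * kk z) ^ 2)) 0 :=
    (((hasDerivAt_logSum' (m false) (fun x => p * u x) (hm1 false)).const_mul
      (1 / p)).add ((hasDerivAt_logSum' (m true) (fun y => q * v y) (hm1 true)).const_mul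
      (1 / q))).sub (hasDerivAt_logSum' cc kk hcc1)
  have h0 : H 0 = 0 := by
    simp [hH, hm1, hcc1]
  have hmin : ∀ t, H 0 ≤ H t := by
    intro t
    rw [h0]
    have h1 := h (fun x => Real.exp (t * u x)) (fun y => Real.exp (t * v y))
      (fun _ => (Real.exp_pos _).le) (fun _ => (Real.exp_pos _).le)
    rw [← e1] at h1
    have e2 : ∀ x, Real.exp (t * u x) ^ p = Real.exp (t * (p * u x)) := by
      intro x
      rw [← Real.exp_mul]
      congr 1
      ring
    have e3 : ∀ y, Real.exp (t * v y) ^ q = Real.exp (t * (q * v y)) := by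
      intro y
      rw [← Real.exp_mul]
      congr 1
      ring
    simp_rw [e2, e3] at h1
    have p1 := pos (m false) (fun x => p * u x) (hm false) (hm1 false) t
    have p2 := pos (m true) (fun y => q * v y) (hm true) (hm1 true) t
    have p3 := pos cc kk hcc0 hcc1 t
    have h2 := Real.log_le_log p3 h1
    rw [Real.log_mul (Real.rpow_pos_of_pos p1 _).ne' (Real.rpow_pos_of_pos p2 _).ne',
      Real.log_rpow p1, Real.log_rpow p2] at h2
    simp only [hH]
    linarith
  obtain ⟨c1, c2⟩ := min_conditions hd hd1 hmin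
  have s1 : ∑ x, m false x * (p * u x) = p * ∑ x, m false x * u x := by
    rw [Finset.mul_sum]
    exact Finset.sum_congr rfl fun x _ => by ring
  have s2 : ∑ y, m true y * (q * v y) = q * ∑ y, m true y * v y := by
    rw [Finset.mul_sum]
    exact Finset.sum_congr rfl fun x _ => by ring
  have s3 : ∑ x, m false x * (p * u x) ^ 2 = p ^ 2 * ∑ x, m false x * u x ^ 2 := by
    rw [Finset.mul_sum]
    exact Finset.sum_congr rfl fun x _ => by ring
  have s4 : ∑ y, m true y * (q * v y) ^ 2 = q ^ 2 * ∑ y, m true y * v y ^ 2 := by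
    rw [Finset.mul_sum]
    exact Finset.sum_congr rfl fun x _ => by ring
  have s5 : ∑ z, cc z * kk z = ∑ x, ∑ y, m false x * m true y * W x y * (u x + v y) := by
    rw [Fintype.sum_prod_type]
  have s6 : ∑ z, cc z * kk z ^ 2 = ∑ x, ∑ y, m false x * m true y * W x y * (u x + v y) ^ 2 := by
    rw [Fintype.sum_prod_type]
  constructor
  · simp only [hH1, zero_mul, Real.exp_zero, mul_one, hm1, hcc1, div_one, s1, s2, s5] at c1
    rw [← mul_assoc, ← mul_assoc, one_div_mul_cancel hp0, one_div_mul_cancel hq0] at c1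
    linarith
  · rw [s1, s2, s3, s4, s5, s6] at c2
    have f1 : 1 / p * (p ^ 2 * ∑ x, m false x * u x ^ 2 - (p * ∑ x, m false x * u x) ^ 2) =
        p * (∑ x, m false x * u x ^ 2 - (∑ x, m false x * u x) ^ 2) := by
      field_simp
    have f2 : 1 / q * (q ^ 2 * ∑ y, m true y * v y ^ 2 - (q * ∑ y, m true y * v y) ^ 2) =
        q * (∑ y, m true y * v y ^ 2 - (∑ y, m true y * v y) ^ 2) := by
      field_simp
    rw [f1, f2] at c2
    exact c2

/-- the marginals of a hypercontractive kernel of mean `1` -/
theorem HyperContr.row (h : HyperContr p q m W) (hp : 1 < p) (hq : 1 < q)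
    (hm : ∀ b x, 0 ≤ m b x) (hm1 : ∀ b, ∑ x, m b x = 1) (hW : ∀ x y, 0 ≤ W x y)
    (hk : kmean m W = 1) (x : U) (hx : m false x ≠ 0) : ∑ y, m true y * W x y = 1 := by
  classical
  have h1 := (h.conditions hp hq hm hm1 hW hk (fun z => if z = x then 1 else 0) fun _ => 0).1
  simp only [mul_ite, mul_one, mul_zero, Finset.sum_ite_eq', Finset.mem_univ, if_true,
    Finset.sum_const_zero, add_zero] at h1
  have h2 : ∑ z, ∑ y, (if z = x then m false z * m true y * W z y else 0) =
      m false x * ∑ y, m true y * W x y := by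
    rw [Finset.sum_eq_single x (fun z _ hz => by simp [hz]) (by simp)]
    simp only [if_true, Finset.mul_sum]
    exact Finset.sum_congr rfl fun y _ => by ring
  rw [h2] at h1
  have h3 : m false x * (1 - ∑ y, m true y * W x y) = 0 := by linarith
  rcases mul_eq_zero.1 h3 with h4 | h4
  · exact absurd h4 hx
  · linarith

/-- the marginals of a hypercontractive kernel of mean `1` -/
theorem HyperContr.col (h : HyperContr p q m W) (hp : 1 < p) (hq : 1 < q)
    (hm : ∀ b x, 0 ≤ m b x) (hm1 : ∀ b, ∑ x, m b x = 1) (hW : ∀ x y, 0 ≤ W x y)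
    (hk : kmean m W = 1) (y : U) (hy : m true y ≠ 0) : ∑ x, m false x * W x y = 1 := by
  classical
  have h1 := (h.conditions hp hq hm hm1 hW hk (fun _ => 0) fun z => if z = y then 1 else 0).1
  simp only [mul_ite, mul_one, mul_zero, Finset.sum_ite_eq', Finset.mem_univ, if_true,
    Finset.sum_const_zero, zero_add] at h1
  have h2 : ∑ x, m false x * m true y * W x y = m true y * ∑ x, m false x * W x y := by
    rw [Finset.mul_sum]
    exact Finset.sum_congr rfl fun x _ => by ring
  rw [h2] at h1
  have h3 : m true y * (1 - ∑ x, m false x * W x y) = 0 := by linarith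
  rcases mul_eq_zero.1 h3 with h4 | h4
  · exact absurd h4 hy
  · linarith

/-- the correlation bound -/
theorem HyperContr.corr (h : HyperContr p q m W) (hp : 1 < p) (hq : 1 < q)
    (hm : ∀ b x, 0 ≤ m b x) (hm1 : ∀ b, ∑ x, m b x = 1) (hW : ∀ x y, 0 ≤ W x y)
    (hrow : ∀ x, ∑ y, m true y * W x y = 1) (hcol : ∀ y, ∑ x, m false x * W x y = 1)
    (u v : U → ℝ) (hu : ∑ x, m false x * u x = 0) (hv : ∑ y, m true y * v y = 0) :
    (∑ x, ∑ y, m false x * m true y * W x y * (u x * v y)) ^ 2 ≤
      (p - 1) * (q - 1) * ((∑ x, m false x * u x ^ 2) * ∑ y, m true y * v y ^ 2) := by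
  have hk : kmean m W = 1 := by
    unfold kmean
    rw [← hm1 false]
    refine Finset.sum_congr rfl fun x _ => ?_
    calc ∑ y, m false x * m true y * W x y = m false x * ∑ y, m true y * W x y := by
          rw [Finset.mul_sum]
          exact Finset.sum_congr rfl fun y _ => by ring
      _ = m false x := by rw [hrow, mul_one]
  set C := ∑ x, ∑ y, m false x * m true y * W x y * (u x * v y) with hC
  set A := ∑ x, m false x * u x ^ 2 with hA
  set B := ∑ y, m true y * v y ^ 2 with hB
  have e1 : ∀ f : U → ℝ, ∑ x, ∑ y, m false x * m true y * W x y * f x = ∑ x, m false x * f x := by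
    intro f
    refine Finset.sum_congr rfl fun x _ => ?_
    calc ∑ y, m false x * m true y * W x y * f x = m false x * f x * ∑ y, m true y * W x y := by
          rw [Finset.mul_sum]
          exact Finset.sum_congr rfl fun y _ => by ring
      _ = m false x * f x := by rw [hrow, mul_one]
  have e2 : ∀ g : U → ℝ, ∑ x, ∑ y, m false x * m true y * W x y * g y = ∑ y, m true y * g y := by
    intro g
    rw [Finset.sum_comm]
    refine Finset.sum_congr rfl fun y _ => ?_
    calc ∑ x, m false x * m true y * W x y * g y = m true y * g y * ∑ x, m false x * W x y := by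
          rw [Finset.mul_sum]
          exact Finset.sum_congr rfl fun x _ => by ring
      _ = m true y * g y := by rw [hcol, mul_one]
  have key : ∀ s : ℝ, 0 ≤ (p - 1) * A * (s * s) + (-2 * C) * s + (q - 1) * B := by
    intro s
    have h1 := (h.conditions hp hq hm hm1 hW hk (fun x => s * u x) v).2
    have s1 : ∑ x, m false x * (s * u x) = 0 := by
      have : ∑ x, m false x * (s * u x) = s * ∑ x, m false x * u x := by
        rw [Finset.mul_sum]
        exact Finset.sum_congr rfl fun x _ => by ring
      rw [this, hu, mul_zero]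
    have s2 : ∑ x, m false x * (s * u x) ^ 2 = s ^ 2 * A := by
      rw [hA, Finset.mul_sum]
      exact Finset.sum_congr rfl fun x _ => by ring
    have s3 : ∑ x, ∑ y, m false x * m true y * W x y * (s * u x + v y) = 0 := by
      have : ∑ x, ∑ y, m false x * m true y * W x y * (s * u x + v y) =
          (∑ x, ∑ y, m false x * m true y * W x y * (s * u x)) +
          ∑ x, ∑ y, m false x * m true y * W x y * v y := by
        rw [← Finset.sum_add_distrib]
        refine Finset.sum_congr rfl fun x _ => ?_
        rw [← Finset.sum_add_distrib]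
        exact Finset.sum_congr rfl fun y _ => by ring
      rw [this, e1 (fun x => s * u x), e2 v, s1, hv, add_zero]
    have s4 : ∑ x, ∑ y, m false x * m true y * W x y * (s * u x + v y) ^ 2 =
        s ^ 2 * A + 2 * s * C + B := by
      have : ∑ x, ∑ y, m false x * m true y * W x y * (s * u x + v y) ^ 2 =
          (∑ x, ∑ y, m false x * m true y * W x y * (s * u x) ^ 2) +
          2 * s * (∑ x, ∑ y, m false x * m true y * W x y * (u x * v y)) +
          ∑ x, ∑ y, m false x * m true y * W x y * v y ^ 2 := by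
        rw [Finset.mul_sum, ← Finset.sum_add_distrib, ← Finset.sum_add_distrib]
        refine Finset.sum_congr rfl fun x _ => ?_
        rw [Finset.mul_sum, ← Finset.sum_add_distrib, ← Finset.sum_add_distrib]
        exact Finset.sum_congr rfl fun y _ => by ring
      rw [this, e1 (fun x => (s * u x) ^ 2), e2 (fun y => v y ^ 2), s2]
    rw [s1, s2, s3, s4, hv] at h1
    nlinarith [h1]
  have hdisc := discrim_le_zero key
  unfold discrim at hdisc
  nlinarith [hdisc]

end Vale.Agent.P050.H177
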