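import Vale.Agent.P050.H177.Gauge3

/-!
The gauge reduction: homomorphism densities of biregular graphs.
-/

namespace Vale.Agent.P050.H177

open Finset Vale.Agent.P050.Lev

variable {U : Type} [Fintype U]

/-- The homomorphism density, in the kernel `W` with weights `m false`, `m true`, of the bipartite
graph with the edges `E`, directed from the side `false` to the side `true`. -/
def kdens {V : Type} [Fintype V] [DecidableEq V] (E : Finset (V × V)) (side : V → Bool)
    (m : Bool → U → ℝ) (W : U → U → ℝ) : ℝ :=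
  ∑ z : V → U, (∏ v, m (side v) (z v)) * ∏ e ∈ E, W (z e.1) (z e.2)

/-- every vertex of the side `false` is in `r` edges, every vertex of the side `true` in `s` -/
def EBireg {V : Type} [DecidableEq V] (E : Finset (V × V)) (side : V → Bool) (r s : ℕ) :
    Prop :=
  (∀ e ∈ E, side e.1 = false ∧ side e.2 = true) ∧
    (∀ v, side v = false → (E.filter fun e => e.1 = v).card = r) ∧
    ∀ v, side v = true → (E.filter fun e => e.2 = v).card = s

section count

variable {V : Type} [Fintype V] [DecidableEq V] {E : Finset (V × V)} {side : V → Bool} {r s : ℕ}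

theorem prod_fst (h : EBireg E side r s) (f : V → ℝ) :
    ∏ e ∈ E, f e.1 = ∏ v ∈ univ.filter (fun v => side v = false), f v ^ r := by
  rw [← Finset.prod_fiberwise_of_maps_to (t := univ.filter fun v => side v = false)
    (g := fun e : V × V => e.1) (fun e he => by simp [(h.1 e he).1])]
  refine Finset.prod_congr rfl fun v hv => ?_
  rw [Finset.prod_congr rfl (g := fun _ => f v) fun e he => by rw [(Finset.mem_filter.1 he).2],
    Finset.prod_const, h.2.1 v (Finset.mem_filter.1 hv).2]

theorem prod_snd (h : EBireg E side r s) (f : V → ℝ) :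
    ∏ e ∈ E, f e.2 = ∏ v ∈ univ.filter (fun v => side v = true), f v ^ s := by
  rw [← Finset.prod_fiberwise_of_maps_to (t := univ.filter fun v => side v = true)
    (g := fun e : V × V => e.2) (fun e he => by simp [(h.1 e he).2])]
  refine Finset.prod_congr rfl fun v hv => ?_
  rw [Finset.prod_congr rfl (g := fun _ => f v) fun e he => by rw [(Finset.mem_filter.1 he).2],
    Finset.prod_const, h.2.2 v (Finset.mem_filter.1 hv).2]

theorem prod_side (side : V → Bool) (f : Bool → V → ℝ) :
    ∏ v, f (side v) v = (∏ v ∈ univ.filter (fun v => side v = false), f false v) *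
      ∏ v ∈ univ.filter (fun v => side v = true), f true v := by
  rw [← Finset.prod_filter_mul_prod_filter_not univ (fun v => side v = false)]
  congr 1
  · exact Finset.prod_congr rfl fun v hv => by rw [(Finset.mem_filter.1 hv).2]
  · have : (univ.filter fun v => ¬ side v = false) = univ.filter fun v => side v = true := by
      ext v
      simp
    rw [this]
    exact Finset.prod_congr rfl fun v hv => by rw [(Finset.mem_filter.1 hv).2]

/-- the gauge identity -/
theorem prod_gauge (h : EBireg E side r s) (hr : r ≠ 0) (hs : s ≠ 0) {M : Bool → U → ℝ}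
    (hM : ∀ b x, 0 ≤ M b x) (z : V → U) :
    ∏ e ∈ E, (M false (z e.1) ^ (1 / (r : ℝ)) * M true (z e.2) ^ (1 / (s : ℝ))) =
      ∏ v, M (side v) (z v) := by
  rw [Finset.prod_mul_distrib, prod_fst h fun v => M false (z v) ^ (1 / (r : ℝ)),
    prod_snd h fun v => M true (z v) ^ (1 / (s : ℝ)), prod_side side fun b v => M b (z v)]
  congr 1
  · refine Finset.prod_congr rfl fun v _ => ?_
    rw [← Real.rpow_natCast, ← Real.rpow_mul (hM _ _), one_div_mul_cancel (by exact_mod_cast hr),
      Real.rpow_one]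
  · refine Finset.prod_congr rfl fun v _ => ?_
    rw [← Real.rpow_natCast, ← Real.rpow_mul (hM _ _), one_div_mul_cancel (by exact_mod_cast hs),
      Real.rpow_one]

/-- the new kernel has a smaller homomorphism density -/
theorem gauge_dens (h : EBireg E side r s) (hr : r ≠ 0) (hs : s ≠ 0) {p q Φ : ℝ}
    (hpr : 1 - 1 / p = 1 / (r : ℝ)) (hqs : 1 - 1 / q = 1 / (s : ℝ)) {m : Bool → U → ℝ}
    {W : U → U → ℝ} (hm : ∀ b x, 0 ≤ m b x) (hW : ∀ x y, 0 ≤ W x y) {a b : U → ℝ}
    (ha : ∀ x, 0 ≤ a x) (hb : ∀ y, 0 ≤ b y) (hΦ : 0 < Φ) :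
    Φ ^ E.card * kdens E side (gM a b) (gW p q (gmat p q m W) a b Φ) ≤ kdens E side m W := by
  classical
  unfold kdens
  rw [Finset.mul_sum]
  refine Finset.sum_le_sum fun z _ => ?_
  have hr0 : 0 ≤ (∏ v, m (side v) (z v)) * ∏ e ∈ E, W (z e.1) (z e.2) :=
    mul_nonneg (Finset.prod_nonneg fun v _ => hm _ _) (Finset.prod_nonneg fun e _ => hW _ _)
  by_cases h0 : ∃ v, gM a b (side v) (z v) = 0
  · obtain ⟨v, hv⟩ := h0
    rw [Finset.prod_eq_zero (Finset.mem_univ v) hv, zero_mul, mul_zero]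
    exact hr0
  push Not at h0
  have hA : ∀ e ∈ E, a (z e.1) ≠ 0 := fun e he => by
    have := h0 e.1
    rwa [(h.1 e he).1] at this
  have hB : ∀ e ∈ E, b (z e.2) ≠ 0 := fun e he => by
    have := h0 e.2
    rwa [(h.1 e he).2] at this
  have hgM : ∀ i x, 0 ≤ gM a b i x := by
    rintro (_ | _) x
    · exact ha x
    · exact hb x
  have e1 : ∏ e ∈ E, gW p q (gmat p q m W) a b Φ (z e.1) (z e.2) =
      ∏ e ∈ E, gmat p q m W (z e.1) (z e.2) /
        ((gM a b false (z e.1) ^ (1 / (r : ℝ)) * gM a b true (z e.2) ^ (1 / (s : ℝ))) * Φ) := by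
    refine Finset.prod_congr rfl fun e he => ?_
    unfold gW
    rw [if_neg (by simp [hA e he, hB e he]), hpr, hqs]
    rfl
  have e2 : ∏ e ∈ E, gmat p q m W (z e.1) (z e.2) =
      (∏ e ∈ E, W (z e.1) (z e.2)) * ∏ v, m (side v) (z v) := by
    unfold gmat
    rw [Finset.prod_mul_distrib, hpr, hqs, prod_gauge h hr hs hm]
  rw [e1, Finset.prod_div_distrib, Finset.prod_mul_distrib, prod_gauge h hr hs hgM, e2,
    Finset.prod_const]
  have hP : ∏ v, gM a b (side v) (z v) ≠ 0 := Finset.prod_ne_zero_iff.2 fun v _ => h0 v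
  have hΦ' : Φ ^ E.card ≠ 0 := (pow_pos hΦ _).ne'
  apply le_of_eq
  field_simp

end count

/-- **The gauge reduction.** -/
theorem gauge {r s : ℕ} (hr : 2 ≤ r) (hs : 2 ≤ s) {m : Bool → U → ℝ} {W : U → U → ℝ}
    (hm : ∀ b x, 0 ≤ m b x) (hm1 : ∀ b, ∑ x, m b x = 1) (hW : ∀ x y, 0 ≤ W x y)
    (hk : 0 < kmean m W) :
    ∃ (m' : Bool → U → ℝ) (W' : U → U → ℝ), (∀ b x, 0 ≤ m' b x) ∧ (∀ b, ∑ x, m' b x = 1) ∧
      (∀ x y, 0 ≤ W' x y) ∧ (∀ x, ∑ y, m' true y * W' x y = 1) ∧
      (∀ y, ∑ x, m' false x * W' x y = 1) ∧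
      HyperContr (r / (r - 1)) (s / (s - 1)) m' W' ∧
      (∀ x y, m' false x * m' true y * W' x y ≠ 0 → m false x * m true y * W x y ≠ 0) ∧
      ∀ (V : Type) [Fintype V] [DecidableEq V] (E : Finset (V × V)) (side : V → Bool),
        EBireg E side r s → kmean m W ^ E.card * kdens E side m' W' ≤ kdens E side m W := by
  classical
  have hr' : (2 : ℝ) ≤ r := by exact_mod_cast hr
  have hs' : (2 : ℝ) ≤ s := by exact_mod_cast hs
  set p : ℝ := r / (r - 1) with hp
  set q : ℝ := s / (s - 1) with hq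
  have hp1 : 1 < p := by
    rw [hp, lt_div_iff₀ (by linarith)]
    linarith
  have hq1 : 1 < q := by
    rw [hq, lt_div_iff₀ (by linarith)]
    linarith
  have hpr : 1 - 1 / p = 1 / (r : ℝ) := by
    rw [hp]
    field_simp
    ring
  have hqs : 1 - 1 / q = 1 / (s : ℝ) := by
    rw [hq]
    field_simp
    ring
  have hne : Nonempty U := by
    by_contra h
    rw [not_nonempty_iff] at h
    have := hm1 false
    rw [Finset.univ_eq_empty, Finset.sum_empty] at this
    exact zero_ne_one this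
  obtain ⟨a, ha, b, hb, hmax⟩ := exists_max hp1 hq1 (gmat p q m W)
  set Φ := gobj p q (gmat p q m W) a b with hΦ
  have hle : kmean m W ≤ Φ := by
    rw [← gobj_self hp1 hq1 W hm]
    exact hmax _ ⟨hm false, hm1 false⟩ _ ⟨hm true, hm1 true⟩
  have hΦ0 : 0 < Φ := hk.trans_le hle
  have hc : ∀ x y, 0 ≤ gmat p q m W x y := fun x y => mul_nonneg (hW x y)
    (mul_nonneg (Real.rpow_nonneg (hm _ _) _) (Real.rpow_nonneg (hm _ _) _))
  have hgM : ∀ i x, 0 ≤ gM a b i x := by
    rintro (_ | _) x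
    · exact ha.1 x
    · exact hb.1 x
  have hgM1 : ∀ i, ∑ x, gM a b i x = 1 := by
    rintro (_ | _)
    · exact ha.2
    · exact hb.2
  have hgW : ∀ x y, 0 ≤ gW p q (gmat p q m W) a b Φ x y := gW_nonneg ha.1 hb.1 hc hΦ0.le
  have hmean := gW_mean (Φ := Φ) hp1 hq1 ha.1 hb.1 hΦ.symm hΦ0
  have hyp := gW_hyper hp1 hq1 ha hb hΦ.symm hΦ0 hmax
  have hrow : ∀ x, ∑ y, gM a b true y * gW p q (gmat p q m W) a b Φ x y = 1 := by
    intro x
    by_cases hx : a x = 0
    · have : ∀ y, gW p q (gmat p q m W) a b Φ x y = 1 := fun y => if_pos (Or.inl hx)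
      simp_rw [this, mul_one]
      exact hgM1 true
    · exact hyp.row hp1 hq1 hgM hgM1 hgW hmean x hx
  have hcol : ∀ y, ∑ x, gM a b false x * gW p q (gmat p q m W) a b Φ x y = 1 := by
    intro y
    by_cases hy : b y = 0
    · have : ∀ x, gW p q (gmat p q m W) a b Φ x y = 1 := fun x => if_pos (Or.inr hy)
      simp_rw [this, mul_one]
      exact hgM1 false
    · exact hyp.col hp1 hq1 hgM hgM1 hgW hmean y hy
  refine ⟨gM a b, gW p q (gmat p q m W) a b Φ, hgM, hgM1, hgW, hrow, hcol, hyp, ?_, ?_⟩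
  · intro x y hxy h0
    apply hxy
    change a x * b y * gW p q (gmat p q m W) a b Φ x y = 0
    rw [gW_mul hp1 hq1 ha.1 hb.1]
    have hg : gmat p q m W x y = 0 := by
      unfold gmat
      rcases mul_eq_zero.1 h0 with h1 | h1
      · rcases mul_eq_zero.1 h1 with h2 | h2
        · rw [h2, hpr, Real.zero_rpow (by positivity)]
          ring
        · rw [h2, hqs, Real.zero_rpow (by positivity)]
          ring
      · rw [h1, zero_mul]
    rw [hg, zero_mul, zero_div]
  · intro V _ _ E side hE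
    have h1 := gauge_dens hE (by omega) (by omega) hpr hqs hm hW ha.1 hb.1 hΦ0
    refine le_trans (mul_le_mul_of_nonneg_right (pow_le_pow_left₀ hk.le hle _) ?_) h1
    exact Finset.sum_nonneg fun z _ => mul_nonneg (Finset.prod_nonneg fun v _ => hgM _ _)
      (Finset.prod_nonneg fun e _ => hgW _ _)

end Vale.Agent.P050.H177
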