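import Vale.Agent.P050.H177.Gauge4

/-!
Existence of a minimising kernel.
-/

namespace Vale.Agent.P050.H177

open Finset Vale.Agent.P050.Lev

variable {U : Type} [Fintype U]

/-- the two marginals -/
def mg (μ : U × U → ℝ) : Bool → U → ℝ
  | false => fun x => ∑ y, μ (x, y)
  | true => fun y => ∑ x, μ (x, y)

/-- the density of a joint law with respect to the product of its marginals -/
noncomputable def wg (μ : U × U → ℝ) (x y : U) : ℝ := μ (x, y) / (mg μ false x * mg μ true y)

theorem mg_nonneg {μ : U × U → ℝ} (hμ : ∀ z, 0 ≤ μ z) : ∀ b x, 0 ≤ mg μ b x := by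
  rintro (_ | _) x
  · exact Finset.sum_nonneg fun y _ => hμ _
  · exact Finset.sum_nonneg fun y _ => hμ _

theorem mg_sum {μ : U × U → ℝ} (hμ : ∑ z, μ z = 1) : ∀ b, ∑ x, mg μ b x = 1 := by
  rintro (_ | _)
  · rw [← hμ, Fintype.sum_prod_type]
    rfl
  · rw [← hμ, Fintype.sum_prod_type_right]
    rfl

theorem wg_nonneg {μ : U × U → ℝ} (hμ : ∀ z, 0 ≤ μ z) (x y : U) : 0 ≤ wg μ x y :=
  div_nonneg (hμ _) (mul_nonneg (mg_nonneg hμ _ _) (mg_nonneg hμ _ _))

theorem mg_wg {μ : U × U → ℝ} (hμ : ∀ z, 0 ≤ μ z) (x y : U) :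
    mg μ false x * mg μ true y * wg μ x y = μ (x, y) := by
  unfold wg
  by_cases h : mg μ false x * mg μ true y = 0
  · have h0 : μ (x, y) = 0 := by
      rcases mul_eq_zero.1 h with h1 | h1
      · exact (Finset.sum_eq_zero_iff_of_nonneg fun y _ => hμ (x, y)).1 h1 y (Finset.mem_univ y)
      · exact (Finset.sum_eq_zero_iff_of_nonneg fun x _ => hμ (x, y)).1 h1 x (Finset.mem_univ x)
    rw [h, h0, zero_mul]
  · rw [← mul_div_assoc, mul_div_cancel_left₀ _ h]

theorem continuous_mg (b : Bool) (x : U) : Continuous fun μ : U × U → ℝ => mg μ b x := by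
  cases b
  · exact continuous_finsetSum _ fun y _ => continuous_apply _
  · exact continuous_finsetSum _ fun y _ => continuous_apply _

section lsc

variable {V : Type} [Fintype V] [DecidableEq V] (E : Finset (V × V)) (side : V → Bool)

theorem lsc_dens (hE : ∀ e ∈ E, side e.1 = false ∧ side e.2 = true) :
    LowerSemicontinuousOn (fun μ : U × U → ℝ => kdens E side (mg μ) (wg μ))
    (stdSimplex ℝ (U × U)) := by
  unfold kdens
  refine lowerSemicontinuousOn_sum fun z _ => ?_
  intro μ hμ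
  by_cases h : ∃ v, mg μ (side v) (z v) = 0
  · obtain ⟨v, hv⟩ := h
    intro y hy
    change y < (∏ v, mg μ (side v) (z v)) * ∏ e ∈ E, wg μ (z e.1) (z e.2) at hy
    have hv' : ∏ v, mg μ (side v) (z v) = 0 := Finset.prod_eq_zero (Finset.mem_univ v) hv
    rw [hv', zero_mul] at hy
    filter_upwards [self_mem_nhdsWithin] with μ' hμ'
    change y < (∏ v, mg μ' (side v) (z v)) * ∏ e ∈ E, wg μ' (z e.1) (z e.2)
    refine hy.trans_le (mul_nonneg (Finset.prod_nonneg fun v _ => mg_nonneg hμ'.1 _ _)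
      (Finset.prod_nonneg fun e _ => wg_nonneg hμ'.1 _ _))
  · push Not at h
    refine ContinuousWithinAt.lowerSemicontinuousWithinAt ?_
    refine ContinuousAt.continuousWithinAt ?_
    refine ContinuousAt.mul ?_ ?_
    · exact tendsto_finsetProd _ fun v _ => (continuous_mg (side v) (z v)).continuousAt
    · refine tendsto_finsetProd _ fun e he => ?_
      have h1 := h e.1
      have h2 := h e.2
      rw [(hE e he).1] at h1
      rw [(hE e he).2] at h2
      exact ContinuousAt.div (continuous_apply _).continuousAt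
        ((continuous_mg false (z e.1)).mul (continuous_mg true (z e.2))).continuousAt
        (mul_ne_zero h1 h2)

theorem exists_min_law [Nonempty U] (hE : ∀ e ∈ E, side e.1 = false ∧ side e.2 = true) :
    ∃ μ ∈ stdSimplex ℝ (U × U), ∀ μ' ∈ stdSimplex ℝ (U × U),
      kdens E side (mg μ) (wg μ) ≤ kdens E side (mg μ') (wg μ') := by
  classical
  obtain ⟨x⟩ := ‹Nonempty U›
  have hne : (stdSimplex ℝ (U × U)).Nonempty := ⟨Pi.single (x, x) 1, single_mem_stdSimplex ℝ _⟩
  obtain ⟨μ, hμ, hmin⟩ := LowerSemicontinuousOn.exists_isMinOn hne (isCompact_stdSimplex ℝ _)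
    (lsc_dens (U := U) E side hE)
  exact ⟨μ, hμ, fun μ' hμ' => isMinOn_iff.1 hmin μ' hμ'⟩

end lsc

variable {V : Type} [Fintype V] [DecidableEq V] {E : Finset (V × V)} {side : V → Bool} {r s : ℕ}

/-- a doubly stochastic kernel is given by its joint law -/
theorem dens_of_law (hE : ∀ e ∈ E, side e.1 = false ∧ side e.2 = true) {m : Bool → U → ℝ}
    {W : U → U → ℝ} (hrow : ∀ x, ∑ y, m true y * W x y = 1)
    (hcol : ∀ y, ∑ x, m false x * W x y = 1) :
    kdens E side (mg fun z => m false z.1 * m true z.2 * W z.1 z.2)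
      (wg fun z => m false z.1 * m true z.2 * W z.1 z.2) = kdens E side m W := by
  have e1 : mg (fun z : U × U => m false z.1 * m true z.2 * W z.1 z.2) = m := by
    funext b x
    cases b
    · change ∑ y, m false x * m true y * W x y = m false x
      calc ∑ y, m false x * m true y * W x y = m false x * ∑ y, m true y * W x y := by
            rw [Finset.mul_sum]
            exact Finset.sum_congr rfl fun y _ => by ring
        _ = m false x := by rw [hrow, mul_one]
    · change ∑ z, m false z * m true x * W z x = m true x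
      calc ∑ z, m false z * m true x * W z x = m true x * ∑ z, m false z * W z x := by
            rw [Finset.mul_sum]
            exact Finset.sum_congr rfl fun y _ => by ring
        _ = m true x := by rw [hcol, mul_one]
  rw [e1]
  unfold kdens
  refine Finset.sum_congr rfl fun z _ => ?_
  by_cases h : ∃ v, m (side v) (z v) = 0
  · obtain ⟨v, hv⟩ := h
    rw [Finset.prod_eq_zero (Finset.mem_univ v) hv, zero_mul, zero_mul]
  · push Not at h
    congr 1
    refine Finset.prod_congr rfl fun e he => ?_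
    have h1 := h e.1
    have h2 := h e.2
    rw [(hE e he).1] at h1
    rw [(hE e he).2] at h2
    unfold wg
    rw [e1]
    change m false (z e.1) * m true (z e.2) * W (z e.1) (z e.2) /
      (m false (z e.1) * m true (z e.2)) = W (z e.1) (z e.2)
    field_simp

theorem kdens_nonneg {m : Bool → U → ℝ} {W : U → U → ℝ} (hm : ∀ b x, 0 ≤ m b x)
    (hW : ∀ x y, 0 ≤ W x y) : 0 ≤ kdens E side m W :=
  Finset.sum_nonneg fun _ _ => mul_nonneg (Finset.prod_nonneg fun _ _ => hm _ _)
    (Finset.prod_nonneg fun _ _ => hW _ _)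

/-- a doubly stochastic hypercontractive kernel which is a global minimiser -/
theorem exists_min_host [Nonempty U] (hE : EBireg E side r s) (hr : 2 ≤ r) (hs : 2 ≤ s)
    (hE0 : 0 < E.card) :
    ∃ (m : Bool → U → ℝ) (W : U → U → ℝ), (∀ b x, 0 ≤ m b x) ∧ (∀ b, ∑ x, m b x = 1) ∧
      (∀ x y, 0 ≤ W x y) ∧ (∀ x, ∑ y, m true y * W x y = 1) ∧
      (∀ y, ∑ x, m false x * W x y = 1) ∧ HyperContr (r / (r - 1)) (s / (s - 1)) m W ∧
      ∀ (m₁ : Bool → U → ℝ) (W₁ : U → U → ℝ), (∀ b x, 0 ≤ m₁ b x) → (∀ b, ∑ x, m₁ b x = 1) →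
        (∀ x y, 0 ≤ W₁ x y) → kmean m₁ W₁ ^ E.card * kdens E side m W ≤ kdens E side m₁ W₁ := by
  obtain ⟨μ, hμ, hmin⟩ := exists_min_law (U := U) E side hE.1
  have hk : kmean (mg μ) (wg μ) = 1 := by
    unfold kmean
    simp_rw [mg_wg hμ.1]
    rw [← hμ.2, Fintype.sum_prod_type]
  obtain ⟨m, W, hm, hm1, hW, hrow, hcol, hyp, _, hle⟩ := gauge hr hs (mg_nonneg hμ.1)
    (mg_sum hμ.2) (wg_nonneg hμ.1) (by rw [hk]; exact one_pos)
  have hle' := hle V E side hE
  rw [hk, one_pow, one_mul] at hle'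
  refine ⟨m, W, hm, hm1, hW, hrow, hcol, hyp, fun m₁ W₁ h1 h2 h3 => ?_⟩
  have hk0 : 0 ≤ kmean m₁ W₁ := Finset.sum_nonneg fun x _ => Finset.sum_nonneg fun y _ =>
    mul_nonneg (mul_nonneg (h1 _ _) (h1 _ _)) (h3 _ _)
  rcases hk0.eq_or_lt with h0 | h0
  · rw [← h0, zero_pow hE0.ne', zero_mul]
    exact kdens_nonneg h1 h3
  obtain ⟨m', W', hm', hm1', hW', hrow', hcol', _, _, hle2⟩ := gauge hr hs h1 h2 h3 h0
  have h4 := hle2 V E side hE
  refine le_trans (mul_le_mul_of_nonneg_left ?_ (pow_nonneg hk0 _)) h4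
  refine hle'.trans ?_
  rw [← dens_of_law hE.1 hrow' hcol']
  refine hmin _ ⟨fun z => mul_nonneg (mul_nonneg (hm' _ _) (hm' _ _)) (hW' _ _), ?_⟩
  rw [Fintype.sum_prod_type, ← hm1' false]
  refine Finset.sum_congr rfl fun x _ => ?_
  calc ∑ y, m' false x * m' true y * W' x y = m' false x * ∑ y, m' true y * W' x y := by
        rw [Finset.mul_sum]
        exact Finset.sum_congr rfl fun y _ => by ring
    _ = m' false x := by rw [hrow', mul_one]

end Vale.Agent.P050.H177
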