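import Vale.Agent.P050.H177.Gauge5

/-!
First and second order conditions at a minimising kernel.
-/

namespace Vale.Agent.P050.H177

open Finset Vale.Agent.P050.Lev

variable {U : Type} [Fintype U] {V : Type} [Fintype V] [DecidableEq V] {E : Finset (V × V)}
  {side : V → Bool}

theorem expSum_pos {ι : Type} [Fintype ι] {c : ι → ℝ} (hc : ∀ i, 0 ≤ c i)
    (hc1 : ∑ i, c i = 1) (k : ι → ℝ) (t : ℝ) : 0 < ∑ i, c i * Real.exp (t * k i) := by
  have h1 : ∃ i, 0 < c i := by
    by_contra h
    push Not at h
    have h2 : ∑ i, c i ≤ 0 := Finset.sum_nonpos fun i _ => h i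
    linarith
  obtain ⟨i, hi⟩ := h1
  exact Finset.sum_pos' (fun j _ => mul_nonneg (hc j) (Real.exp_pos _).le)
    ⟨i, Finset.mem_univ _, mul_pos hi (Real.exp_pos _)⟩

theorem kdens_pos (hE : ∀ e ∈ E, side e.1 = false ∧ side e.2 = true) {m : Bool → U → ℝ}
    {W : U → U → ℝ} (hm : ∀ b x, 0 ≤ m b x) (hW : ∀ x y, 0 ≤ W x y) (hk : 0 < kmean m W) :
    0 < kdens E side m W := by
  have h1 : ∃ x y, 0 < m false x * m true y * W x y := by
    by_contra h
    push Not at h
    have h2 : kmean m W ≤ 0 := Finset.sum_nonpos fun x _ => Finset.sum_nonpos fun y _ => h x y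
    linarith
  obtain ⟨x, y, hxy⟩ := h1
  have hx : 0 < m false x := lt_of_le_of_ne (hm _ _) fun h => by
    rw [← h, zero_mul, zero_mul] at hxy
    exact lt_irrefl _ hxy
  have hy : 0 < m true y := lt_of_le_of_ne (hm _ _) fun h => by
    rw [← h, mul_zero, zero_mul] at hxy
    exact lt_irrefl _ hxy
  have hw : 0 < W x y := lt_of_le_of_ne (hW _ _) fun h => by
    rw [← h, mul_zero] at hxy
    exact lt_irrefl _ hxy
  refine Finset.sum_pos' (fun z _ => mul_nonneg (Finset.prod_nonneg fun v _ => hm _ _)
    (Finset.prod_nonneg fun e _ => hW _ _))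
    ⟨fun v => if side v = false then x else y, Finset.mem_univ _, mul_pos ?_ ?_⟩
  · refine Finset.prod_pos fun v _ => ?_
    cases hv : side v
    · simpa [hv] using hx
    · simpa [hv] using hy
  · refine Finset.prod_pos fun e he => ?_
    simpa [(hE e he).1, (hE e he).2] using hw

/-- the Gibbs weight of a map -/
noncomputable def gibbs (E : Finset (V × V)) (side : V → Bool) (m : Bool → U → ℝ)
    (W : U → U → ℝ) (z : V → U) : ℝ :=
  (∏ v, m (side v) (z v)) * (∏ e ∈ E, W (z e.1) (z e.2)) / kdens E side m W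

/-- number of vertices of a side -/
def sideCard (side : V → Bool) (b : Bool) : ℕ := (univ.filter fun v => side v = b).card

theorem prod_sideCard (side : V → Bool) (Z : Bool → ℝ) :
    ∏ v, Z (side v) = Z false ^ sideCard side false * Z true ^ sideCard side true := by
  rw [prod_side side fun b _ => Z b, Finset.prod_const, Finset.prod_const]
  rfl

/-- conditions at a minimiser -/
theorem min_cond (hE : ∀ e ∈ E, side e.1 = false ∧ side e.2 = true) {m : Bool → U → ℝ}
    {W : U → U → ℝ} (hm : ∀ b x, 0 ≤ m b x) (hm1 : ∀ b, ∑ x, m b x = 1)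
    (hW : ∀ x y, 0 ≤ W x y) (hk : kmean m W = 1)
    (hmin : ∀ (m₁ : Bool → U → ℝ) (W₁ : U → U → ℝ), (∀ b x, 0 ≤ m₁ b x) →
      (∀ b, ∑ x, m₁ b x = 1) → (∀ x y, 0 ≤ W₁ x y) →
      kmean m₁ W₁ ^ E.card * kdens E side m W ≤ kdens E side m₁ W₁)
    (α : U → U → ℝ) (δ : Bool → U → ℝ) :
    (∑ z, gibbs E side m W z * (∑ v, δ (side v) (z v) + ∑ e ∈ E, α (z e.1) (z e.2)) +
        (E.card - sideCard side false) * ∑ x, m false x * δ false x +
        (E.card - sideCard side true) * ∑ x, m true x * δ true x -
        E.card * ∑ x, ∑ y, m false x * m true y * W x y * (δ false x + δ true y + α x y) = 0) ∧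
    0 ≤ (∑ z, gibbs E side m W z * (∑ v, δ (side v) (z v) + ∑ e ∈ E, α (z e.1) (z e.2)) ^ 2 -
          (∑ z, gibbs E side m W z *
            (∑ v, δ (side v) (z v) + ∑ e ∈ E, α (z e.1) (z e.2))) ^ 2) +
        (E.card - sideCard side false) *
          (∑ x, m false x * δ false x ^ 2 - (∑ x, m false x * δ false x) ^ 2) +
        (E.card - sideCard side true) *
          (∑ x, m true x * δ true x ^ 2 - (∑ x, m true x * δ true x) ^ 2) -
        E.card * (∑ x, ∑ y, m false x * m true y * W x y * (δ false x + δ true y + α x y) ^ 2 -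
          (∑ x, ∑ y, m false x * m true y * W x y * (δ false x + δ true y + α x y)) ^ 2) := by
  classical
  set F := kdens E side m W with hF
  have hF0 : 0 < F := kdens_pos hE hm hW (by rw [hk]; exact one_pos)
  set c1 : (V → U) → ℝ := gibbs E side m W with hc1
  set g : (V → U) → ℝ := fun z => ∑ v, δ (side v) (z v) + ∑ e ∈ E, α (z e.1) (z e.2) with hg
  set cc : U × U → ℝ := fun z => m false z.1 * m true z.2 * W z.1 z.2 with hcc
  set kk : U × U → ℝ := fun z => δ false z.1 + δ true z.2 + α z.1 z.2 with hkk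
  have a1 : ∀ z, 0 ≤ c1 z := fun z => div_nonneg (mul_nonneg (Finset.prod_nonneg fun v _ =>
    hm _ _) (Finset.prod_nonneg fun e _ => hW _ _)) hF0.le
  have b1 : ∑ z, c1 z = 1 := by
    simp only [hc1, gibbs]
    rw [← Finset.sum_div, ← hF]
    change F / F = 1
    exact div_self hF0.ne'
  have a2 : ∀ z, 0 ≤ cc z := fun z => mul_nonneg (mul_nonneg (hm _ _) (hm _ _)) (hW _ _)
  have b2 : ∑ z, cc z = 1 := by
    rw [Fintype.sum_prod_type]
    exact hk
  set H : ℝ → ℝ := fun t => Real.log (∑ z, c1 z * Real.exp (t * g z)) +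
    (E.card - sideCard side false) * Real.log (∑ x, m false x * Real.exp (t * δ false x)) +
    (E.card - sideCard side true) * Real.log (∑ x, m true x * Real.exp (t * δ true x)) -
    E.card * Real.log (∑ z, cc z * Real.exp (t * kk z)) with hH
  have hd : ∀ t, HasDerivAt H ((∑ z, c1 z * g z * Real.exp (t * g z)) /
      (∑ z, c1 z * Real.exp (t * g z)) +
    (E.card - sideCard side false) * ((∑ x, m false x * δ false x * Real.exp (t * δ false x)) /
      ∑ x, m false x * Real.exp (t * δ false x)) +
    (E.card - sideCard side true) * ((∑ x, m true x * δ true x * Real.exp (t * δ true x)) /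
      ∑ x, m true x * Real.exp (t * δ true x)) -
    E.card * ((∑ z, cc z * kk z * Real.exp (t * kk z)) / ∑ z, cc z * Real.exp (t * kk z))) t :=
    fun t => (((hasDerivAt_logSum c1 g a1 b1 t).add
      ((hasDerivAt_logSum (m false) (δ false) (hm false) (hm1 false) t).const_mul _)).add
      ((hasDerivAt_logSum (m true) (δ true) (hm true) (hm1 true) t).const_mul _)).sub
      ((hasDerivAt_logSum cc kk a2 b2 t).const_mul _)
  have hd1 : HasDerivAt (fun t : ℝ => (∑ z, c1 z * g z * Real.exp (t * g z)) /
      (∑ z, c1 z * Real.exp (t * g z)) +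
    (E.card - sideCard side false) * ((∑ x, m false x * δ false x * Real.exp (t * δ false x)) /
      ∑ x, m false x * Real.exp (t * δ false x)) +
    (E.card - sideCard side true) * ((∑ x, m true x * δ true x * Real.exp (t * δ true x)) /
      ∑ x, m true x * Real.exp (t * δ true x)) -
    E.card * ((∑ z, cc z * kk z * Real.exp (t * kk z)) / ∑ z, cc z * Real.exp (t * kk z)))
      ((∑ z, c1 z * g z ^ 2 - (∑ z, c1 z * g z) ^ 2) +
        (E.card - sideCard side false) *
          (∑ x, m false x * δ false x ^ 2 - (∑ x, m false x * δ false x) ^ 2) +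
        (E.card - sideCard side true) *
          (∑ x, m true x * δ true x ^ 2 - (∑ x, m true x * δ true x) ^ 2) -
        E.card * (∑ z, cc z * kk z ^ 2 - (∑ z, cc z * kk z) ^ 2)) 0 :=
    (((hasDerivAt_logSum' c1 g b1).add
      ((hasDerivAt_logSum' (m false) (δ false) (hm1 false)).const_mul _)).add
      ((hasDerivAt_logSum' (m true) (δ true) (hm1 true)).const_mul _)).sub
      ((hasDerivAt_logSum' cc kk b2).const_mul _)
  have h0 : H 0 = 0 := by
    simp [hH, hm1, b1, b2]
  have hHmin : ∀ t, H 0 ≤ H t := by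
    intro t
    rw [h0]
    set Z : Bool → ℝ := fun b => ∑ x, m b x * Real.exp (t * δ b x) with hZ
    have hZ0 : ∀ b, 0 < Z b := fun b => expSum_pos (hm b) (hm1 b) (δ b) t
    set K := ∑ z, cc z * Real.exp (t * kk z) with hK
    have hK0 : 0 < K := expSum_pos a2 b2 kk t
    set D := ∑ z, c1 z * Real.exp (t * g z) with hD
    have hD0 : 0 < D := expSum_pos a1 b1 g t
    have key := hmin (fun b x => m b x * Real.exp (t * δ b x) / Z b)
      (fun x y => W x y * Real.exp (t * α x y))
      (fun b x => div_nonneg (mul_nonneg (hm _ _) (Real.exp_pos _).le) (hZ0 b).le)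
      (fun b => by
        rw [← Finset.sum_div]
        exact div_self (hZ0 b).ne')
      (fun x y => mul_nonneg (hW _ _) (Real.exp_pos _).le)
    have e1 : kmean (fun b x => m b x * Real.exp (t * δ b x) / Z b)
        (fun x y => W x y * Real.exp (t * α x y)) = K / (Z false * Z true) := by
      unfold kmean
      rw [hK, Fintype.sum_prod_type, Finset.sum_div]
      refine Finset.sum_congr rfl fun x _ => ?_
      rw [Finset.sum_div]
      refine Finset.sum_congr rfl fun y _ => ?_
      simp only [hcc, hkk]
      rw [mul_add, mul_add, Real.exp_add, Real.exp_add]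
      have := (hZ0 false).ne'
      have := (hZ0 true).ne'
      field_simp
    have e2 : kdens E side (fun b x => m b x * Real.exp (t * δ b x) / Z b)
        (fun x y => W x y * Real.exp (t * α x y)) =
        F * D / (Z false ^ sideCard side false * Z true ^ sideCard side true) := by
      rw [← prod_sideCard side Z, hD, Finset.mul_sum, Finset.sum_div]
      unfold kdens
      refine Finset.sum_congr rfl fun z _ => ?_
      rw [Finset.prod_div_distrib, Finset.prod_mul_distrib, Finset.prod_mul_distrib,
        ← Real.exp_sum, ← Real.exp_sum]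
      simp only [hc1, gibbs, hg]
      rw [mul_add, Real.exp_add, Finset.mul_sum, Finset.mul_sum, ← hF]
      field_simp
    rw [e1, e2, div_pow, div_mul_eq_mul_div, div_le_div_iff₀
      (pow_pos (mul_pos (hZ0 _) (hZ0 _)) _)
      (mul_pos (pow_pos (hZ0 _) _) (pow_pos (hZ0 _) _))] at key
    have key2 : K ^ E.card * (Z false ^ sideCard side false * Z true ^ sideCard side true) ≤
        D * (Z false * Z true) ^ E.card := by
      have h1 : F * (K ^ E.card * (Z false ^ sideCard side false * Z true ^ sideCard side true)) ≤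
          F * (D * (Z false * Z true) ^ E.card) := by
        linarith
      exact le_of_mul_le_mul_left h1 hF0
    have key3 := Real.log_le_log (mul_pos (pow_pos hK0 _)
      (mul_pos (pow_pos (hZ0 _) _) (pow_pos (hZ0 _) _))) key2
    rw [Real.log_mul (pow_pos hK0 _).ne' (mul_pos (pow_pos (hZ0 _) _) (pow_pos (hZ0 _) _)).ne',
      Real.log_mul (pow_pos (hZ0 _) _).ne' (pow_pos (hZ0 _) _).ne',
      Real.log_mul hD0.ne' (pow_pos (mul_pos (hZ0 _) (hZ0 _)) _).ne', Real.log_pow, Real.log_pow,
      Real.log_pow, Real.log_pow, Real.log_mul (hZ0 _).ne' (hZ0 _).ne'] at key3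
    have e3 : H t = Real.log D + (E.card - sideCard side false) * Real.log (Z false) +
        (E.card - sideCard side true) * Real.log (Z true) - E.card * Real.log K := rfl
    rw [e3]
    linarith
  obtain ⟨c1', c2'⟩ := min_conditions hd hd1 hHmin
  have s1 : ∑ z, cc z * kk z =
      ∑ x, ∑ y, m false x * m true y * W x y * (δ false x + δ true y + α x y) := by
    rw [Fintype.sum_prod_type]
  have s2 : ∑ z, cc z * kk z ^ 2 =
      ∑ x, ∑ y, m false x * m true y * W x y * (δ false x + δ true y + α x y) ^ 2 := by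
    rw [Fintype.sum_prod_type]
  constructor
  · simp only [zero_mul, Real.exp_zero, mul_one, hm1, b1, b2, div_one, s1] at c1'
    exact c1'
  · rw [s1, s2] at c2'
    exact c2'

end Vale.Agent.P050.H177
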