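import Vale.Agent.P050.H177.Gauge6

/-!
The reduction of the Sidorenko inequality for biregular graphs to hypercontractive kernels.
-/

namespace Vale.Agent.P050.H177

open Finset Vale.Agent.P050.Lev

variable {U : Type} [Fintype U] {V : Type} [Fintype V] [DecidableEq V] {E : Finset (V × V)}
  {side : V → Bool} {r s : ℕ}

theorem sum_fst (h : EBireg E side r s) (f : V → ℝ) :
    ∑ e ∈ E, f e.1 = r * ∑ v ∈ univ.filter (fun v => side v = false), f v := by
  rw [← Finset.sum_fiberwise_of_maps_to (t := univ.filter fun v => side v = false)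
    (g := fun e : V × V => e.1) (fun e he => by simp [(h.1 e he).1]), Finset.mul_sum]
  refine Finset.sum_congr rfl fun v hv => ?_
  rw [Finset.sum_congr rfl (g := fun _ => f v) fun e he => by rw [(Finset.mem_filter.1 he).2],
    Finset.sum_const, h.2.1 v (Finset.mem_filter.1 hv).2, nsmul_eq_mul]

theorem sum_snd (h : EBireg E side r s) (f : V → ℝ) :
    ∑ e ∈ E, f e.2 = s * ∑ v ∈ univ.filter (fun v => side v = true), f v := by
  rw [← Finset.sum_fiberwise_of_maps_to (t := univ.filter fun v => side v = true)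
    (g := fun e : V × V => e.2) (fun e he => by simp [(h.1 e he).2]), Finset.mul_sum]
  refine Finset.sum_congr rfl fun v hv => ?_
  rw [Finset.sum_congr rfl (g := fun _ => f v) fun e he => by rw [(Finset.mem_filter.1 he).2],
    Finset.sum_const, h.2.2 v (Finset.mem_filter.1 hv).2, nsmul_eq_mul]

theorem sum_side (side : V → Bool) (f : Bool → V → ℝ) :
    ∑ v, f (side v) v = (∑ v ∈ univ.filter (fun v => side v = false), f false v) +
      ∑ v ∈ univ.filter (fun v => side v = true), f true v := by
  rw [← Finset.sum_filter_add_sum_filter_not univ (fun v => side v = false)]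
  congr 1
  · exact Finset.sum_congr rfl fun v hv => by rw [(Finset.mem_filter.1 hv).2]
  · have : (univ.filter fun v => ¬ side v = false) = univ.filter fun v => side v = true := by
      ext v
      simp
    rw [this]
    exact Finset.sum_congr rfl fun v hv => by rw [(Finset.mem_filter.1 hv).2]

theorem card_fst (h : EBireg E side r s) : (E.card : ℝ) = r * sideCard side false := by
  have := sum_fst h fun _ => 1
  simpa [sideCard] using this

theorem card_snd (h : EBireg E side r s) : (E.card : ℝ) = s * sideCard side true := by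
  have := sum_snd h fun _ => 1
  simpa [sideCard] using this

theorem kmean_ds {m : Bool → U → ℝ} {W : U → U → ℝ} (hm1 : ∀ b, ∑ x, m b x = 1)
    (hrow : ∀ x, ∑ y, m true y * W x y = 1) : kmean m W = 1 := by
  unfold kmean
  rw [← hm1 false]
  refine Finset.sum_congr rfl fun x _ => ?_
  calc ∑ y, m false x * m true y * W x y = m false x * ∑ y, m true y * W x y := by
        rw [Finset.mul_sum]
        exact Finset.sum_congr rfl fun y _ => by ring
    _ = m false x := by rw [hrow, mul_one]

/-- the edge marginals at a minimiser -/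
theorem stationary (hE : ∀ e ∈ E, side e.1 = false ∧ side e.2 = true) {m : Bool → U → ℝ}
    {W : U → U → ℝ} (hm : ∀ b x, 0 ≤ m b x) (hm1 : ∀ b, ∑ x, m b x = 1)
    (hW : ∀ x y, 0 ≤ W x y) (hk : kmean m W = 1)
    (hmin : ∀ (m₁ : Bool → U → ℝ) (W₁ : U → U → ℝ), (∀ b x, 0 ≤ m₁ b x) →
      (∀ b, ∑ x, m₁ b x = 1) → (∀ x y, 0 ≤ W₁ x y) →
      kmean m₁ W₁ ^ E.card * kdens E side m W ≤ kdens E side m₁ W₁) (α : U → U → ℝ) :
    ∑ z, gibbs E side m W z * ∑ e ∈ E, α (z e.1) (z e.2) =
      E.card * ∑ x, ∑ y, m false x * m true y * W x y * α x y := by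
  have h := (min_cond hE hm hm1 hW hk hmin α fun _ _ => 0).1
  simp only [Finset.sum_const_zero, zero_add, mul_zero, add_zero] at h
  linarith

theorem quad_arith {e a b τ S B G C t X : ℝ} (he : 2 ≤ e) (hτ : τ = 1 / (e - 1))
    (hS2 : e ^ 2 * S = (e - a) ^ 2 * (t ^ 2 * B) + (e - b) ^ 2 * G +
      2 * (e - a) * (e - b) * (t * C)) (hX : X ≤ τ ^ 2 * (e * (e * S)))
    (hcond : 0 ≤ X - 0 ^ 2 + (e - a) * (t ^ 2 * B - 0 ^ 2) + (e - b) * (G - 0 ^ 2) -
      e * ((1 + τ) ^ 2 * S - 0 ^ 2)) :
    0 ≤ ((e - a) * (a - 1) * B) * (t * t) + (-2 * (e - a) * (e - b) * C) * t +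
      (e - b) * (b - 1) * G := by
  have h6 : 0 ≤ τ ^ 2 * (e * (e * S)) + (e - a) * (t ^ 2 * B) + (e - b) * G -
      e * ((1 + τ) ^ 2 * S) := by
    have h0 : (0 : ℝ) ^ 2 = 0 := by norm_num
    rw [h0] at hcond
    linarith
  have h7 : (e - 1) * (τ ^ 2 * (e * (e * S)) - e * ((1 + τ) ^ 2 * S)) = - (e ^ 2 * S) := by
    have : e - 1 ≠ 0 := by linarith
    rw [hτ]
    field_simp
    ring
  have h8 : 0 ≤ (e - 1) * (τ ^ 2 * (e * (e * S)) + (e - a) * (t ^ 2 * B) + (e - b) * G -
      e * ((1 + τ) ^ 2 * S)) := mul_nonneg (by linarith) h6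
  have h9 : (e - 1) * (τ ^ 2 * (e * (e * S)) + (e - a) * (t ^ 2 * B) + (e - b) * G -
      e * ((1 + τ) ^ 2 * S)) = (e - 1) * ((e - a) * (t ^ 2 * B) + (e - b) * G) -
      e ^ 2 * S := by
    linear_combination h7
  rw [h9, hS2] at h8
  have h10 : (e - 1) * ((e - a) * (t ^ 2 * B) + (e - b) * G) -
      ((e - a) ^ 2 * (t ^ 2 * B) + (e - b) ^ 2 * G + 2 * (e - a) * (e - b) * (t * C)) =
      ((e - a) * (a - 1) * B) * (t * t) + (-2 * (e - a) * (e - b) * C) * t +
      (e - b) * (b - 1) * G := by ring
  rwa [h10] at h8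

theorem disc_arith {e a b B G C : ℝ} (hea : 0 < e - a) (heb : 0 < e - b)
    (key : ∀ t : ℝ, 0 ≤ ((e - a) * (a - 1) * B) * (t * t) + (-2 * (e - a) * (e - b) * C) * t +
      (e - b) * (b - 1) * G) :
    (e - a) * (e - b) * C ^ 2 ≤ (a - 1) * (b - 1) * (B * G) := by
  have hdisc := discrim_le_zero key
  unfold discrim at hdisc
  have h10 : (e - a) * (e - b) * ((e - a) * (e - b) * C ^ 2) ≤
      (e - a) * (e - b) * ((a - 1) * (b - 1) * (B * G)) := by
    have h11 : (e - a) * (e - b) * ((e - a) * (e - b) * C ^ 2) -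
        (e - a) * (e - b) * ((a - 1) * (b - 1) * (B * G)) =
        ((-2 * (e - a) * (e - b) * C) ^ 2 -
          4 * ((e - a) * (a - 1) * B) * ((e - b) * (b - 1) * G)) / 4 := by ring
    linarith
  exact le_of_mul_le_mul_left h10 (mul_pos hea heb)

/-- the correlation bound at a minimiser -/
theorem min_corr (hE : EBireg E side r s) (hr : 2 ≤ r) (hs : 2 ≤ s) (hE0 : 0 < E.card)
    {m : Bool → U → ℝ} {W : U → U → ℝ} (hm : ∀ b x, 0 ≤ m b x) (hm1 : ∀ b, ∑ x, m b x = 1)
    (hW : ∀ x y, 0 ≤ W x y) (hrow : ∀ x, ∑ y, m true y * W x y = 1)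
    (hcol : ∀ y, ∑ x, m false x * W x y = 1)
    (hmin : ∀ (m₁ : Bool → U → ℝ) (W₁ : U → U → ℝ), (∀ b x, 0 ≤ m₁ b x) →
      (∀ b, ∑ x, m₁ b x = 1) → (∀ x y, 0 ≤ W₁ x y) →
      kmean m₁ W₁ ^ E.card * kdens E side m W ≤ kdens E side m₁ W₁)
    (u v : U → ℝ) (hu : ∑ x, m false x * u x = 0) (hv : ∑ y, m true y * v y = 0) :
    (E.card - sideCard side false) * (E.card - sideCard side true) *
        (∑ x, ∑ y, m false x * m true y * W x y * (u x * v y)) ^ 2 ≤
      (sideCard side false - 1) * (sideCard side true - 1) *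
        ((∑ x, m false x * u x ^ 2) * ∑ y, m true y * v y ^ 2) := by
  classical
  have hk := kmean_ds hm1 hrow
  have hr' : (2 : ℝ) ≤ r := by exact_mod_cast hr
  have hs' : (2 : ℝ) ≤ s := by exact_mod_cast hs
  have hea0 := card_fst hE
  have heb0 := card_snd hE
  have he1 : (1 : ℝ) ≤ (E.card : ℝ) := by exact_mod_cast hE0
  have ha1 : (1 : ℝ) ≤ (sideCard side false : ℝ) := by
    rcases Nat.eq_zero_or_pos (sideCard side false) with h | h
    · rw [h, Nat.cast_zero, mul_zero] at hea0
      linarith
    · exact_mod_cast h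
  have hb1 : (1 : ℝ) ≤ (sideCard side true : ℝ) := by
    rcases Nat.eq_zero_or_pos (sideCard side true) with h | h
    · rw [h, Nat.cast_zero, mul_zero] at heb0
      linarith
    · exact_mod_cast h
  have hst := stationary hE.1 hm hm1 hW hk hmin
  have hco := fun α δ => (min_cond hE.1 hm hm1 hW hk hmin α δ).2
  generalize (sideCard side false : ℝ) = a at *
  generalize (sideCard side true : ℝ) = b at *
  set e : ℝ := (E.card : ℝ) with he
  have hea : e = r * a := hea0
  have heb : e = s * b := heb0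
  have he2 : 2 ≤ e := by nlinarith
  have hea' : 0 < e - a := by nlinarith
  have heb' : 0 < e - b := by nlinarith
  -- marginals
  have e1 : ∀ f : U → ℝ, ∑ x, ∑ y, m false x * m true y * W x y * f x = ∑ x, m false x * f x := by
    intro f
    refine Finset.sum_congr rfl fun x _ => ?_
    calc ∑ y, m false x * m true y * W x y * f x = m false x * f x * ∑ y, m true y * W x y := by
          rw [Finset.mul_sum]
          exact Finset.sum_congr rfl fun y _ => by ring
      _ = m false x * f x := by rw [hrow, mul_one]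
  have e2 : ∀ g : U → ℝ, ∑ x, ∑ y, m false x * m true y * W x y * g y = ∑ y, m true y * g y := by
    intro g
    rw [Finset.sum_comm]
    refine Finset.sum_congr rfl fun y _ => ?_
    calc ∑ x, m false x * m true y * W x y * g y = m true y * g y * ∑ x, m false x * W x y := by
          rw [Finset.mul_sum]
          exact Finset.sum_congr rfl fun x _ => by ring
      _ = m true y * g y := by rw [hcol, mul_one]
  set C := ∑ x, ∑ y, m false x * m true y * W x y * (u x * v y) with hC
  set B := ∑ x, m false x * u x ^ 2 with hB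
  set G := ∑ y, m true y * v y ^ 2 with hG
  -- the quadratic inequality
  have key : ∀ t : ℝ, 0 ≤ ((e - a) * (a - 1) * B) * (t * t) + (-2 * (e - a) * (e - b) * C) * t +
      (e - b) * (b - 1) * G := by
    intro t
    set σ : U → U → ℝ := fun x y => (e - a) / e * (t * u x) + (e - b) / e * v y with hσ
    set τ : ℝ := 1 / (e - 1) with hτ
    set S := ∑ x, ∑ y, m false x * m true y * W x y * σ x y ^ 2 with hS
    set δ : Bool → U → ℝ := fun i x => bif i then v x else t * u x with hδ
    -- mean zero
    have z1 : ∑ x, m false x * (t * u x) = 0 := by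
      have : ∑ x, m false x * (t * u x) = t * ∑ x, m false x * u x := by
        rw [Finset.mul_sum]
        exact Finset.sum_congr rfl fun x _ => by ring
      rw [this, hu, mul_zero]
    have zσ : ∑ x, ∑ y, m false x * m true y * W x y * σ x y = 0 := by
      have : ∑ x, ∑ y, m false x * m true y * W x y * σ x y =
          (e - a) / e * (∑ x, ∑ y, m false x * m true y * W x y * (t * u x)) +
          (e - b) / e * ∑ x, ∑ y, m false x * m true y * W x y * v y := by
        rw [Finset.mul_sum, Finset.mul_sum, ← Finset.sum_add_distrib]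
        refine Finset.sum_congr rfl fun x _ => ?_
        rw [Finset.mul_sum, Finset.mul_sum, ← Finset.sum_add_distrib]
        exact Finset.sum_congr rfl fun y _ => by simp only [hσ]; ring
      rw [this, e1 (fun x => t * u x), e2 v, z1, hv]
      ring
    -- the Gibbs functional
    have hg : ∀ z : V → U, ∑ w, δ (side w) (z w) +
        ∑ d ∈ E, ((1 + τ) * σ (z d.1) (z d.2) - t * u (z d.1) - v (z d.2)) =
        τ * ∑ d ∈ E, σ (z d.1) (z d.2) := by
      intro z
      have f1 := sum_fst hE fun w => t * u (z w)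
      have f2 := sum_snd hE fun w => v (z w)
      have f3 := sum_side side fun i w => δ i (z w)
      have f4 : ∑ d ∈ E, σ (z d.1) (z d.2) = (e - a) / e * (∑ d ∈ E, t * u (z d.1)) +
          (e - b) / e * ∑ d ∈ E, v (z d.2) := by
        rw [Finset.mul_sum, Finset.mul_sum, ← Finset.sum_add_distrib]
      have f5 : ∑ d ∈ E, ((1 + τ) * σ (z d.1) (z d.2) - t * u (z d.1) - v (z d.2)) =
          (1 + τ) * (∑ d ∈ E, σ (z d.1) (z d.2)) - (∑ d ∈ E, t * u (z d.1)) -
            ∑ d ∈ E, v (z d.2) := by
        rw [Finset.sum_sub_distrib, Finset.sum_sub_distrib, ← Finset.mul_sum]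
      simp only [hδ, cond_false, cond_true] at f3
      rw [f3, f5, f4, f1, f2]
      have g1 : (e - a) / e * r = r - 1 := by
        rw [hea]
        field_simp
      have g2 : (e - b) / e * s = s - 1 := by
        rw [heb]
        field_simp
      set P := ∑ w ∈ univ.filter (fun w => side w = false), t * u (z w) with hP
      set Q := ∑ w ∈ univ.filter (fun w => side w = true), v (z w) with hQ
      have g3 : (e - a) / e * (r * P) + (e - b) / e * (s * Q) = (r - 1) * P + (s - 1) * Q := by
        rw [← mul_assoc, ← mul_assoc, g1, g2]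
      rw [g3]
      ring
    have hcond := hco (fun x y => (1 + τ) * σ x y - t * u x - v y) δ
    simp only [hg] at hcond
    simp only [hδ, cond_false, cond_true] at hcond
    have hsimp : ∀ x y : U, t * u x + v y + ((1 + τ) * σ x y - t * u x - v y) =
        (1 + τ) * σ x y := fun x y => by ring
    simp only [hsimp] at hcond
    -- evaluate
    have s1 : ∑ z, gibbs E side m W z * (τ * ∑ d ∈ E, σ (z d.1) (z d.2)) = 0 := by
      have : ∑ z, gibbs E side m W z * (τ * ∑ d ∈ E, σ (z d.1) (z d.2)) =
          τ * ∑ z, gibbs E side m W z * ∑ d ∈ E, σ (z d.1) (z d.2) := by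
        rw [Finset.mul_sum]
        exact Finset.sum_congr rfl fun z _ => by ring
      rw [this, hst σ, zσ, mul_zero, mul_zero]
    have hgib : ∀ z, 0 ≤ gibbs E side m W z := fun z => div_nonneg
      (mul_nonneg (Finset.prod_nonneg fun w _ => hm _ _) (Finset.prod_nonneg fun d _ => hW _ _))
      (kdens_nonneg hm hW)
    have s2 : ∑ z, gibbs E side m W z * (τ * ∑ d ∈ E, σ (z d.1) (z d.2)) ^ 2 ≤
        τ ^ 2 * (e * (e * S)) := by
      have h1 : ∀ z, gibbs E side m W z * (τ * ∑ d ∈ E, σ (z d.1) (z d.2)) ^ 2 ≤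
          τ ^ 2 * (e * (gibbs E side m W z * ∑ d ∈ E, σ (z d.1) (z d.2) ^ 2)) := by
        intro z
        have h2 : (∑ d ∈ E, σ (z d.1) (z d.2)) ^ 2 ≤ e * ∑ d ∈ E, σ (z d.1) (z d.2) ^ 2 :=
          sq_sum_le_card_mul_sum_sq
        have h3 := mul_le_mul_of_nonneg_left h2 (mul_nonneg (hgib z) (sq_nonneg τ))
        nlinarith [h3]
      refine (Finset.sum_le_sum fun z _ => h1 z).trans ?_
      rw [← Finset.mul_sum, ← Finset.mul_sum, hst fun x y => σ x y ^ 2]
    have s3 : ∑ x, ∑ y, m false x * m true y * W x y * ((1 + τ) * σ x y) = 0 := by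
      have : ∑ x, ∑ y, m false x * m true y * W x y * ((1 + τ) * σ x y) =
          (1 + τ) * ∑ x, ∑ y, m false x * m true y * W x y * σ x y := by
        rw [Finset.mul_sum]
        refine Finset.sum_congr rfl fun x _ => ?_
        rw [Finset.mul_sum]
        exact Finset.sum_congr rfl fun y _ => by ring
      rw [this, zσ, mul_zero]
    have s4 : ∑ x, ∑ y, m false x * m true y * W x y * ((1 + τ) * σ x y) ^ 2 =
        (1 + τ) ^ 2 * S := by
      rw [hS, Finset.mul_sum]
      refine Finset.sum_congr rfl fun x _ => ?_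
      rw [Finset.mul_sum]
      exact Finset.sum_congr rfl fun y _ => by ring
    have s5 : ∑ x, m false x * (t * u x) ^ 2 = t ^ 2 * B := by
      rw [hB, Finset.mul_sum]
      exact Finset.sum_congr rfl fun x _ => by ring
    rw [s1, s3, s4, s5, z1, hv] at hcond
    have hS2 : e ^ 2 * S = (e - a) ^ 2 * (t ^ 2 * B) + (e - b) ^ 2 * G +
        2 * (e - a) * (e - b) * (t * C) := by
      have h1 : S = ((e - a) / e) ^ 2 * (∑ x, ∑ y, m false x * m true y * W x y * (t * u x) ^ 2) +
          ((e - b) / e) ^ 2 * (∑ x, ∑ y, m false x * m true y * W x y * v y ^ 2) +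
          2 * ((e - a) / e) * ((e - b) / e) * t *
            ∑ x, ∑ y, m false x * m true y * W x y * (u x * v y) := by
        rw [hS, Finset.mul_sum, Finset.mul_sum, Finset.mul_sum, ← Finset.sum_add_distrib,
          ← Finset.sum_add_distrib]
        refine Finset.sum_congr rfl fun x _ => ?_
        rw [Finset.mul_sum, Finset.mul_sum, Finset.mul_sum, ← Finset.sum_add_distrib,
          ← Finset.sum_add_distrib]
        exact Finset.sum_congr rfl fun y _ => by simp only [hσ]; ring
      rw [h1, e1 (fun x => (t * u x) ^ 2), e2 (fun y => v y ^ 2), s5, ← hG, ← hC]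
      have : e ≠ 0 := by linarith
      field_simp
    exact quad_arith he2 hτ hS2 s2 hcond
  exact disc_arith hea' heb' key

end Vale.Agent.P050.H177
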