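import Vale.Agent.P050.H177.Gauge7
import Vale.Agent.P050.Lev.Final

/-!
The gauge reduction for biregular graphs.
-/

namespace Vale.Agent.P050.H177

open Finset Vale.Agent.P050 Vale.Agent.P050.Lev

/-- `side` is a proper 2-colouring of `H`, the vertices of colour `false` have degree `r` and those
of colour `true` have degree `s`. -/
def Bireg {V : Type} (H : SimpleGraph V) (side : V → Bool) (r s : ℕ) : Prop :=
  (∀ u v, H.Adj u v → side u ≠ side v) ∧
    (∀ v, side v = false → Nat.card (H.neighborSet v) = r) ∧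
    ∀ v, side v = true → Nat.card (H.neighborSet v) = s

/-- The kernel `W ≥ 0` with the probability weights `m false`, `m true` is doubly stochastic, and a
contraction from `L ^ (r / (r - 1))` to `L ^ s`, the dual of `L ^ (s / (s - 1))`. -/
def HyperHost {U : Type} [Fintype U] (r s : ℕ) (m : Bool → U → ℝ) (W : U → U → ℝ) : Prop :=
  (∀ b x, 0 ≤ m b x) ∧ (∀ b, ∑ x, m b x = 1) ∧ (∀ x y, 0 ≤ W x y) ∧
    (∀ x, ∑ y, m true y * W x y = 1) ∧ (∀ y, ∑ x, m false x * W x y = 1) ∧
    HyperContr (r / (r - 1)) (s / (s - 1)) m W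

variable {V : Type} [Fintype V] [DecidableEq V] {H : SimpleGraph V} {side : V → Bool} {r s : ℕ}

theorem Bireg.edges (h : Bireg H side r s) : EBireg (sideEdges H side) side r s := by
  classical
  have hmem : ∀ e : V × V, e ∈ sideEdges H side ↔
      H.Adj e.1 e.2 ∧ side e.1 = false ∧ side e.2 = true := fun e => by
    unfold sideEdges
    rw [Finset.mem_filter]
    simp
  refine ⟨fun e he => ((hmem e).1 he).2, fun v hv => ?_, fun v hv => ?_⟩
  · rw [← h.2.1 v hv, Nat.card_eq_fintype_card, ← Set.toFinset_card]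
    refine Finset.card_bij (fun e _ => e.2) ?_ ?_ ?_
    · intro e he
      rw [Finset.mem_filter] at he
      rw [Set.mem_toFinset, SimpleGraph.mem_neighborSet, ← he.2]
      exact ((hmem e).1 he.1).1
    · intro e he e' he' hee
      rw [Finset.mem_filter] at he he'
      exact Prod.ext (he.2.trans he'.2.symm) hee
    · intro w hw
      rw [Set.mem_toFinset, SimpleGraph.mem_neighborSet] at hw
      have hw' : side w = true := by
        have := h.1 _ _ hw
        rw [hv] at this
        cases hs : side w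
        · exact absurd hs.symm this
        · rfl
      exact ⟨(v, w), Finset.mem_filter.2 ⟨(hmem _).2 ⟨hw, hv, hw'⟩, rfl⟩, rfl⟩
  · rw [← h.2.2 v hv, Nat.card_eq_fintype_card, ← Set.toFinset_card]
    refine Finset.card_bij (fun e _ => e.1) ?_ ?_ ?_
    · intro e he
      rw [Finset.mem_filter] at he
      rw [Set.mem_toFinset, SimpleGraph.mem_neighborSet, ← he.2]
      exact ((hmem e).1 he.1).1.symm
    · intro e he e' he' hee
      rw [Finset.mem_filter] at he he'
      exact Prod.ext hee (he.2.trans he'.2.symm)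
    · intro w hw
      rw [Set.mem_toFinset, SimpleGraph.mem_neighborSet] at hw
      have hw' : side w = false := by
        have := h.1 _ _ hw
        rw [hv] at this
        cases hs : side w
        · rfl
        · exact absurd hs.symm this
      exact ⟨(w, v), Finset.mem_filter.2 ⟨(hmem _).2 ⟨hw.symm, hw', hv⟩, rfl⟩, rfl⟩

/-- the correlation bound of a hypercontractive kernel -/
theorem HyperHost.corr {U : Type} [Fintype U] {m : Bool → U → ℝ} {W : U → U → ℝ} (hr : 2 ≤ r)
    (hs : 2 ≤ s) (h : HyperHost r s m W) (u v : U → ℝ) (hu : ∑ x, m false x * u x = 0)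
    (hv : ∑ y, m true y * v y = 0) :
    ((r : ℝ) - 1) * (s - 1) * (∑ x, ∑ y, m false x * m true y * W x y * (u x * v y)) ^ 2 ≤
      (∑ x, m false x * u x ^ 2) * ∑ y, m true y * v y ^ 2 := by
  obtain ⟨hm, hm1, hW, hrow, hcol, hyp⟩ := h
  have hr' : (2 : ℝ) ≤ r := by exact_mod_cast hr
  have hs' : (2 : ℝ) ≤ s := by exact_mod_cast hs
  have hp1 : 1 < (r : ℝ) / (r - 1) := by
    rw [lt_div_iff₀ (by linarith)]
    linarith
  have hq1 : 1 < (s : ℝ) / (s - 1) := by
    rw [lt_div_iff₀ (by linarith)]
    linarith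
  have h1 := hyp.corr hp1 hq1 hm hm1 hW hrow hcol u v hu hv
  have h2 : ((r : ℝ) - 1) * (s - 1) * (((r : ℝ) / (r - 1) - 1) * ((s : ℝ) / (s - 1) - 1)) = 1 := by
    have e1 : (r : ℝ) - 1 ≠ 0 := by linarith
    have e2 : (s : ℝ) - 1 ≠ 0 := by linarith
    field_simp
    ring
  have h3 : 0 ≤ ((r : ℝ) - 1) * (s - 1) := mul_nonneg (by linarith) (by linarith)
  calc ((r : ℝ) - 1) * (s - 1) * (∑ x, ∑ y, m false x * m true y * W x y * (u x * v y)) ^ 2
      ≤ ((r : ℝ) - 1) * (s - 1) * (((r : ℝ) / (r - 1) - 1) * ((s : ℝ) / (s - 1) - 1) *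
        ((∑ x, m false x * u x ^ 2) * ∑ y, m true y * v y ^ 2)) :=
          mul_le_mul_of_nonneg_left h1 h3
    _ = _ := by rw [← mul_assoc, h2, one_mul]

/-- the minimiser -/
theorem exists_minimiser {U : Type} [Fintype U] [Nonempty U] (h : Bireg H side r s) (hr : 2 ≤ r)
    (hs : 2 ≤ s) (hV : Nonempty V) :
    ∃ (m : Bool → U → ℝ) (W : U → U → ℝ), HyperHost r s m W ∧
      (∀ (m₁ : Bool → U → ℝ) (W₁ : U → U → ℝ), (∀ b x, 0 ≤ m₁ b x) → (∀ b, ∑ x, m₁ b x = 1) →
        (∀ x y, 0 ≤ W₁ x y) → kmean m₁ W₁ ^ (sideEdges H side).card *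
          kdens (sideEdges H side) side m W ≤ kdens (sideEdges H side) side m₁ W₁) ∧
      (∀ φ : U → U → ℝ, ∑ z, gibbs (sideEdges H side) side m W z *
          ∑ e ∈ sideEdges H side, φ (z e.1) (z e.2) =
        (sideEdges H side).card * ∑ x, ∑ y, m false x * m true y * W x y * φ x y) ∧
      ∀ u v : U → ℝ, ∑ x, m false x * u x = 0 → ∑ y, m true y * v y = 0 →
        (((sideEdges H side).card : ℝ) - sideCard side false) *
          ((sideEdges H side).card - sideCard side true) *
            (∑ x, ∑ y, m false x * m true y * W x y * (u x * v y)) ^ 2 ≤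
          ((sideCard side false : ℝ) - 1) * (sideCard side true - 1) *
            ((∑ x, m false x * u x ^ 2) * ∑ y, m true y * v y ^ 2) := by
  have hE := h.edges
  have hE0 : 0 < (sideEdges H side).card := by
    obtain ⟨v⟩ := hV
    cases hv : side v
    · have := hE.2.1 v hv
      have h1 := Finset.card_filter_le (sideEdges H side) fun e => e.1 = v
      omega
    · have := hE.2.2 v hv
      have h1 := Finset.card_filter_le (sideEdges H side) fun e => e.2 = v
      omega
  obtain ⟨m, W, hm, hm1, hW, hrow, hcol, hyp, hmin⟩ := exists_min_host (U := U) hE hr hs hE0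
  have hk := kmean_ds hm1 hrow
  exact ⟨m, W, ⟨hm, hm1, hW, hrow, hcol, hyp⟩, hmin,
    fun φ => stationary hE.1 hm hm1 hW hk hmin φ,
    fun u v hu hv => min_corr hE hr hs hE0 hm hm1 hW hrow hcol hmin u v hu hv⟩

/-- the reduction -/
theorem gsid_iff (h : Bireg H side r s) (hr : 2 ≤ r) (hs : 2 ≤ s) :
    GSid H side ↔ ∀ (U : Type) [Fintype U] (m : Bool → U → ℝ) (W : U → U → ℝ),
      HyperHost r s m W →
      (∀ u v : U → ℝ, ∑ x, m false x * u x = 0 → ∑ y, m true y * v y = 0 →
        (((sideEdges H side).card : ℝ) - sideCard side false) *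
          ((sideEdges H side).card - sideCard side true) *
            (∑ x, ∑ y, m false x * m true y * W x y * (u x * v y)) ^ 2 ≤
          ((sideCard side false : ℝ) - 1) * (sideCard side true - 1) *
            ((∑ x, m false x * u x ^ 2) * ∑ y, m true y * v y ^ 2)) →
      1 ≤ kdens (sideEdges H side) side m W := by
  constructor
  · intro hG U _ m W hh _
    obtain ⟨hm, hm1, hW, hrow, hcol, hyp⟩ := hh
    have h1 := hG.2.2 U m W hm hm1 hW
    have hk := kmean_ds hm1 hrow
    unfold kmean at hk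
    rw [hk, one_pow] at h1
    exact h1
  · intro hall
    refine ⟨h.1, h.edges.1, ?_⟩
    intro U _ m₁ W₁ h1 h2 h3
    rcases isEmpty_or_nonempty V with hV | hV
    · have hE : sideEdges H side = ∅ := Finset.eq_empty_of_isEmpty _
      rw [hE]
      simp
    have hU : Nonempty U := by
      by_contra hn
      rw [not_nonempty_iff] at hn
      have := h2 false
      rw [Finset.univ_eq_empty, Finset.sum_empty] at this
      exact zero_ne_one this
    obtain ⟨m, W, hh, hmin, _, hcorr⟩ := exists_minimiser (U := U) h hr hs hV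
    have h4 := hmin m₁ W₁ h1 h2 h3
    have h5 := hall U m W hh hcorr
    have hk0 : 0 ≤ kmean m₁ W₁ := Finset.sum_nonneg fun x _ => Finset.sum_nonneg fun y _ =>
      mul_nonneg (mul_nonneg (h1 _ _) (h1 _ _)) (h3 _ _)
    refine le_trans ?_ h4
    exact le_mul_of_one_le_right (pow_nonneg hk0 _) h5

end Vale.Agent.P050.H177
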