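import Vale.Agent.P050.H177.Gauge8
import Vale.Agent.P050.H148.Defs

/-!
The gauge reduction: final forms.
-/

namespace Vale.Agent.P050.H177

open Finset Vale.Agent.P050 Vale.Agent.P050.Lev

/-- The square of the maximal correlation of the doubly stochastic kernel `W` (of its second
singular value) is at most `c`. -/
def CorrLe {U : Type} [Fintype U] (c : ℝ) (m : Bool → U → ℝ) (W : U → U → ℝ) : Prop :=
  ∀ u v : U → ℝ, ∑ x, m false x * u x = 0 → ∑ y, m true y * v y = 0 →
    (∑ x, ∑ y, m false x * m true y * W x y * (u x * v y)) ^ 2 ≤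
      c * ((∑ x, m false x * u x ^ 2) * ∑ y, m true y * v y ^ 2)

/-- For the graph `H` with `e` edges and `a`, `b` vertices of the two colours, the number
`(a - 1) (b - 1) / ((e - a) (e - b))`. -/
noncomputable def corrBound {V : Type} (H : SimpleGraph V) (side : V → Bool) : ℝ :=
  ((Nat.card {v // side v = false} : ℝ) - 1) * (Nat.card {v // side v = true} - 1) /
    ((Nat.card H.edgeSet - Nat.card {v // side v = false}) *
      (Nat.card H.edgeSet - Nat.card {v // side v = true}))

variable {V : Type} [Fintype V] [DecidableEq V] {H : SimpleGraph V} {side : V → Bool} {r s : ℕ}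

omit [DecidableEq V] in
theorem sideCard_eq (side : V → Bool) (b : Bool) : sideCard side b = Nat.card {v // side v = b} := by
  rw [sideCard, Nat.card_eq_fintype_card, Fintype.card_subtype]

theorem HyperHost.corrLe {U : Type} [Fintype U] {m : Bool → U → ℝ} {W : U → U → ℝ} (hr : 2 ≤ r)
    (hs : 2 ≤ s) (h : HyperHost r s m W) : CorrLe (1 / (((r : ℝ) - 1) * (s - 1))) m W := by
  intro u v hu hv
  have hr' : (2 : ℝ) ≤ r := by exact_mod_cast hr
  have hs' : (2 : ℝ) ≤ s := by exact_mod_cast hs
  have h1 := h.corr hr hs u v hu hv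
  have h3 : 0 < ((r : ℝ) - 1) * (s - 1) := mul_pos (by linarith) (by linarith)
  rw [one_div_mul_eq_div, le_div_iff₀ h3]
  linarith

theorem Bireg.side_lt (h : Bireg H side r s) (hr : 2 ≤ r) (hs : 2 ≤ s) (hV : Nonempty V) :
    (sideCard side false : ℝ) < (sideEdges H side).card ∧
      (sideCard side true : ℝ) < (sideEdges H side).card := by
  have hr' : (2 : ℝ) ≤ r := by exact_mod_cast hr
  have hs' : (2 : ℝ) ≤ s := by exact_mod_cast hs
  have hE := h.edges
  have h1 := card_fst hE
  have h2 := card_snd hE
  have hE0 : 0 < (sideEdges H side).card := by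
    obtain ⟨v⟩ := hV
    cases hv : side v
    · have := hE.2.1 v hv
      have h1 := Finset.card_filter_le (sideEdges H side) fun e => e.1 = v
      omega
    · have := hE.2.2 v hv
      have h1 := Finset.card_filter_le (sideEdges H side) fun e => e.2 = v
      omega
  have hE1 : (0 : ℝ) < (sideEdges H side).card := by exact_mod_cast hE0
  have p1 : (0 : ℝ) ≤ sideCard side false := Nat.cast_nonneg _
  have p2 : (0 : ℝ) ≤ sideCard side true := Nat.cast_nonneg _
  constructor <;> nlinarith

theorem corrLe_iff (h : Bireg H side r s) (hr : 2 ≤ r) (hs : 2 ≤ s) (hV : Nonempty V)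
    {U : Type} [Fintype U] {m : Bool → U → ℝ} {W : U → U → ℝ} :
    CorrLe (corrBound H side) m W ↔
      ∀ u v : U → ℝ, ∑ x, m false x * u x = 0 → ∑ y, m true y * v y = 0 →
        (((sideEdges H side).card : ℝ) - sideCard side false) *
          ((sideEdges H side).card - sideCard side true) *
            (∑ x, ∑ y, m false x * m true y * W x y * (u x * v y)) ^ 2 ≤
          ((sideCard side false : ℝ) - 1) * (sideCard side true - 1) *
            ((∑ x, m false x * u x ^ 2) * ∑ y, m true y * v y ^ 2) := by
  obtain ⟨l1, l2⟩ := h.side_lt hr hs hV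
  have hpos := mul_pos (sub_pos.2 l1) (sub_pos.2 l2)
  have hc : corrBound H side = ((sideCard side false : ℝ) - 1) * (sideCard side true - 1) /
      (((sideEdges H side).card - sideCard side false) *
      ((sideEdges H side).card - sideCard side true)) := by
    unfold corrBound
    rw [← sideCard_eq, ← sideCard_eq, card_sideEdges H side h.1]
  unfold CorrLe
  rw [hc]
  refine forall_congr' fun u => forall_congr' fun v => forall_congr' fun _ =>
    forall_congr' fun _ => ?_
  rw [div_mul_eq_mul_div, le_div_iff₀ hpos, mul_comm (_ ^ 2)]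

/-- the minimiser -/
theorem exists_minimiser' {U : Type} [Fintype U] [Nonempty U] (h : Bireg H side r s) (hr : 2 ≤ r)
    (hs : 2 ≤ s) (hV : Nonempty V) :
    ∃ (m : Bool → U → ℝ) (W : U → U → ℝ), HyperHost r s m W ∧ CorrLe (corrBound H side) m W ∧
      (∀ φ : U → U → ℝ, ∑ z, gibbs (sideEdges H side) side m W z *
          ∑ e ∈ sideEdges H side, φ (z e.1) (z e.2) =
        Nat.card H.edgeSet * ∑ x, ∑ y, m false x * m true y * W x y * φ x y) ∧
      ∀ (m₁ : Bool → U → ℝ) (W₁ : U → U → ℝ), (∀ b x, 0 ≤ m₁ b x) → (∀ b, ∑ x, m₁ b x = 1) →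
        (∀ x y, 0 ≤ W₁ x y) → kmean m₁ W₁ ^ Nat.card H.edgeSet *
          kdens (sideEdges H side) side m W ≤ kdens (sideEdges H side) side m₁ W₁ := by
  obtain ⟨m, W, h1, h2, h3, h4⟩ := exists_minimiser (U := U) h hr hs hV
  rw [card_sideEdges H side h.1] at h2 h3
  exact ⟨m, W, h1, (corrLe_iff h hr hs hV).2 h4, h3, h2⟩

/-- the reduction -/
theorem gsid_iff' (h : Bireg H side r s) (hr : 2 ≤ r) (hs : 2 ≤ s) :
    GSid H side ↔ ∀ (U : Type) [Fintype U] (m : Bool → U → ℝ) (W : U → U → ℝ),
      HyperHost r s m W → CorrLe (corrBound H side) m W →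
      1 ≤ kdens (sideEdges H side) side m W := by
  rcases isEmpty_or_nonempty V with hV | hV
  · constructor
    · intro _ U _ m W _ _
      have hE : sideEdges H side = ∅ := Finset.eq_empty_of_isEmpty _
      rw [hE]
      simp [kdens]
    · intro _
      refine ⟨h.1, h.edges.1, fun U _ m₁ W₁ h1 h2 h3 => ?_⟩
      have hE : sideEdges H side = ∅ := Finset.eq_empty_of_isEmpty _
      rw [hE]
      simp
  · rw [gsid_iff h hr hs]
    refine forall_congr' fun U => forall_congr' fun _ => forall_congr' fun m =>
      forall_congr' fun W => forall_congr' fun _ => ?_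
    rw [corrLe_iff h hr hs hV]

end Vale.Agent.P050.H177
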