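import Vale.Agent.P050.H177.Main

/-!
Layered graphs: substitution of a ladder.
-/

namespace Vale.Agent.P050.H177

open Finset Vale.Agent.P050.Tmpl Vale.Agent.P050.Lev

/-- The ladder with `n` rungs. -/
def ladderGraph (n : ℕ) : SimpleGraph (Bool × Fin n) where
  Adj x y := (x.2 = y.2 ∧ x.1 ≠ y.1) ∨
    (x.1 = y.1 ∧ ((x.2 : ℕ) + 1 = y.2 ∨ (y.2 : ℕ) + 1 = x.2))
  symm := ⟨fun x y h => by
    rcases h with h | h
    · exact Or.inl ⟨h.1.symm, h.2.symm⟩
    · exact Or.inr ⟨h.1.symm, h.2.symm⟩⟩
  loopless := ⟨fun x h => by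
    rcases h with h | h
    · exact h.2 rfl
    · omega⟩

/-- the part of the ladder below the rung `i` -/
def below (n i : ℕ) : Finset (Bool × Fin n) := univ.filter fun x => (x.2 : ℕ) < i

theorem ladder_net_aux (n : ℕ) : ∀ i : ℕ, i ≤ n →
    ∃ C M, Net (ladderGraph n) (below n i) C M ∧
      ∀ h : i < n + 1, ∀ h' : 0 < i, C (false, ⟨i - 1, by omega⟩) {(true, ⟨i - 1, by omega⟩)} := by
  intro i
  induction i with
  | zero =>
    intro _
    have e : below n 0 = ∅ := by
      ext x
      simp [below]
    rw [e]
    exact ⟨_, _, NetExt.base, fun _ h' => absurd h' (lt_irrefl 0)⟩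
  | succ i ih =>
    intro hi
    obtain ⟨C, M, hN, hC⟩ := ih (by omega)
    have hi' : i < n := by omega
    set a : Bool × Fin n := (false, ⟨i, hi'⟩) with ha
    set b : Bool × Fin n := (true, ⟨i, hi'⟩) with hb
    have hab : a ≠ b := by simp [ha, hb]
    have haS : a ∉ below n i := by simp [below, ha]
    have hbS : b ∉ insert a (below n i) := by simp [below, ha, hb]
    have e : below n (i + 1) = insert b (insert a (below n i)) := by
      ext x
      rcases x with ⟨c, j, hj⟩
      simp only [below, Finset.mem_filter, Finset.mem_univ, true_and, Finset.mem_insert, ha, hb,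
        Prod.mk.injEq, Fin.mk.injEq]
      cases c <;> simp <;> omega
    rcases Nat.eq_zero_or_pos i with h0 | h0
    · subst h0
      have e0 : below n 0 = ∅ := by
        ext x
        simp [below]
      rw [e0] at hN haS hbS e
      have h1 := NetExt.isolated a hN haS (by simp)
      have h2 := NetExt.leaf b a h1 hbS (Finset.mem_insert_self _ _) (by
        intro x hx
        rw [Finset.mem_insert] at hx
        rcases hx with rfl | hx
        · simp only [ladderGraph, ha, hb]
          simp
        · exact absurd hx (Finset.notMem_empty _))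
      rw [e]
      refine ⟨_, _, h2, fun _ _ => ?_⟩
      refine Or.inr (Or.inr ⟨rfl, ∅, Or.inr ⟨rfl, rfl⟩, ?_⟩)
      rfl
    · set a' : Bool × Fin n := (false, ⟨i - 1, by omega⟩) with ha'
      set b' : Bool × Fin n := (true, ⟨i - 1, by omega⟩) with hb'
      have hCa := hC (by omega) h0
      have ha'S : a' ∈ below n i := by
        simp only [below, Finset.mem_filter, Finset.mem_univ, true_and, ha']
        omega
      have h1 := NetExt.leaf a a' hN haS ha'S (by
        rintro ⟨c, j, hj⟩ hx
        simp only [below, Finset.mem_filter, Finset.mem_univ, true_and] at hx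
        simp only [ladderGraph, ha, ha', Prod.mk.injEq, Fin.mk.injEq]
        cases c <;> simp <;> omega)
      have h2 := NetExt.copy b a' {a, b'} {a, b'} h1 hbS
        (Or.inr (Or.inr ⟨rfl, {b'}, hCa, rfl⟩)) (Finset.Subset.refl _) ⟨a, by simp⟩ (by
        rintro ⟨c, j, hj⟩ hx
        simp only [below, Finset.mem_filter, Finset.mem_univ, true_and, Finset.mem_insert, ha,
          Prod.mk.injEq, Fin.mk.injEq] at hx
        simp only [ladderGraph, ha, hb, hb', Finset.mem_insert, Finset.mem_singleton,
          Prod.mk.injEq, Fin.mk.injEq]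
        cases c <;> simp at hx ⊢ <;> omega)
      rw [e]
      refine ⟨_, _, h2, fun _ _ => ?_⟩
      exact Or.inr (Or.inr ⟨by simp [ha], rfl⟩)

/-- ladders are nets -/
theorem ladder_net (n : ℕ) : ∃ C M, Net (ladderGraph n) univ C M := by
  obtain ⟨C, M, h, _⟩ := ladder_net_aux n n le_rfl
  have e : below n n = univ := by
    ext x
    simp [below]
  rw [e] at h
  exact ⟨C, M, h⟩

end Vale.Agent.P050.H177
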