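import Vale.Agent.P050.H177.Layer

/-!
Layered graphs: the two-sided Sidorenko inequality.
-/

namespace Vale.Agent.P050.H177

open Finset Vale.Agent.P050.Tmpl Vale.Agent.P050.Lev

/-- `n` copies of `G`, the layers. Consecutive layers `i` and `i + 1` are joined by the edges
`(p, i)`, `(p, i + 1)` if `w i = false`, and by the edges `(p, i)`, `(q, i + 1)`, `p` and `q`
adjacent in `G`, if `w i = true`. -/
def layered {VG : Type} (G : SimpleGraph VG) (w : ℕ → Bool) (n : ℕ) :
    SimpleGraph (VG × Fin n) where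
  Adj x y := (x.2 = y.2 ∧ G.Adj x.1 y.1) ∨
    ((x.2 : ℕ) + 1 = y.2 ∧ ((w x.2 = false ∧ x.1 = y.1) ∨ (w x.2 = true ∧ G.Adj x.1 y.1))) ∨
    ((y.2 : ℕ) + 1 = x.2 ∧ ((w y.2 = false ∧ x.1 = y.1) ∨ (w y.2 = true ∧ G.Adj x.1 y.1)))
  symm := ⟨fun x y h => by
    rcases h with h | h | h
    · exact Or.inl ⟨h.1.symm, h.2.symm⟩
    · exact Or.inr (Or.inr ⟨h.1, h.2.imp (fun h' => ⟨h'.1, h'.2.symm⟩) fun h' => ⟨h'.1, h'.2.symm⟩⟩)
    · exact Or.inr (Or.inl ⟨h.1, h.2.imp (fun h' => ⟨h'.1, h'.2.symm⟩) fun h' => ⟨h'.1, h'.2.symm⟩⟩)⟩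
  loopless := ⟨fun x h => by
    rcases h with h | h | h
    · exact G.loopless.irrefl _ h.2
    · omega
    · omega⟩

/-- parity of the number of `true` among `w 0, …, w (i - 1)` -/
def wpar (w : ℕ → Bool) : ℕ → Bool
  | 0 => false
  | i + 1 => xor (wpar w i) (w i)

/-- the division of the ladder -/
def ltau (w : ℕ → Bool) (n : ℕ) (v : Bool × Fin n) : Bool := xor v.1 (wpar w v.2)

/-- the 2-colouring of a layered graph -/
def lside {VG : Type} (t : VG → Bool) (w : ℕ → Bool) (n : ℕ) (x : VG × Fin n) : Bool :=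
  xor (xor (t x.1) (wpar w x.2)) (decide ((x.2 : ℕ) % 2 = 1))

/-- the substitution as a layered graph -/
def lf {VG : Type} (t : VG → Bool) (w : ℕ → Bool) (n : ℕ) : RV t (ltau w n) ∅ → VG × Fin n
  | Sum.inl v => absurd v.2 (Finset.notMem_empty _)
  | Sum.inr x => (x.1.1, x.1.2.2)

variable {VG : Type} {G : SimpleGraph VG} {t : VG → Bool} {w : ℕ → Bool} {n : ℕ}

theorem lf_injective : Function.Injective (lf t w n) := by
  rintro (⟨v, hv⟩ | ⟨⟨p, c, i⟩, h1, h2⟩) (⟨v', hv'⟩ | ⟨⟨q, d, j⟩, h1', h2'⟩) h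
  · exact absurd hv (Finset.notMem_empty _)
  · exact absurd hv (Finset.notMem_empty _)
  · exact absurd hv' (Finset.notMem_empty _)
  · simp only [lf, Prod.mk.injEq] at h
    obtain ⟨rfl, rfl⟩ := h
    simp only [ltau] at h2 h2'
    have : c = d := by
      rw [h2] at h2'
      revert h2'
      cases c <;> cases d <;> cases wpar w i <;> simp
    subst this
    rfl

theorem lf_surjective : Function.Surjective (lf t w n) := by
  rintro ⟨p, i⟩
  refine ⟨Sum.inr ⟨(p, (xor (t p) (wpar w i), i)), Finset.notMem_empty _, ?_⟩, rfl⟩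
  simp only [ltau]
  cases t p <;> cases wpar w i <;> rfl

theorem lf_adj (hG : ∀ u v, G.Adj u v → t u ≠ t v) (a b : RV t (ltau w n) ∅) :
    (layered G w n).Adj (lf t w n a) (lf t w n b) ↔
      (relSub G t (ladderGraph n) (ltau w n) ∅).Adj a b := by
  rcases a with ⟨v, hv⟩ | ⟨⟨p, c, i⟩, h1, h2⟩
  · exact absurd hv (Finset.notMem_empty _)
  rcases b with ⟨v, hv⟩ | ⟨⟨q, d, j⟩, h1', h2'⟩
  · exact absurd hv (Finset.notMem_empty _)
  have hpq : G.Adj p q → t p ≠ t q := hG p q
  simp only [ltau] at h2 h2'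
  change ((i = j ∧ G.Adj p q) ∨
    ((i : ℕ) + 1 = j ∧ ((w i = false ∧ p = q) ∨ (w i = true ∧ G.Adj p q))) ∨
    ((j : ℕ) + 1 = i ∧ ((w j = false ∧ p = q) ∨ (w j = true ∧ G.Adj p q)))) ↔
    ((p = q ∨ G.Adj p q) ∧ ((i = j ∧ c ≠ d) ∨ (c = d ∧ ((i : ℕ) + 1 = j ∨ (j : ℕ) + 1 = i))))
  have hstep : ∀ x y : ℕ, x + 1 = y → wpar w y = xor (wpar w x) (w x) := by
    rintro x y rfl
    rfl
  constructor
  · rintro (⟨rfl, hadj⟩ | ⟨hij, h⟩ | ⟨hij, h⟩)
    · refine ⟨Or.inr hadj, Or.inl ⟨rfl, ?_⟩⟩
      rintro rfl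
      exact hpq hadj (h2.trans h2'.symm)
    · have hs := hstep _ _ hij
      rcases h with ⟨hw, rfl⟩ | ⟨hw, hadj⟩
      · refine ⟨Or.inl rfl, Or.inr ⟨?_, Or.inl hij⟩⟩
        rw [hs, hw, h2] at h2'
        revert h2'
        cases c <;> cases d <;> cases wpar w i <;> simp
      · refine ⟨Or.inr hadj, Or.inr ⟨?_, Or.inl hij⟩⟩
        have h3 := hpq hadj
        rw [h2, h2', hs, hw] at h3
        revert h3
        cases c <;> cases d <;> cases wpar w i <;> simp
    · have hs := hstep _ _ hij
      rcases h with ⟨hw, rfl⟩ | ⟨hw, hadj⟩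
      · refine ⟨Or.inl rfl, Or.inr ⟨?_, Or.inr hij⟩⟩
        rw [h2, hs, hw] at h2'
        revert h2'
        cases c <;> cases d <;> cases wpar w j <;> simp
      · refine ⟨Or.inr hadj, Or.inr ⟨?_, Or.inr hij⟩⟩
        have h3 := hpq hadj
        rw [h2, h2', hs, hw] at h3
        revert h3
        cases c <;> cases d <;> cases wpar w j <;> simp
  · rintro ⟨hpq', ⟨rfl, hcd⟩ | ⟨rfl, hij | hij⟩⟩
    · refine Or.inl ⟨rfl, ?_⟩
      rcases hpq' with rfl | h
      · exfalso
        apply hcd
        rw [h2] at h2'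
        revert h2'
        cases c <;> cases d <;> cases wpar w i <;> simp
      · exact h
    · refine Or.inr (Or.inl ⟨hij, ?_⟩)
      have hs := hstep _ _ hij
      rcases hpq' with rfl | h
      · refine Or.inl ⟨?_, rfl⟩
        rw [h2, hs] at h2'
        revert h2'
        cases c <;> cases w i <;> cases wpar w i <;> simp
      · refine Or.inr ⟨?_, h⟩
        have h3 := hpq h
        rw [h2, h2', hs] at h3
        revert h3
        cases c <;> cases w i <;> cases wpar w i <;> simp
    · refine Or.inr (Or.inr ⟨hij, ?_⟩)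
      have hs := hstep _ _ hij
      rcases hpq' with rfl | h
      · refine Or.inl ⟨?_, rfl⟩
        rw [h2, hs] at h2'
        revert h2'
        cases c <;> cases w j <;> cases wpar w j <;> simp
      · refine Or.inr ⟨?_, h⟩
        have h3 := hpq h
        rw [h2, h2', hs] at h3
        revert h3
        cases c <;> cases w j <;> cases wpar w j <;> simp

theorem thin_tau : Thin (ladderGraph n) ∅
    (univ.filter fun v => v ∉ (∅ : Finset (Bool × Fin n)) ∧ ltau w n v = true) := by
  have key : ∀ i : ℕ, i ≤ n → Thin (ladderGraph n) ∅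
      (univ.filter fun v : Bool × Fin n => ltau w n v = true ∧ (v.2 : ℕ) < i) := by
    intro i
    induction i with
    | zero =>
      intro _
      have e : (univ.filter fun v : Bool × Fin n => ltau w n v = true ∧ (v.2 : ℕ) < 0) = ∅ := by
        ext x
        simp
      rw [e]
      exact Thin.empty
    | succ i ih =>
      intro hi
      have hi' : i < n := by omega
      have e : (univ.filter fun v : Bool × Fin n => ltau w n v = true ∧ (v.2 : ℕ) < i + 1) =
          insert (xor true (wpar w i), ⟨i, hi'⟩)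
            (univ.filter fun v : Bool × Fin n => ltau w n v = true ∧ (v.2 : ℕ) < i) := by
        ext ⟨c, j, hj⟩
        rw [Finset.mem_filter, Finset.mem_insert, Finset.mem_filter]
        simp only [Finset.mem_univ, true_and, ltau, Prod.mk.injEq, Fin.mk.injEq]
        constructor
        · rintro ⟨h1, h2⟩
          rcases Nat.lt_or_ge j i with h | h
          · exact Or.inr ⟨h1, h⟩
          · have : j = i := by omega
            subst this
            refine Or.inl ⟨?_, rfl⟩
            revert h1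
            cases c <;> cases wpar w j <;> simp
        · rintro (⟨h1, rfl⟩ | ⟨h1, h2⟩)
          · refine ⟨?_, by omega⟩
            rw [h1]
            cases wpar w j <;> rfl
          · exact ⟨h1, by omega⟩
      rw [e]
      refine Thin.insert _ (ih (by omega)) (Finset.notMem_empty _) (by simp) ?_
      rintro ⟨c, j, hj⟩ hx ⟨d, k, hk⟩ hy h1 h2
      rw [Finset.empty_union, Finset.mem_filter] at hx hy
      have hx2 : j < i := hx.2.2
      have hy2 : k < i := hy.2.2
      simp only [ladderGraph] at h1 h2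
      rcases h1 with h1 | h1
      · have := congrArg Fin.val h1.1
        simp only at this
        omega
      rcases h2 with h2 | h2
      · have := congrArg Fin.val h2.1
        simp only at this
        omega
      have e1 : j = k := by omega
      subst e1
      rw [← h1.1, ← h2.1]
  have h := key n le_rfl
  have e : (univ.filter fun v => v ∉ (∅ : Finset (Bool × Fin n)) ∧ ltau w n v = true) =
      univ.filter fun v : Bool × Fin n => ltau w n v = true ∧ (v.2 : ℕ) < n :=
    Finset.filter_congr fun v _ => by simp [v.2.2]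
  rw [e]
  exact h

/-- **Layered graphs.** -/
theorem layered_gsid [Fintype VG] [DecidableEq VG] (hG : GSid G t) (he : ∃ u v, G.Adj u v)
    (hc : ∀ b, (univ.filter fun p => t p = b).card ≤ Nat.card G.edgeSet) (w : ℕ → Bool) (n : ℕ) :
    GSid (layered G w n) (lside t w n) := by
  obtain ⟨C, M, hN⟩ := ladder_net n
  have himg : univ.image (lf t w n) = univ := by
    ext x
    simp only [Finset.mem_image, Finset.mem_univ, true_and, iff_true]
    exact lf_surjective x
  have hs₀ : ∀ u v, (ladderGraph n).Adj u v →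
      (fun v : Bool × Fin n => xor v.1 (decide ((v.2 : ℕ) % 2 = 1))) u ≠
        (fun v : Bool × Fin n => xor v.1 (decide ((v.2 : ℕ) % 2 = 1))) v := by
    rintro ⟨c, i⟩ ⟨d, j⟩ h
    simp only [ladderGraph] at h
    rcases h with ⟨rfl, h⟩ | ⟨rfl, h⟩
    · simp only
      cases c <;> cases d <;> simp at h ⊢
    · have h1 : decide ((i : ℕ) % 2 = 1) ≠ decide ((j : ℕ) % 2 = 1) := by
        simp only [ne_eq, decide_eq_decide]
        omega
      simp only
      intro h2
      apply h1
      revert h2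
      cases c <;> simp
  refine sub_gsid hG he hc hs₀ hN ∅ (ltau w n) (Or.inl thin_tau) ?_ lf_injective
    (lf_adj hG.1) ?_ (C := fun v B => ∃ a A, LiftStar G t (ltau w n) ∅ C a A ∧
      v = lf t w n a ∧ B = A.image (lf t w n))
    (M := fun v A B => ∃ a A' B', LiftSep G t (ltau w n) ∅ M a A' B' ∧
      v = lf t w n a ∧ A = A'.image (lf t w n) ∧ B = B'.image (lf t w n)) ?_
  · rintro ⟨p, i⟩ ⟨q, j⟩ h
    simp only [layered] at h
    simp only [lside]
    have hstep : ∀ x y : ℕ, x + 1 = y → wpar w y = xor (wpar w x) (w x) := by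
      rintro x y rfl
      rfl
    rcases h with ⟨rfl, h⟩ | ⟨hij, h⟩ | ⟨hij, h⟩
    · have h1 := hG.1 _ _ h
      intro h2
      apply h1
      revert h2
      cases t p <;> cases t q <;> simp
    · have hs := hstep _ _ hij
      have hd : decide ((j : ℕ) % 2 = 1) = !decide ((i : ℕ) % 2 = 1) := by
        rw [← decide_not, decide_eq_decide]
        omega
      rw [hs, hd]
      rcases h with ⟨hw, rfl⟩ | ⟨hw, h⟩
      · rw [hw]
        cases t p <;> cases wpar w i <;> simp
      · rw [hw]
        have h1 := hG.1 _ _ h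
        cases hp : t p <;> cases hq : t q <;> simp_all
    · have hs := hstep _ _ hij
      have hd : decide ((i : ℕ) % 2 = 1) = !decide ((j : ℕ) % 2 = 1) := by
        rw [← decide_not, decide_eq_decide]
        omega
      rw [hs, hd]
      rcases h with ⟨hw, rfl⟩ | ⟨hw, h⟩
      · rw [hw]
        cases t p <;> cases wpar w j <;> simp
      · rw [hw]
        have h1 := hG.1 _ _ h
        cases hp : t p <;> cases hq : t q <;> simp_all
  · rintro (⟨v, hv⟩ | ⟨⟨p, c, i⟩, h1, h2⟩)
    · exact absurd hv (Finset.notMem_empty _)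
    · simp only [ltau] at h2
      change xor (xor (t p) (wpar w i)) (decide ((i : ℕ) % 2 = 1)) =
        xor c (decide ((i : ℕ) % 2 = 1))
      rw [h2]
      cases c <;> cases wpar w i <;> simp
  · rw [himg]
    exact NetExt.base

end Vale.Agent.P050.H177
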