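import Vale.Agent.P050.H177.SubLaw

/-!
Substitution into a graph with the two-sided Sidorenko inequality.
-/

set_option linter.unusedSectionVars false

namespace Vale.Agent.P050.H177

open Finset Vale.Agent.P050.Tmpl Vale.Agent.P050.Lev Vale.Agent.P050.Cart Vale.Agent.P050.Join

section thin

variable {V U Ω : Type} [Fintype V] [DecidableEq V] [Fintype U] [Fintype Ω]
  {m : Bool → U → ℝ} {π : U → U → ℝ} {H : SimpleGraph V} {s τ : V → Bool} {S K : Finset V}
  {C : V → Finset V → Prop} {P : Ω → ℝ} {Z : Ω → V → Option U}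

/-- the entropy of a thin set -/
theorem thin_le (h : TS m π H s S C P Z) (hb : Base m π) (hs : ∀ u v, H.Adj u v → s u ≠ s v)
    {R W : Finset V} (hT : Thin H R W) (hR : R ⊆ S) : W ⊆ S → he P Z (R ∪ W) ≤
      he P Z R + ∑ v ∈ W, hm m (s v) - ((eb H s (R ∪ W) : ℝ) - eb H s R) * ii m π := by
  classical
  induction hT with
  | empty =>
    intro _
    simp
  | @insert W w _ hwR hwW hone ih =>
    intro hW
    have hwS : w ∈ S := hW (Finset.mem_insert_self _ _)
    have hWS : W ⊆ S := (Finset.subset_insert _ _).trans hW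
    have ih' := ih hWS
    have hn : w ∉ R ∪ W := by
      rw [Finset.mem_union]
      exact fun h => h.elim hwR hwW
    have hRW : R ∪ W ⊆ S := Finset.union_subset hR hWS
    have e0 : R ∪ insert w W = insert w (R ∪ W) := Finset.union_insert _ _ _
    rw [e0, Finset.sum_insert hwW]
    by_cases hx : ∃ x ∈ R ∪ W, H.Adj w x
    · obtain ⟨x, hx, hwx⟩ := hx
      have h1 := he_submod (Z := Z) h.nonneg {w} (R ∪ W) {x}
      have f1 : {w} ∪ (R ∪ W) ∪ {x} = insert w (R ∪ W) := by
        ext y
        simp only [Finset.mem_union, Finset.mem_singleton, Finset.mem_insert]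
        constructor
        · rintro ((h | h) | rfl)
          · exact Or.inl h
          · exact Or.inr h
          · exact Or.inr (Finset.mem_union.1 hx)
        · rintro (h | h)
          · exact Or.inl (Or.inl h)
          · exact Or.inl (Or.inr h)
      have f2 : ({w} : Finset V) ∪ {x} = {w, x} := rfl
      have f3 : R ∪ W ∪ {x} = R ∪ W := by
        ext y
        simp only [Finset.mem_union, Finset.mem_singleton]
        constructor
        · rintro (h | rfl)
          · exact h
          · exact Finset.mem_union.1 hx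
        · exact Or.inl
      rw [f1, f2, f3, h.he_one (hRW hx), h.he_two hb hs hwS (hRW hx) hwx] at h1
      have h2 : eb H s (insert w (R ∪ W)) = eb H s (R ∪ W) + 1 := by
        rw [eb_insert hs hn (D := {x}) fun y hy => ?_]
        · have : (R ∪ W) ∩ {x} = {x} := Finset.inter_eq_right.2 (Finset.singleton_subset_iff.2 hx)
          rw [this, Finset.card_singleton]
        · rw [Finset.mem_singleton]
          exact ⟨fun hwy => hone y hy x hx hwy hwx, fun hy' => by rw [hy']; exact hwx⟩
      have h3 : hr π - hm m (s x) = hm m (s w) - ii m π := by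
        have h4 := hs _ _ hwx
        unfold ii
        cases h5 : s w <;> cases h6 : s x
        · exact absurd (h5.trans h6.symm) h4
        · ring
        · ring
        · exact absurd (h5.trans h6.symm) h4
      rw [h2]
      push_cast
      linarith
    · have h1 := he_submod (Z := Z) h.nonneg {w} (R ∪ W) ∅
      rw [Finset.union_empty, Finset.union_empty, Finset.union_empty, he_empty h.total,
        h.he_one hwS] at h1
      have f1 : {w} ∪ (R ∪ W) = insert w (R ∪ W) := rfl
      rw [f1] at h1
      have h2 : eb H s (insert w (R ∪ W)) = eb H s (R ∪ W) := by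
        rw [eb_insert hs hn (D := ∅) fun y hy => ?_]
        · simp
        · constructor
          · exact fun h' => absurd ⟨y, hy, h'⟩ hx
          · exact fun h' => absurd h' (by simp)
      rw [h2]
      linarith

/-- the conditional mutual information of the two parts -/
theorem info_le (h : TS m π H s univ C P Z) (hb : Base m π) (hs : ∀ u v, H.Adj u v → s u ≠ s v)
    (hK : Thin H K (tz τ K true) ∨ ∀ v ∉ K, τ v = s v) :
    he P Z (K ∪ sd τ false univ) + he P Z (K ∪ sd τ true univ) - he P Z K - he P Z univ ≤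
      ((eb H s univ : ℝ) + eb H s K - eb H s (K ∪ sd τ false univ) -
        eb H s (K ∪ sd τ true univ)) * ii m π := by
  rcases hK with hK | hK
  · have h1 := thin_le h hb hs hK (Finset.subset_univ _) (Finset.subset_univ _)
    have e1 : K ∪ tz τ K true = K ∪ sd τ true univ := by
      ext v
      simp only [Finset.mem_union, mem_sd, mem_tz, Finset.mem_univ, true_and]
      by_cases hv : v ∈ K <;> simp [hv]
    rw [e1] at h1
    have h2 := h.low (K ∪ sd τ false univ) (Finset.subset_univ _)
    rw [sum_univ_tz (s := τ) K, sum_union_tz] at h2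
    linarith
  · have e1 : ∀ b, K ∪ sd τ b univ = K ∪ sd s b univ := by
      intro b
      ext v
      simp only [Finset.mem_union, mem_sd, Finset.mem_univ, true_and]
      by_cases hv : v ∈ K
      · simp [hv]
      · simp [hv, hK v hv]
    rw [e1, e1]
    have h4 := h.mid K (Finset.subset_univ _)
    rw [eb_c] at h4
    rw [eb_univ (K := K), eb_K, eb_t, eb_f]
    push_cast
    refine h4.trans (le_of_eq ?_)
    ring

end thin

section map

variable {V V₁ U Ω : Type} [Fintype V] [DecidableEq V] [Fintype V₁] [DecidableEq V₁] [Fintype U]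
  [Fintype Ω] {f : V₁ → V} {P : Ω → ℝ} {Z : Ω → V₁ → Option U}

theorem Sep.map (hf : Function.Injective f) {v : V₁} {A B : Finset V₁} (h : Sep P Z univ v A B) :
    Sep P (zf f Z) (univ.image f) (f v) (A.image f) (B.image f) := by
  obtain ⟨_, _, _, h4⟩ := h
  refine ⟨Finset.mem_image_of_mem _ (mem_univ _), Finset.image_subset_image (Finset.subset_univ _),
    Finset.image_subset_image (Finset.subset_univ _), ?_⟩
  rw [← Finset.image_union, ← Finset.image_insert, ← Finset.image_insert, ← Finset.image_insert,
    ← Finset.image_singleton, he_zf hf, he_zf hf, he_zf hf, he_zf hf]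
  exact h4

end map

section main

variable {V V₀ VG : Type} [Fintype V] [DecidableEq V] [Fintype V₀] [DecidableEq V₀] [Fintype VG]
  [DecidableEq VG] {G : SimpleGraph VG} {t : VG → Bool} {H₀ : SimpleGraph V₀} {s₀ : V₀ → Bool}
  {C₀ : V₀ → Finset V₀ → Prop} {M₀ : V₀ → Finset V₀ → Finset V₀ → Prop} {H : SimpleGraph V}
  {s : V → Bool}

/-- **Substitution.** -/
theorem sub_gsid (hG : GSid G t) (he : ∃ u v, G.Adj u v)
    (hc : ∀ b, (univ.filter fun p => t p = b).card ≤ Nat.card G.edgeSet)
    (hs₀ : ∀ u v, H₀.Adj u v → s₀ u ≠ s₀ v) (hH₀ : Net H₀ univ C₀ M₀) (K : Finset V₀)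
    (τ : V₀ → Bool)
    (hK : Thin H₀ K (univ.filter fun v => v ∉ K ∧ τ v = true) ∨ ∀ v ∉ K, τ v = s₀ v)
    (hs : ∀ u v, H.Adj u v → s u ≠ s v) {f : RV t τ K → V} (hf : Function.Injective f)
    (hadj : ∀ a b, H.Adj (f a) (f b) ↔ (relSub G t H₀ τ K).Adj a b)
    (hside : ∀ a, s (f a) = subSide s₀ t τ K a) {C : V → Finset V → Prop}
    {M : V → Finset V → Finset V → Prop}
    (hC : NetExt H (univ.image f)
      (fun v B => ∃ a A, LiftStar G t τ K C₀ a A ∧ v = f a ∧ B = A.image f)
      (fun v A B => ∃ a A' B', LiftSep G t τ K M₀ a A' B' ∧ v = f a ∧ A = A'.image f ∧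
        B = B'.image f) univ C M) :
    GSid H s := by
  classical
  refine ⟨hs, ksid_of_sidLaw ?_ ?_⟩
  · intro e he
    unfold sideEdges at he
    exact (Finset.mem_filter.1 he).2.2
  intro U _ m π m0 m1 pi0 row col
  have hb : Base m π := { m0 := m0, m1 := m1, pi0 := pi0, row := row, col := col }
  have hcard := card_sideEdges G t hG.1
  obtain ⟨Ω₀, _, P₀, Z₀, hT, hM⟩ := Net.law hH₀ hb hs₀
  obtain ⟨Ω, _, P, Z, h, h'⟩ := sub_law (C := C₀) (M := M₀) (τ := τ) (K := K) hG.2
    (one_le_sides hG.1 he false) (one_le_sides hG.1 he true)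
    (by rw [hcard]; exact hc false) (by rw [hcard]; exact hc true) hG.1 hT hM
    (info_le hT hb hs₀ hK)
  obtain ⟨Ω', _, P', Z', hW, _⟩ := NetExt.weak hC hb hs
    ⟨Ω, inferInstance, P, zf f Z, h.map hf hadj hside, by
      rintro v A B ⟨a, A', B', h1, rfl, rfl, rfl⟩
      exact (h' a A' B' h1).map hf⟩
  exact hW.sidLaw hb

end main

end Vale.Agent.P050.H177
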