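import Vale.Agent.P050.Tmpl.WeakMap
import Vale.Agent.P050.Tmpl.Grown
import Vale.Agent.P050.H177.NetDefs

/-!
Separations; laws of net-grown graphs.
-/

set_option linter.unusedSectionVars false

namespace Vale.Agent.P050.H177

open Finset Vale.Agent.P050.Tmpl Vale.Agent.P050.Cart Vale.Agent.P050.Join

variable {V U Ω : Type} [Fintype V] [DecidableEq V] [Fintype U] [Fintype Ω]

/-- `v` separates `A` and `B` -/
def Sep (P : Ω → ℝ) (Z : Ω → V → Option U) (S : Finset V) (v : V) (A B : Finset V) : Prop :=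
  v ∈ S ∧ A ⊆ S ∧ B ⊆ S ∧
    he P Z (insert v A) + he P Z (insert v B) ≤ he P Z (insert v (A ∪ B)) + he P Z {v}

variable {m : Bool → U → ℝ} {π : U → U → ℝ} {H : SimpleGraph V} {s : V → Bool} {S : Finset V}
  {C : V → Finset V → Prop} {M : V → Finset V → Finset V → Prop} {P : Ω → ℝ}
  {Z : Ω → V → Option U} {D : Finset V} {q : (V → Option U) → U → ℝ} {w : V}

theorem he_mono (hP : ∀ ω, 0 ≤ P ω) {R Q : Finset V} (h : R ⊆ Q) : he P Z R ≤ he P Z Q := by
  unfold he
  have h1 : mz Z R = fun ω => rz R (mz Z Q ω) := by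
    funext ω
    rw [rz_mz h]
  rw [h1]
  exact ent_comp_le hP (mz Z Q) (rz R)

theorem Sep.symm {v : V} {A B : Finset V} (h : Sep P Z S v A B) : Sep P Z S v B A := by
  obtain ⟨h1, h2, h3, h4⟩ := h
  refine ⟨h1, h3, h2, ?_⟩
  rw [Finset.union_comm]
  linarith

theorem Sep.triv {v : V} {A : Finset V} (hv : v ∈ S) (hA : A ⊆ S) : Sep P Z S v A ∅ := by
  refine ⟨hv, hA, Finset.empty_subset _, ?_⟩
  rw [Finset.union_empty]
  exact le_rfl

theorem Sep.mono (hP : ∀ ω, 0 ≤ P ω) {v : V} {A B A' B' : Finset V} (h : Sep P Z S v A B)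
    (hA : A' ⊆ A) (hB : B' ⊆ B) : Sep P Z S v A' B' := by
  obtain ⟨h1, h2, h3, h4⟩ := h
  refine ⟨h1, hA.trans h2, hB.trans h3, ?_⟩
  have e1 := he_submod (Z := Z) hP A B' (insert v A')
  have e2 := he_submod (Z := Z) hP A B (insert v B')
  have f1 : A ∪ B' ∪ insert v A' = insert v (A ∪ B') := by
    ext x
    simp only [Finset.mem_union, Finset.mem_insert]
    constructor
    · rintro ((h | h) | h | h)
      · exact Or.inr (Or.inl h)
      · exact Or.inr (Or.inr h)
      · exact Or.inl h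
      · exact Or.inr (Or.inl (hA h))
    · rintro (h | h | h)
      · exact Or.inr (Or.inl h)
      · exact Or.inl (Or.inl h)
      · exact Or.inl (Or.inr h)
  have f2 : A ∪ insert v A' = insert v A := by
    ext x
    simp only [Finset.mem_union, Finset.mem_insert]
    constructor
    · rintro (h | h | h)
      · exact Or.inr h
      · exact Or.inl h
      · exact Or.inr (hA h)
    · rintro (h | h)
      · exact Or.inr (Or.inl h)
      · exact Or.inl h
  have f3 : B' ∪ insert v A' = insert v (A' ∪ B') := by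
    ext x
    simp only [Finset.mem_union, Finset.mem_insert]
    tauto
  have f4 : A ∪ B ∪ insert v B' = insert v (A ∪ B) := by
    ext x
    simp only [Finset.mem_union, Finset.mem_insert]
    constructor
    · rintro ((h | h) | h | h)
      · exact Or.inr (Or.inl h)
      · exact Or.inr (Or.inr h)
      · exact Or.inl h
      · exact Or.inr (Or.inr (hB h))
    · rintro (h | h | h)
      · exact Or.inr (Or.inl h)
      · exact Or.inl (Or.inl h)
      · exact Or.inl (Or.inr h)
  have f5 : A ∪ insert v B' = insert v (A ∪ B') := by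
    ext x
    simp only [Finset.mem_union, Finset.mem_insert]
    tauto
  have f6 : B ∪ insert v B' = insert v B := by
    ext x
    simp only [Finset.mem_union, Finset.mem_insert]
    constructor
    · rintro (h | h | h)
      · exact Or.inr h
      · exact Or.inl h
      · exact Or.inr (hB h)
    · rintro (h | h)
      · exact Or.inr (Or.inl h)
      · exact Or.inl h
  rw [f1, f2, f3] at e1
  rw [f4, f5, f6] at e2
  linarith

section step

variable (hP : ∀ ω, 0 ≤ P ω) (hq : ∀ d u, 0 ≤ q d u)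
  (hst : ∀ ω, P ω ≠ 0 → ∑ u, q (mz Z D ω) u = 1) (hw : w ∉ S)

include hst hw

theorem Sep.old {v : V} {A B : Finset V} (h : Sep P Z S v A B) :
    Sep (pp P Z D q) (zz Z w) (insert w S) v A B := by
  obtain ⟨h1, h2, h3, h4⟩ := h
  have n0 : ∀ T : Finset V, T ⊆ S → w ∉ insert v T := fun T hT h' =>
    (Finset.mem_insert.1 h').elim (fun h'' => hw (h'' ▸ h1)) fun h'' => hw (hT h'')
  refine ⟨Finset.mem_insert_of_mem h1, h2.trans (Finset.subset_insert _ _),
    h3.trans (Finset.subset_insert _ _), ?_⟩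
  have e0 : he (pp P Z D q) (zz Z w) {v} = he P Z {v} := he_old hst (by
    have := n0 ∅ (Finset.empty_subset _)
    simpa using this)
  rw [he_old hst (n0 A h2), he_old hst (n0 B h3), he_old hst (n0 _ (Finset.union_subset h2 h3)), e0]
  exact h4

include hP hq

theorem Sep.new {v : V} {A B : Finset V} (h : Sep P Z S v A B) (hD : D ⊆ insert v B) :
    Sep (pp P Z D q) (zz Z w) (insert w S) v A (insert w B) := by
  obtain ⟨h1, h2, h3, h4⟩ := h
  have n0 : ∀ T : Finset V, T ⊆ S → w ∉ insert v T := fun T hT h' =>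
    (Finset.mem_insert.1 h').elim (fun h'' => hw (h'' ▸ h1)) fun h'' => hw (hT h'')
  refine ⟨Finset.mem_insert_of_mem h1, h2.trans (Finset.subset_insert _ _),
    Finset.insert_subset_insert _ h3, ?_⟩
  have e0 : he (pp P Z D q) (zz Z w) {v} = he P Z {v} := he_old hst (by
    have := n0 ∅ (Finset.empty_subset _)
    simpa using this)
  have f1 : insert v (insert w B) = insert w (insert v B) := Finset.insert_comm _ _ _
  have f2 : insert v (A ∪ insert w B) = insert w (insert v (A ∪ B)) := by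
    rw [Finset.union_insert, Finset.insert_comm]
  rw [he_old hst (n0 A h2), f1, f2, he_new (n0 B h3), he_new (n0 _ (Finset.union_subset h2 h3)), e0]
  have g1 := gg_ge hP hq hst (insert v (A ∪ B))
  have g2 := gg_le hP hq hst (insert v B)
  rw [Finset.inter_eq_right.2 hD] at g2
  linarith

theorem sep_next (h : ∀ v A B, M v A B → Sep P Z S v A B) {v : V} {A B : Finset V}
    (h' : NextM S M w D v A B) : Sep (pp P Z D q) (zz Z w) (insert w S) v A B := by
  rcases h' with h' | ⟨B', h1, h2, rfl⟩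
  · exact (h v A B h').old hst hw
  · have h3 : Sep P Z S v A B' := by
      rcases h1 with h1 | h1 | ⟨rfl, h1, h4⟩
      · exact h v A B' h1
      · exact (h v B' A h1).symm
      · exact Sep.triv h1 h4
    exact h3.new hP hq hst hw h2

end step

theorem hm_le_hr (hb : Base m π) (b : Bool) : hm m b ≤ hr π := by
  rw [← ent_pb hb]
  cases b
  · rw [← ent_pb_fst hb]
    exact ent_comp_le (pb_nonneg hb) (fun p => p) fun p => p.1
  · rw [← ent_pb_snd hb]
    exact ent_comp_le (pb_nonneg hb) (fun p => p) fun p => p.2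

/-- the union of two stars separated by their centre -/
theorem star_union (hb : Base m π) (hP : ∀ ω, 0 ≤ P ω) {v : V} {A B A' B' : Finset V}
    (hv : he P Z {v} = hm m (s v)) (h : Sep P Z S v A B) (hA : A' ⊆ A) (hB : B' ⊆ B)
    (h1 : hm m (s v) + (A'.card : ℝ) * (hr π - hm m (s v)) ≤ he P Z (insert v A'))
    (h2 : hm m (s v) + (B'.card : ℝ) * (hr π - hm m (s v)) ≤ he P Z (insert v B')) :
    hm m (s v) + ((A' ∪ B').card : ℝ) * (hr π - hm m (s v)) ≤ he P Z (insert v (A' ∪ B')) := by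
  obtain ⟨_, _, _, h3⟩ := h.mono hP hA hB
  have h4 : ((A' ∪ B').card : ℝ) ≤ (A'.card : ℝ) + B'.card := by
    exact_mod_cast Finset.card_union_le A' B'
  have h5 := hm_le_hr hb (s v)
  rw [hv] at h3
  nlinarith

section kernels

variable (h : TW m π H s S C P Z)

include h

theorem ql_nn (hb : Base m π) (v : V) (d : V → Option U) (u : U) : 0 ≤ ql m π s v d u := by
  unfold ql
  cases d v with
  | none => exact le_rfl
  | some x => exact div_nonneg (kp_nonneg hb _ _ _) (hb.m0 _ _)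

theorem ql_one (hb : Base m π) {v : V} (hvS : v ∈ S) (ω : Ω) (h0 : P ω ≠ 0) :
    ∑ u, ql m π s v (mz Z {v} ω) u = 1 := by
  obtain ⟨x, hx⟩ := Option.isSome_iff_exists.1 (h.inn ω h0 v hvS)
  have h1 := h.pos hvS h0 hx
  unfold ql
  rw [mz_self (Finset.mem_singleton_self v), hx]
  simp only [Option.elim_some]
  rw [← Finset.sum_div, sum_kp hb, div_self h1]

theorem qc_one {v : V} (hvS : v ∈ S) (ω : Ω) (h0 : P ω ≠ 0) :
    ∑ u, qc P Z D v (mz Z D ω) u = 1 := by
  rw [← sum_ker (mz Z D) (fun ω => Z ω v) (mar_ne_zero h.nonneg (mz Z D) h0),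
    Fintype.sum_option, h.qc_none hvS, zero_add]
  rfl

end kernels

/-- the law of a net-grown graph -/
theorem NetExt.strong {S₀ S : Finset V} {C₀ C : V → Finset V → Prop}
    {M₀ M : V → Finset V → Finset V → Prop} (h : NetExt H S₀ C₀ M₀ S C M) (hb : Base m π)
    (hs : ∀ u v, H.Adj u v → s u ≠ s v)
    (h₀ : ∃ (Ω : Type) (_ : Fintype Ω) (P : Ω → ℝ) (Z : Ω → V → Option U),
      TS m π H s S₀ C₀ P Z ∧ ∀ v A B, M₀ v A B → Sep P Z S₀ v A B) :
    ∃ (Ω : Type) (_ : Fintype Ω) (P : Ω → ℝ) (Z : Ω → V → Option U),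
      TS m π H s S C P Z ∧ ∀ v A B, M v A B → Sep P Z S v A B := by
  induction h with
  | base => exact h₀
  | isolated w _ hw hadj ih =>
    obtain ⟨Ω, i, P, Z, h, h'⟩ := ih
    refine ⟨Ω × U, inferInstance, _, _, h.isolated hb hs hw hadj, fun v A B hM =>
      sep_next h.nonneg (fun _ _ => hb.m0 _ _) (fun _ _ => hb.m1 _) hw h' hM⟩
  | leaf w v _ hw hv hadj ih =>
    obtain ⟨Ω, i, P, Z, h, h'⟩ := ih
    refine ⟨Ω × U, inferInstance, _, _, h.leaf hb hs hw hv hadj, fun v' A B hM =>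
      sep_next h.nonneg (ql_nn h.weaken hb v) (ql_one h.weaken hb hv) hw h' hM⟩
  | copy w v D₀ D _ hw hC hD hne hadj ih =>
    obtain ⟨Ω, i, P, Z, h, h'⟩ := ih
    refine ⟨Ω × U, inferInstance, _, _, h.copy hb hs hw hC hD hne hadj, fun v' A B hM =>
      sep_next h.nonneg (fun d u => ker_nonneg h.nonneg _ _ _ _)
        (qc_one h.weaken (h.star v D₀ hC).1) hw h' hM⟩
  | star v A B A' B' _ hA' hB' hM hA hB ih =>
    obtain ⟨Ω, i, P, Z, h, h'⟩ := ih
    refine ⟨Ω, i, P, Z, { h with star := ?_ }, h'⟩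
    rintro a D (hD | ⟨rfl, rfl⟩)
    · exact h.star a D hD
    · obtain ⟨a1, a2, a3, a4⟩ := h.star a A' hA'
      obtain ⟨_, b2, b3, b4⟩ := h.star a B' hB'
      refine ⟨a1, Finset.union_subset a2 b2, ?_, star_union hb h.nonneg (h.he_one a1)
        (h' a A B hM) hA hB a4 b4⟩
      intro d hd
      exact (Finset.mem_union.1 hd).elim (a3 d) (b3 d)

/-- the law of a net extension -/
theorem NetExt.weak {S₀ S : Finset V} {C₀ C : V → Finset V → Prop}
    {M₀ M : V → Finset V → Finset V → Prop} (h : NetExt H S₀ C₀ M₀ S C M) (hb : Base m π)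
    (hs : ∀ u v, H.Adj u v → s u ≠ s v)
    (h₀ : ∃ (Ω : Type) (_ : Fintype Ω) (P : Ω → ℝ) (Z : Ω → V → Option U),
      TW m π H s S₀ C₀ P Z ∧ ∀ v A B, M₀ v A B → Sep P Z S₀ v A B) :
    ∃ (Ω : Type) (_ : Fintype Ω) (P : Ω → ℝ) (Z : Ω → V → Option U),
      TW m π H s S C P Z ∧ ∀ v A B, M v A B → Sep P Z S v A B := by
  induction h with
  | base => exact h₀
  | isolated w _ hw hadj ih =>
    obtain ⟨Ω, i, P, Z, h, h'⟩ := ih
    refine ⟨Ω × U, inferInstance, _, _, h.isolated hb hs hw hadj, fun v A B hM =>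
      sep_next h.nonneg (fun _ _ => hb.m0 _ _) (fun _ _ => hb.m1 _) hw h' hM⟩
  | leaf w v _ hw hv hadj ih =>
    obtain ⟨Ω, i, P, Z, h, h'⟩ := ih
    refine ⟨Ω × U, inferInstance, _, _, h.leaf hb hs hw hv hadj, fun v' A B hM =>
      sep_next h.nonneg (ql_nn h hb v) (ql_one h hb hv) hw h' hM⟩
  | copy w v D₀ D _ hw hC hD hne hadj ih =>
    obtain ⟨Ω, i, P, Z, h, h'⟩ := ih
    refine ⟨Ω × U, inferInstance, _, _, h.copy hb hs hw hC hD hne hadj, fun v' A B hM =>
      sep_next h.nonneg (fun d u => ker_nonneg h.nonneg _ _ _ _)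
        (qc_one h (h.star v D₀ hC).1) hw h' hM⟩
  | star v A B A' B' _ hA' hB' hM hA hB ih =>
    obtain ⟨Ω, i, P, Z, h, h'⟩ := ih
    refine ⟨Ω, i, P, Z, { h with star := ?_ }, h'⟩
    rintro a D (hD | ⟨rfl, rfl⟩)
    · exact h.star a D hD
    · obtain ⟨a1, a2, a3, a4⟩ := h.star a A' hA'
      obtain ⟨_, b2, b3, b4⟩ := h.star a B' hB'
      refine ⟨a1, Finset.union_subset a2 b2, ?_, star_union hb h.nonneg (h.he_one a1)
        (h' a A B hM) hA hB a4 b4⟩
      intro d hd
      exact (Finset.mem_union.1 hd).elim (a3 d) (b3 d)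

theorem Net.law {S : Finset V} {C : V → Finset V → Prop} {M : V → Finset V → Finset V → Prop}
    (h : Net H S C M) (hb : Base m π) (hs : ∀ u v, H.Adj u v → s u ≠ s v) :
    ∃ (Ω : Type) (_ : Fintype Ω) (P : Ω → ℝ) (Z : Ω → V → Option U),
      TS m π H s S C P Z ∧ ∀ v A B, M v A B → Sep P Z S v A B :=
  NetExt.strong h hb hs ⟨Unit, inferInstance, _, _, TS.empty m π H s, fun _ _ _ h => h.elim⟩

end Vale.Agent.P050.H177
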