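import Vale.Agent.P050.H177.Two
import Vale.Agent.P050.H125.Sharp5

set_option linter.all false

/-!
Two Moebius ladders and four-cycles.
-/

namespace Vale.Agent.P050.H177

open Finset Vale.Agent.P050.H148 Vale.Agent.P050.H180

theorem twoD_of {X : Type*} [Fintype X] [DecidableEq X] [Nonempty X] {W : X → X → ℝ}
    (hW : ∀ x y, 0 < W x y) (hs : ∀ x y, W x y = W y x) {M : ℕ} (hM : 1 ≤ M) : TwoD W M := by
  have h := Vale.Agent.P050.H125.two_D hW hs M hM
  have e : Vale.Agent.P050.H125.ccc W =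
      ∑ c : X × X, cod W c.1 c.2 ^ 2 / zc W * Real.log (cod W c.1 c.2) := by
    rw [Fintype.sum_prod_type]
    rfl
  rw [e] at h
  unfold TwoD
  refine le_trans (le_of_eq ?_) h
  ring

/-- two Moebius ladders, for graphs -/
theorem sharp_graph {X : Type*} [Fintype X] (G : SimpleGraph X) [Nonempty X] (k : ℕ) (hk : Odd k)
    (h5 : 5 ≤ k) : homDensity (SimpleGraph.cycleGraph 4) G ^ (2 * k + 1) ≤
      edgeDensity G ^ (2 * k + 2) * homDensity (moebiusLadder k) G ^ 2 := by
  classical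
  obtain ⟨i, hi⟩ := hk
  obtain ⟨M, rfl⟩ : ∃ M, i = M + 1 := ⟨i - 1, by omega⟩
  have e : k = 2 * M + 3 := by omega
  subst e
  have h := two_graph G M fun V hV hs => twoD_of hV hs (by omega)
  have e1 : 4 * M + 7 = 2 * (2 * M + 3) + 1 := by ring
  have e2 : 4 * M + 8 = 2 * (2 * M + 3) + 2 := by ring
  rwa [e1, e2] at h

end Vale.Agent.P050.H177
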