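import Vale.Agent.P050.Tmpl.WeakMap
import Vale.Agent.P050.H177.Net
import Vale.Agent.P050.H177.Count

/-!
The law of a substitution, with its stars and separations.
-/

set_option linter.unusedSectionVars false

namespace Vale.Agent.P050.H177

open Finset Vale.Agent.P050.Tmpl Vale.Agent.P050.Lev Vale.Agent.P050.Cart Vale.Agent.P050.Join

section

variable {V VG : Type} [Fintype V] [DecidableEq V] [Fintype VG] [DecidableEq VG]
  {G : SimpleGraph VG} {t : VG → Bool} {H : SimpleGraph V} {s τ : V → Bool} {K : Finset V}
  {C : V → Finset V → Prop} {M : V → Finset V → Finset V → Prop}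

theorem sum_sub_hm (f : Bool → ℝ) : ∑ w : RV t τ K, f (subSide s t τ K w) =
    ∑ v ∈ K, f (s v) + (univ.filter fun p => t p = false).card * ∑ v ∈ tz τ K false, f (s v) +
      (univ.filter fun p => t p = true).card * ∑ v ∈ tz τ K true, f (s v) := by
  rw [sum_rel (t := t) (s := τ) (K := K) (fun w => f (subSide s t τ K w)) (fun v => f (s v))
    (fun _ v => f (s v)) (fun v => rfl) (fun p => rfl)]
  have h1 : ∑ v ∈ K, f (s v) = ∑ v, if v ∈ K then f (s v) else 0 := by
    rw [Finset.sum_ite_mem, Finset.univ_inter]
  have h2 : ∀ b, ∑ v ∈ tz τ K b, f (s v) = ∑ v, if v ∉ K ∧ τ v = b then f (s v) else 0 := by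
    intro b
    unfold tz
    rw [Finset.sum_filter]
  rw [h1, h2, h2, add_assoc]
  congr 1
  rw [Finset.mul_sum, Finset.mul_sum, ← Finset.sum_add_distrib]
  refine Finset.sum_congr rfl fun v _ => ?_
  by_cases hv : v ∈ K
  · simp [hv]
  · rw [if_neg hv, ← Finset.sum_filter, Finset.sum_const, nsmul_eq_mul]
    cases hsv : τ v <;> simp [hv]

/-- the lift of the vertices along an edge -/
theorem exists_lift (htG : ∀ p q, G.Adj p q → t p ≠ t q) {p' q' : VG} (hpq' : G.Adj p' q')
    (τ : V → Bool) (K : Finset V) :
    ∃ (θ : V → RV t τ K) (p q : VG), (p, q) ∈ sideEdges G t ∧ Function.Injective θ ∧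
      (∀ w b, Lift p' q' w b ↔ b = θ w) ∧ (∀ s : V → Bool, ∀ w, subSide s t τ K (θ w) = s w) ∧
      (∀ (H : SimpleGraph V) w w', H.Adj w w' → (relSub G t H τ K).Adj (θ w) (θ w')) ∧
      ∀ (U : Type) (x : (V → Option U) × (VG → (V → Option U))) (w : V),
        zr t τ K x (θ w) = if w ∈ K then x.1 w else if τ w = false then x.2 p w
          else x.2 q w := by
  classical
  obtain ⟨p, q, hpq, hp, hsw⟩ : ∃ p q, G.Adj p q ∧ t p = false ∧
      ∀ (w : V) (b : RV t τ K), Lift p' q' w b ↔ Lift p q w b := by
    cases h1 : t p'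
    · exact ⟨p', q', hpq', h1, fun _ _ => Iff.rfl⟩
    · refine ⟨q', p', hpq'.symm, ?_, ?_⟩
      · have := htG p' q' hpq'
        rw [h1] at this
        cases h2 : t q'
        · rfl
        · exact absurd h2.symm this
      · rintro w (u | x)
        · exact Iff.rfl
        · unfold Lift
          exact and_congr_right fun _ => Or.comm
  have hq : t q = true := by
    have := htG p q hpq
    rw [hp] at this
    cases h : t q
    · exact absurd h.symm this
    · rfl
  have hst : ∀ w, ¬ τ w = false → τ w = true := by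
    intro w h
    cases h' : τ w
    · exact absurd h' h
    · rfl
  let θ : V → RV t τ K := fun w => if h : w ∈ K then Sum.inl ⟨w, h⟩ else
    if h' : τ w = false then Sum.inr ⟨(p, w), h, hp.trans h'.symm⟩ else
      Sum.inr ⟨(q, w), h, hq.trans (hst w h').symm⟩
  have θ1 : ∀ w (h : w ∈ K), θ w = Sum.inl ⟨w, h⟩ := fun w h => dif_pos h
  have θ2 : ∀ w (h : w ∉ K) (h' : τ w = false), θ w = Sum.inr ⟨(p, w), h, hp.trans h'.symm⟩ :=
    fun w h h' => (dif_neg h).trans (dif_pos h')
  have θ3 : ∀ w (h : w ∉ K) (h' : ¬ τ w = false), θ w =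
      Sum.inr ⟨(q, w), h, hq.trans (hst w h').symm⟩ :=
    fun w h h' => (dif_neg h).trans (dif_neg h')
  have hθ : ∀ (w : V) (b : RV t τ K), Lift p q w b ↔ b = θ w := by
    intro w b
    by_cases h : w ∈ K
    · rw [θ1 w h]
      rcases b with u | x
      · unfold Lift
        constructor
        · intro h2
          exact congrArg Sum.inl (Subtype.ext h2)
        · intro h2
          exact congrArg Subtype.val (Sum.inl.inj h2)
      · unfold Lift
        constructor
        · intro h2
          exact absurd (h2.1 ▸ h) x.2.1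
        · intro h2
          exact absurd h2 (by simp)
    · by_cases h' : τ w = false
      · rw [θ2 w h h']
        rcases b with u | x
        · unfold Lift
          constructor
          · intro h2
            exact absurd (h2 ▸ u.2) h
          · intro h2
            exact absurd h2 (by simp)
        · unfold Lift
          constructor
          · rintro ⟨h2, h3 | h3⟩
            · exact congrArg Sum.inr (Subtype.ext (Prod.ext h3 h2))
            · have h4 := x.2.2
              rw [h3, h2, hq, h'] at h4
              exact absurd h4 (by decide)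
          · intro h2
            have h3 := congrArg Subtype.val (Sum.inr.inj h2)
            exact ⟨congrArg Prod.snd h3, Or.inl (congrArg Prod.fst h3)⟩
      · have h'' : τ w = true := hst w h'
        rw [θ3 w h h']
        rcases b with u | x
        · unfold Lift
          constructor
          · intro h2
            exact absurd (h2 ▸ u.2) h
          · intro h2
            exact absurd h2 (by simp)
        · unfold Lift
          constructor
          · rintro ⟨h2, h3 | h3⟩
            · have h4 := x.2.2
              rw [h3, h2, hp, h''] at h4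
              exact absurd h4 (by decide)
            · exact congrArg Sum.inr (Subtype.ext (Prod.ext h3 h2))
          · intro h2
            have h3 := congrArg Subtype.val (Sum.inr.inj h2)
            exact ⟨congrArg Prod.snd h3, Or.inr (congrArg Prod.fst h3)⟩
  refine ⟨θ, p, q, ?_, ?_, fun w b => (hsw w b).trans (hθ w b), ?_, ?_, ?_⟩
  · unfold sideEdges
    rw [Finset.mem_filter]
    exact ⟨mem_univ _, hpq, hp, hq⟩
  · intro w w' h
    have h1 : Lift p q w (θ w) := (hθ w _).2 rfl
    have h2 : Lift p q w' (θ w) := (hθ w' _).2 h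
    revert h1 h2
    rcases θ w with u | x
    · exact fun h1 h2 => h1.symm.trans h2
    · exact fun h1 h2 => h1.1.symm.trans h2.1
  · intro s w
    by_cases h : w ∈ K
    · rw [θ1 w h]
      rfl
    · by_cases h' : τ w = false
      · rw [θ2 w h h']
        rfl
      · rw [θ3 w h h']
        rfl
  · intro H w w' hww
    by_cases h : w ∈ K <;> by_cases h1 : w' ∈ K
    · rw [θ1 w h, θ1 w' h1]
      exact hww
    · by_cases h' : τ w' = false
      · rw [θ1 w h, θ2 w' h1 h']
        exact hww
      · rw [θ1 w h, θ3 w' h1 h']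
        exact hww
    · by_cases h' : τ w = false
      · rw [θ2 w h h', θ1 w' h1]
        exact hww
      · rw [θ3 w h h', θ1 w' h1]
        exact hww
    · by_cases h' : τ w = false <;> by_cases h2 : τ w' = false
      · rw [θ2 w h h', θ2 w' h1 h2]
        exact ⟨Or.inl rfl, hww⟩
      · rw [θ2 w h h', θ3 w' h1 h2]
        exact ⟨Or.inr hpq, hww⟩
      · rw [θ3 w h h', θ2 w' h1 h2]
        exact ⟨Or.inr hpq.symm, hww⟩
      · rw [θ3 w h h', θ3 w' h1 h2]
        exact ⟨Or.inl rfl, hww⟩
  · intro U x w
    by_cases h : w ∈ K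
    · rw [θ1 w h, if_pos h]
      rfl
    · by_cases h' : τ w = false
      · rw [θ2 w h h', if_neg h, if_pos h']
        rfl
      · rw [θ3 w h h', if_neg h, if_neg h']
        rfl

/-- **The law of a substitution.** -/
theorem sub_law {U : Type} [Fintype U] {m : Bool → U → ℝ} {π : U → U → ℝ}
    (hG : KSid (sideEdges G t) t)
    (hn : 1 ≤ (univ.filter fun p => t p = false).card)
    (hk : 1 ≤ (univ.filter fun p => t p = true).card)
    (hne : (univ.filter fun p => t p = false).card ≤ (sideEdges G t).card)
    (hke : (univ.filter fun p => t p = true).card ≤ (sideEdges G t).card)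
    (htG : ∀ p q, G.Adj p q → t p ≠ t q) {Ω : Type} [Fintype Ω] {P : Ω → ℝ}
    {Z : Ω → V → Option U} (hT : TS m π H s univ C P Z)
    (hM : ∀ v A B, M v A B → Sep P Z univ v A B)
    (hI : he P Z (K ∪ sd τ false univ) + he P Z (K ∪ sd τ true univ) - he P Z K - he P Z univ ≤
      ((eb H s univ : ℝ) + eb H s K - eb H s (K ∪ sd τ false univ) -
        eb H s (K ∪ sd τ true univ)) * ii m π) :
    ∃ (Ω' : Type) (_ : Fintype Ω') (P' : Ω' → ℝ) (Z' : Ω' → RV t τ K → Option U),
      TW m π (relSub G t H τ K) (subSide s t τ K) univ (LiftStar G t τ K C) P' Z' ∧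
        ∀ a A B, LiftSep G t τ K M a A B → Sep P' Z' univ a A B := by
  classical
  have hP := hT.nonneg
  set fn : Ω → (V → Option U) × (V → Option U) × (V → Option U) :=
    fun ω => (mz Z K ω, mz Z (tz τ K false) ω, mz Z (tz τ K true) ω) with hfn
  set L := mar P fn with hLdef
  have hL : ∀ ω, 0 ≤ L ω := mar_nonneg hP _
  have hL1 : ∑ ω, L ω = 1 := by rw [hLdef, mar_total, hT.total]
  obtain ⟨μ, hμ⟩ := exists_mu hL hG
  set Λ := lam L μ with hΛ
  have hΛ0 : ∀ x, 0 ≤ Λ x := lam_nonneg hL hμ
  have hLP : ∀ F : (V → Option U) × (V → Option U) × (V → Option U) → ℝ,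
      ∑ ω, L ω * F ω = ∑ ω, P ω * F (fn ω) := sum_mar P fn
  have q1 : ∀ F : (V → Option U) → ℝ, ∑ x, Λ x * F x.1 = ∑ ω, P ω * F (mz Z K ω) := by
    intro F
    rw [hΛ, sum_lam hL hμ F, hLP fun ω => F ω.1]
  have q2 : ∀ (p : VG) (F : (V → Option U) → (V → Option U) → ℝ),
      ∑ x, Λ x * F x.1 (x.2 p) = ∑ ω, P ω * F (mz Z K ω) (mz Z (tz τ K (t p)) ω) := by
    intro p F
    rw [hΛ, sum_lam_vertex hL hμ p F, hLP fun ω => F ω.1 (if t p then ω.2.2 else ω.2.1)]
    refine Finset.sum_congr rfl fun ω _ => ?_
    cases t p <;> simp [hfn]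
  have q3 : ∀ e ∈ sideEdges G t, ∀ F : (V → Option U) → (V → Option U) → (V → Option U) → ℝ,
      ∑ x, Λ x * F x.1 (x.2 e.1) (x.2 e.2) =
        ∑ ω, P ω * F (mz Z K ω) (mz Z (tz τ K false) ω) (mz Z (tz τ K true) ω) := by
    intro e he F
    rw [hΛ, sum_lam_edge hL hμ he F, hLP fun ω => F ω.1 ω.2.1 ω.2.2]
  have htz : ∀ p : {p : VG × V // p.2 ∉ K ∧ t p.1 = τ p.2}, p.1.2 ∈ tz τ K (t p.1.1) := fun p =>
    mem_tz.2 ⟨p.2.1, p.2.2.symm⟩
  have a1 : ∀ x, Λ x ≠ 0 → ∀ v, (x.1 v).isSome = decide (v ∈ K) := by
    intro x hx v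
    by_contra h
    have h0 : (if ¬ (x.1 v).isSome = decide (v ∈ K) then (1 : ℝ) else 0) = 0 := by
      refine null_event hΛ0 (F := fun x => if ¬ (x.1 v).isSome = decide (v ∈ K) then 1 else 0)
        (fun x => ite_nonneg) ?_ hx
      refine (q1 fun c => if ¬ (c v).isSome = decide (v ∈ K) then 1 else 0).trans ?_
      refine Finset.sum_eq_zero fun ω _ => mul_eq_zero_of_right _ (if_neg ?_)
      rw [not_not]
      by_cases hv : v ∈ K
      · rw [mz_self hv, hT.inn ω v (mem_univ v)]
        simp [hv]
      · simp [mz, hv]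
    rw [if_pos h] at h0
    exact one_ne_zero h0
  have a2 : ∀ x, Λ x ≠ 0 → ∀ p v, (x.2 p v).isSome = decide (v ∉ K ∧ t p = τ v) := by
    intro x hx p v
    by_contra h
    have h0 : (if ¬ (x.2 p v).isSome = decide (v ∉ K ∧ t p = τ v) then (1 : ℝ) else 0) = 0 := by
      refine null_event hΛ0
        (F := fun x => if ¬ (x.2 p v).isSome = decide (v ∉ K ∧ t p = τ v) then 1 else 0)
        (fun x => ite_nonneg) ?_ hx
      refine (q2 p fun _ c => if ¬ (c v).isSome = decide (v ∉ K ∧ t p = τ v) then 1
        else 0).trans ?_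
      refine Finset.sum_eq_zero fun ω _ => mul_eq_zero_of_right _ (if_neg ?_)
      rw [not_not]
      by_cases hv : v ∈ tz τ K (t p)
      · rw [mz_self hv, hT.inn ω v (mem_univ v)]
        rw [mem_tz] at hv
        simp [hv.1, hv.2]
      · have hv' : ¬ (v ∉ K ∧ t p = τ v) := fun h' => hv (mem_tz.2 ⟨h'.1, h'.2.symm⟩)
        unfold mz
        rw [if_neg hv, decide_eq_false hv']
        rfl
    rw [if_pos h] at h0
    exact one_ne_zero h0
  have hmem : ∀ p q, G.Adj p q → t p = false → (p, q) ∈ sideEdges G t ∧ t q = true := by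
    intro p q hpq hp
    have hq : t q = true := by
      have := htG p q hpq
      rw [hp] at this
      cases h : t q
      · exact absurd h.symm this
      · rfl
    unfold sideEdges
    rw [Finset.mem_filter]
    exact ⟨⟨mem_univ _, hpq, hp, hq⟩, hq⟩
  -- the law of the lifts
  have hlaw : ∀ (θ : V → RV t τ K) (p q : VG), (p, q) ∈ sideEdges G t →
      (∀ (x : (V → Option U) × (VG → (V → Option U))) (w : V), zr t τ K x (θ w) =
        if w ∈ K then x.1 w else if τ w = false then x.2 p w else x.2 q w) →
      ∀ T : Finset V, he Λ (zr t τ K) (T.image θ) = he P Z T := by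
    intro θ p q hpq hz T
    let φ : (V → Option U) × (V → Option U) × (V → Option U) → V → Option U := fun c w =>
      if w ∈ T then (if w ∈ K then c.1 w else if τ w = false then c.2.1 w else c.2.2 w) else none
    have e1 : he Λ (zr t τ K) (T.image θ) = ent Λ (fun x => φ (x.1, x.2 p, x.2 q)) := by
      unfold he
      refine ent_fib fun x y => ?_
      rw [mz_eq]
      constructor
      · intro h
        funext w
        simp only [φ]
        by_cases hw : w ∈ T
        · rw [if_pos hw, if_pos hw, ← hz x w, ← hz y w]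
          exact h _ (Finset.mem_image_of_mem _ hw)
        · rw [if_neg hw, if_neg hw]
      · intro h b hb
        obtain ⟨w, hw, rfl⟩ := Finset.mem_image.1 hb
        have h1 := congrFun h w
        simp only [φ] at h1
        rw [if_pos hw, if_pos hw, ← hz x w, ← hz y w] at h1
        exact h1
    have e2 : ent Λ (fun x => φ (x.1, x.2 p, x.2 q)) = ent P (fun ω => φ (fn ω)) :=
      ent_law fun c => mar_of_sum (fun F => q3 _ hpq fun c d e => F (φ (c, d, e))) c
    have e3 : ent P (fun ω => φ (fn ω)) = he P Z T := by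
      unfold he
      refine ent_fib fun ω ω' => ?_
      rw [mz_eq]
      have hz : ∀ (ω : Ω) (w : V), (if w ∈ K then (fn ω).1 w else if τ w = false then
          (fn ω).2.1 w else (fn ω).2.2 w) = Z ω w := by
        intro ω w
        by_cases h : w ∈ K
        · rw [if_pos h]
          exact mz_self h ω
        · rw [if_neg h]
          by_cases h' : τ w = false
          · rw [if_pos h']
            exact mz_self (mem_tz.2 ⟨h, h'⟩) ω
          · rw [if_neg h']
            refine mz_self (mem_tz.2 ⟨h, ?_⟩) ω
            cases h'' : τ w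
            · exact absurd h'' h'
            · rfl
      constructor
      · intro h w hw
        have h1 := congrFun h w
        simp only [φ] at h1
        rw [if_pos hw, if_pos hw, hz, hz] at h1
        exact h1
      · intro h
        funext w
        simp only [φ]
        by_cases hw : w ∈ T
        · rw [if_pos hw, if_pos hw, hz, hz]
          exact h w hw
        · rw [if_neg hw, if_neg hw]
    rw [e1, e2, e3]
  have himg : ∀ (θ : V → RV t τ K) (p' q' : VG), (∀ w b, Lift p' q' w b ↔ b = θ w) →
      ∀ (B : Finset (RV t τ K)) (D : Finset V), (∀ b, b ∈ B ↔ ∃ w ∈ D, Lift p' q' w b) →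
        B = D.image θ := by
    intro θ p' q' hθ B D hB
    ext b
    rw [hB, Finset.mem_image]
    exact ⟨fun ⟨w, h1, h2⟩ => ⟨w, h1, ((hθ w b).1 h2).symm⟩,
      fun ⟨w, h1, h2⟩ => ⟨w, h1, (hθ w b).2 h2.symm⟩⟩
  refine ⟨_, inferInstance, Λ, zr t τ K, ⟨hΛ0, lam_total hL hμ hL1,
    fun _ v hv => absurd (mem_univ v) hv, ?_, ?_, ?_, ?_, ?_⟩, ?_⟩
  · intro x hx w _
    rcases w with v | p
    · change (x.1 v).isSome = true
      rw [a1 x hx v]
      simp
    · change (x.2 p.1.1 p.1.2).isSome = true
      rw [a2 x hx]
      simp [p.2.1, p.2.2]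
  · intro w _ F
    rcases w with v | p
    · refine (q1 fun c => F (c v)).trans ?_
      refine Eq.trans (Finset.sum_congr rfl fun ω _ => ?_) (hT.vert v (mem_univ _) F)
      rw [mz_self v.2]
    · refine (q2 p.1.1 fun _ c => F (c p.1.2)).trans ?_
      refine Eq.trans (Finset.sum_congr rfl fun ω _ => ?_) (hT.vert p.1.2 (mem_univ _) F)
      rw [mz_self (htz p)]
  · intro a _ b _ hadj ha F
    rcases a with u | p <;> rcases b with v | q
    · refine (q1 fun c => F (c u) (c v)).trans ?_
      have h1 := hT.edge u (mem_univ _) v (mem_univ _) hadj ha F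
      refine Eq.trans (Finset.sum_congr rfl fun ω _ => ?_) h1
      rw [mz_self u.2, mz_self v.2]
    · refine (q2 q.1.1 fun c d => F (c u) (d q.1.2)).trans ?_
      have h1 := hT.edge u (mem_univ _) q.1.2 (mem_univ _) hadj ha F
      refine Eq.trans (Finset.sum_congr rfl fun ω _ => ?_) h1
      rw [mz_self u.2, mz_self (htz q)]
    · refine (q2 p.1.1 fun c d => F (d p.1.2) (c v)).trans ?_
      have h1 := hT.edge p.1.2 (mem_univ _) v (mem_univ _) hadj ha F
      refine Eq.trans (Finset.sum_congr rfl fun ω _ => ?_) h1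
      rw [mz_self v.2, mz_self (htz p)]
    · have hadj2 : H.Adj p.1.2 q.1.2 := hadj.2
      have h1 := hT.edge p.1.2 (mem_univ _) q.1.2 (mem_univ _) hadj2 ha F
      have hp := htz p
      have hq := htz q
      rcases hadj.1 with hpq | hpq
      · refine Eq.trans (Finset.sum_congr rfl fun x _ => ?_)
          ((q2 p.1.1 fun _ c => F (c p.1.2) (c q.1.2)).trans
            (Eq.trans (Finset.sum_congr rfl fun ω _ => ?_) h1))
        · change Λ x * F (x.2 p.1.1 p.1.2) (x.2 q.1.1 q.1.2) = _
          rw [← hpq]
        · rw [mz_self hp, mz_self (show q.1.2 ∈ tz τ K (t p.1.1) by rw [hpq]; exact hq)]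
      · cases htp : t p.1.1
        · obtain ⟨hmem', htq⟩ := hmem _ _ hpq htp
          refine (q3 _ hmem' fun _ c d => F (c p.1.2) (d q.1.2)).trans ?_
          refine Eq.trans (Finset.sum_congr rfl fun ω _ => ?_) h1
          rw [htp] at hp
          rw [htq] at hq
          rw [mz_self hp, mz_self hq]
        · have htq : t q.1.1 = false := by
            have := htG _ _ hpq
            rw [htp] at this
            cases h : t q.1.1
            · rfl
            · exact absurd h.symm this
          obtain ⟨hmem', _⟩ := hmem _ _ hpq.symm htq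
          refine (q3 _ hmem' fun _ c d => F (d p.1.2) (c q.1.2)).trans ?_
          refine Eq.trans (Finset.sum_congr rfl fun ω _ => ?_) h1
          rw [htp] at hp
          rw [htq] at hq
          rw [mz_self hp, mz_self hq]
  · let dec : (RV t τ K → Option U) → (V → Option U) × (VG → (V → Option U)) := fun z =>
      (fun v => if h : v ∈ K then z (Sum.inl ⟨v, h⟩) else none,
        fun p v => if h : v ∉ K ∧ t p = τ v then z (Sum.inr ⟨(p, v), h⟩) else none)
    have a3 : ∀ x, Λ x ≠ 0 → x = dec (mz (zr t τ K) univ x) := by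
      intro x hx
      refine Prod.ext ?_ ?_
      · funext v
        have h1 := a1 x hx v
        by_cases hv : v ∈ K
        · simp [dec, hv, mz, zr]
        · rw [decide_eq_false hv] at h1
          simp only [dec, hv, dif_neg, not_false_eq_true]
          simpa using h1
      · funext p v
        have h1 := a2 x hx p v
        by_cases hv : v ∉ K ∧ t p = τ v
        · simp only [dec, hv, not_false_eq_true, and_self, dif_pos, mz, mem_univ, if_true, zr,
            Sum.elim_inr]
        · rw [decide_eq_false hv] at h1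
          simp only [dec, hv, dif_neg, not_false_eq_true]
          simpa using h1
    have hent : ent Λ (fun x => x) ≤ he Λ (zr t τ K) univ := by
      unfold he
      refine (ent_ae a3).trans_le ?_
      exact ent_comp_le hΛ0 (mz (zr t τ K) univ) dec
    have key := ent_lam hL hμ
    have r1 : ent L (fun ω => ω.1) = he P Z K := ent_mar P fn _
    have r2 : ∀ b : Bool, ent L (fun ω => (ω.1, if b then ω.2.2 else ω.2.1)) =
        he P Z (K ∪ sd τ b univ) := by
      intro b
      rw [hLdef, ent_mar P fn]
      unfold he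
      refine ent_fib fun ω ω' => ?_
      have h1 : ∀ ω, (if b = true then (fn ω).2.2 else (fn ω).2.1) = mz Z (tz τ K b) ω := by
        intro ω
        cases b <;> simp [hfn]
      rw [h1, h1, Prod.mk.injEq, hfn, mz_eq, mz_eq, mz_eq]
      simp only [mem_tz, Finset.mem_union, mem_sd, Finset.mem_univ, true_and]
      constructor
      · rintro ⟨h2, h3⟩ v hv
        by_cases hvK : v ∈ K
        · exact h2 v hvK
        · exact h3 v ⟨hvK, hv.resolve_left hvK⟩
      · exact fun h2 => ⟨fun v hv => h2 v (Or.inl hv), fun v hv => h2 v (Or.inr hv.2)⟩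
    have r3 : ent L (fun ω => (ω.1, ω.2.1)) = he P Z (K ∪ sd τ false univ) := by
      have := r2 false
      simpa using this
    have r4 : ent L (fun ω => (ω.1, ω.2.2)) = he P Z (K ∪ sd τ true univ) := by
      have := r2 true
      simpa using this
    have r5 : ent L (fun ω => ω) = he P Z univ := by
      rw [hLdef, ent_mar P fn]
      unfold he
      refine ent_fib fun ω ω' => ?_
      rw [hfn]
      simp only [Prod.mk.injEq, mz_eq, mem_tz, Finset.mem_univ, true_imp_iff]
      constructor
      · rintro ⟨h2, h3, h4⟩ v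
        by_cases hvK : v ∈ K
        · exact h2 v hvK
        · cases hsv : τ v
          · exact h3 v ⟨hvK, hsv⟩
          · exact h4 v ⟨hvK, hsv⟩
      · exact fun h2 => ⟨fun v _ => h2 v, fun v _ => h2 v, fun v _ => h2 v⟩
    rw [sum_side t fun b => ent L (fun ω => (ω.1, if b then ω.2.2 else ω.2.1)) -
      ent L (fun ω => ω.1)] at key
    simp only [Bool.false_eq_true, if_false, if_true] at key
    rw [r1, r3, r4, r5] at key
    have b0 := hT.low ∅ (Finset.empty_subset _)
    have b1 := hT.low K (Finset.subset_univ _)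
    have b2 := hT.low (K ∪ sd τ true univ) (Finset.subset_univ _)
    have b3 := hT.low (K ∪ sd τ false univ) (Finset.subset_univ _)
    rw [he_empty hT.total, eb_empty, Finset.sum_empty] at b0
    rw [sum_univ_tz (s := τ) K] at b0 b1 b2 b3
    rw [sum_union_tz] at b2
    rw [sum_union_tz] at b3
    push_cast at b0
    have key2 := combine' hn hk hne hke
      (a := he P Z univ) (b := he P Z K) (c := he P Z (K ∪ sd τ false univ))
      (d := he P Z (K ∪ sd τ true univ)) (I := ii m π) (sK := ∑ v ∈ K, hm m (s v))
      (sX := ∑ v ∈ tz τ K false, hm m (s v)) (sY := ∑ v ∈ tz τ K true, hm m (s v))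
      (eK := (eb H s K : ℝ)) (eX := (eb H s (K ∪ sd τ false univ) : ℝ) - eb H s K)
      (eY := (eb H s (K ∪ sd τ true univ) : ℝ) - eb H s K)
      (eZ := (eb H s univ : ℝ) + eb H s K - eb H s (K ∪ sd τ false univ) -
        eb H s (K ∪ sd τ true univ))
      (by linear_combination b0) (by linear_combination b1) (by linear_combination b2)
      (by linear_combination b3) (by linear_combination hI)
    have hcard := card_sub (H := H) (s := s) (τ := τ) (K := K) htG
    have hcard' : ((sideEdges (relSub G t H τ K) (subSide s t τ K)).card : ℝ) =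
        (eb H s K : ℝ) + (univ.filter fun p => t p = false).card *
          ((eb H s (K ∪ sd τ false univ) : ℝ) - eb H s K) +
        (univ.filter fun p => t p = true).card *
          ((eb H s (K ∪ sd τ true univ) : ℝ) - eb H s K) +
        (sideEdges G t).card * ((eb H s univ : ℝ) + eb H s K - eb H s (K ∪ sd τ false univ) -
          eb H s (K ∪ sd τ true univ)) := by
      have h1 : (((sideEdges (relSub G t H τ K) (subSide s t τ K)).card +
          (cnt t false + cnt t true) * eb H s K + (sideEdges G t).card *
            (eb H s (K ∪ sd τ false univ) + eb H s (K ∪ sd τ true univ)) : ℕ) : ℝ) =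
          ((eb H s K + cnt t false * eb H s (K ∪ sd τ false univ) +
            cnt t true * eb H s (K ∪ sd τ true univ) +
            (sideEdges G t).card * (eb H s univ + eb H s K) : ℕ) : ℝ) := by exact_mod_cast hcard
      push_cast at h1
      unfold cnt at h1
      linear_combination h1
    rw [← card_sideEdges_eb, hcard', sum_sub_hm (hm m)]
    linarith
  · -- stars
    rintro a B ⟨p', q', hpq', v, D, hvD, hav, hB⟩
    obtain ⟨θ, p, q, hpq, hinj, hθ, hside, hadjθ, hz⟩ := exists_lift htG hpq' τ K
    obtain ⟨_, _, hvadj, hstar⟩ := hT.star v D hvD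
    have ha : a = θ v := (hθ v a).1 hav
    have hBD : B = D.image θ := himg θ p' q' hθ B D hB
    refine ⟨mem_univ _, Finset.subset_univ _, ?_, ?_⟩
    · intro d hd
      rw [hBD, Finset.mem_image] at hd
      obtain ⟨w, hw, rfl⟩ := hd
      rw [ha]
      exact hadjθ H v w (hvadj w hw)
    · have hcard : B.card = D.card := by rw [hBD, Finset.card_image_of_injective _ hinj]
      have hins : insert a B = (insert v D).image θ := by rw [Finset.image_insert, ha, hBD]
      rw [hins, hlaw θ p q hpq (hz U), hcard, ha, hside s]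
      exact hstar
  · -- separations
    rintro a A B ⟨p', q', hpq', v, A', B', hvM, hav, hA, hB⟩
    obtain ⟨θ, p, q, hpq, hinj, hθ, hside, hadjθ, hz⟩ := exists_lift htG hpq' τ K
    obtain ⟨_, _, _, hsep⟩ := hM v A' B' hvM
    have ha : a = θ v := (hθ v a).1 hav
    have hAA : A = A'.image θ := himg θ p' q' hθ A A' hA
    have hBB : B = B'.image θ := himg θ p' q' hθ B B' hB
    refine ⟨mem_univ _, Finset.subset_univ _, Finset.subset_univ _, ?_⟩
    have i1 : insert a A = (insert v A').image θ := by rw [Finset.image_insert, ha, hAA]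
    have i2 : insert a B = (insert v B').image θ := by rw [Finset.image_insert, ha, hBB]
    have i3 : insert a (A ∪ B) = (insert v (A' ∪ B')).image θ := by
      rw [Finset.image_insert, Finset.image_union, ha, hAA, hBB]
    have i4 : ({a} : Finset (RV t τ K)) = ({v} : Finset V).image θ := by
      rw [Finset.image_singleton, ha]
    have hl := hlaw θ p q hpq (hz U)
    rw [i1, i2, i3, i4, hl, hl, hl, hl]
    exact hsep

end

end Vale.Agent.P050.H177
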