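import Vale.Agent.P050.H177.Exact

set_option linter.all false

/-!
Two Moebius ladders and four-cycles, from a bound for the closing step.
-/

namespace Vale.Agent.P050.H177

open Finset Vale.Agent.P050.H148 Vale.Agent.P050.H180 Filter Topology

section fin

variable {X : Type*} [Fintype X] [DecidableEq X] [Nonempty X]

/-- the bound for the closing step -/
def TwoD (W : X → X → ℝ) (M : ℕ) : Prop :=
  -(1 / 2) * Real.log (zc W) - 3 * (∑ a, rho W a * Real.log (W a.1 a.2)) +
      4 * (∑ c : X × X, cod W c.1 c.2 ^ 2 / zc W * Real.log (cod W c.1 c.2)) -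
      (∑ a, rho W a * Real.log (rr W a)) ≤
    2 * (∑ e, rho W e * Dq W (kp (qq W) M e))

variable {W : X → X → ℝ}

theorem two_log (hW : ∀ x y, 0 < W x y) (hW1 : ∀ x y, W x y ≤ 1) (M : ℕ)
    [NeZero (2 * M + 3)] (hD : TwoD W M) :
    (4 * (M : ℝ) + 7) * Real.log (zc W) - (4 * (M : ℝ) + 8) * Real.log (∑ a : X × X, W a.1 a.2) ≤
      2 * Real.log (ladSum W (2 * M + 3)) := by
  have hmain := odd_exact hW M
  unfold TwoD at hD
  have hr0 : ∀ a, 0 < rho W a := rho_pos hW
  have hr1 : ∑ a, rho W a = 1 := rho_sum hW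
  set cc : ℝ := ∑ c : X × X, cod W c.1 c.2 ^ 2 / zc W * Real.log (cod W c.1 c.2) with hcc
  set w : ℝ := ∑ a, rho W a * Real.log (W a.1 a.2) with hw
  set ell : ℝ := ∑ a, rho W a * Real.log (rr W a) with hell
  set h : ℝ := ∑ a, rho W a * Real.log (rho W a) with hh
  set lz : ℝ := Real.log (zc W) with hlz
  have hrel : h = w + ell - lz := by
    have e1 : lz = ∑ a, rho W a * lz := by rw [← sum_mul, hr1, one_mul]
    rw [e1, hh, hw, hell, ← sum_add_distrib, ← sum_sub_distrib]
    refine sum_congr rfl fun a _ => ?_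
    have e2 : Real.log (rho W a) = Real.log (W a.1 a.2) + Real.log (rr W a) - lz := by
      unfold rho
      rw [Real.log_div (mul_pos (hW _ _) (rr_pos hW a)).ne' (zc_pos hW).ne',
        Real.log_mul (hW _ _).ne' (rr_pos hW a).ne']
    rw [e2]; ring
  have hw0 : w ≤ 0 := by
    refine sum_nonpos fun a _ => mul_nonpos_of_nonneg_of_nonpos (hr0 a).le ?_
    exact Real.log_nonpos (hW _ _).le (hW1 _ _)
  have hedge : w - h ≤ Real.log (∑ a : X × X, W a.1 a.2) := by
    have e1 := logsum (rho W) (fun a : X × X => W a.1 a.2) hr0 (fun a => hW _ _)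
    rw [hr1, Real.log_one, one_mul, zero_sub] at e1
    have e2 : ∑ a, rho W a * (Real.log (rho W a) - Real.log (W a.1 a.2)) = h - w := by
      rw [hh, hw, ← sum_sub_distrib]
      exact sum_congr rfl fun e _ => by ring
    rw [e2] at e1
    linarith
  set Le : ℝ := Real.log (∑ a : X × X, W a.1 a.2) with hLe
  have h11 : lz - Le ≤ ell := by rw [hrel] at hedge; linarith
  have h12 : (0 : ℝ) ≤ 2 * (M : ℝ) + 4 := by positivity
  have h13 := mul_le_mul_of_nonneg_left h11 h12
  rw [hrel] at hmain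
  nlinarith

theorem two_pow (hW : ∀ x y, 0 < W x y) (hW1 : ∀ x y, W x y ≤ 1) (M : ℕ)
    [NeZero (2 * M + 3)] (hD : TwoD W M) :
    zc W ^ (4 * M + 7) ≤ (∑ a : X × X, W a.1 a.2) ^ (4 * M + 8) * ladSum W (2 * M + 3) ^ 2 := by
  have h1 : 0 < zc W := zc_pos hW
  have h2 : 0 < ∑ a : X × X, W a.1 a.2 := sum_pos (fun a _ => hW _ _) univ_nonempty
  have h3 : 0 < ladSum W (2 * M + 3) := by
    unfold ladSum
    exact sum_pos (fun w _ => prod_pos fun i _ => mul_pos (hW _ _) (mul_pos (hW _ _) (hW _ _)))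
      univ_nonempty
  have key := two_log hW hW1 M hD
  rw [← Real.log_le_log_iff (pow_pos h1 _) (mul_pos (pow_pos h2 _) (pow_pos h3 _)),
    Real.log_mul (pow_pos h2 _).ne' (pow_pos h3 _).ne', Real.log_pow, Real.log_pow, Real.log_pow]
  push_cast
  linarith

theorem two_le (M : ℕ) [NeZero (2 * M + 3)]
    (hD : ∀ V : X → X → ℝ, (∀ x y, 0 < V x y) → (∀ x y, V x y = V y x) → TwoD V M)
    (h0 : ∀ x y, 0 ≤ W x y) (h1 : ∀ x y, W x y ≤ 1) (hs : ∀ x y, W x y = W y x) :
    zc W ^ (4 * M + 7) ≤ (∑ a : X × X, W a.1 a.2) ^ (4 * M + 8) * ladSum W (2 * M + 3) ^ 2 := by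
  set V : ℝ → X → X → ℝ := fun ε x y => W x y + ε * (1 - W x y) with hV
  have hVc : ∀ x y, Continuous fun ε => V ε x y := fun x y => by
    simp only [hV]; fun_prop
  have hV0 : V 0 = W := by
    funext x y
    simp only [hV]; ring
  have c1 : Continuous fun ε => zc (V ε) ^ (4 * M + 7) := by
    refine Continuous.pow ?_ _
    unfold zc rr
    refine continuous_finset_sum _ fun a _ => (hVc _ _).mul ?_
    refine continuous_finset_sum _ fun x' _ => continuous_finset_sum _ fun y' _ => ?_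
    exact ((hVc _ _).mul (hVc _ _)).mul (hVc _ _)
  have c2 : Continuous fun ε => (∑ a : X × X, V ε a.1 a.2) ^ (4 * M + 8) *
      ladSum (V ε) (2 * M + 3) ^ 2 := by
    refine Continuous.mul (Continuous.pow ?_ _) (Continuous.pow ?_ _)
    · exact continuous_finset_sum _ fun a _ => hVc _ _
    · unfold ladSum
      refine continuous_finset_sum _ fun w _ => continuous_finset_prod _ fun i _ => ?_
      exact (hVc _ _).mul ((hVc _ _).mul (hVc _ _))
  have t1 := (c1.tendsto 0).mono_left (nhdsWithin_le_nhds (s := Set.Ioc (0 : ℝ) 1))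
  have t2 := (c2.tendsto 0).mono_left (nhdsWithin_le_nhds (s := Set.Ioc (0 : ℝ) 1))
  simp only [hV0] at t1 t2
  haveI : (𝓝[Set.Ioc (0 : ℝ) 1] 0).NeBot := by
    rw [← mem_closure_iff_nhdsWithin_neBot, closure_Ioc (by norm_num)]
    exact ⟨le_rfl, zero_le_one⟩
  refine le_of_tendsto_of_tendsto t1 t2 ?_
  filter_upwards [self_mem_nhdsWithin] with ε hε
  have hp : ∀ x y, 0 < V ε x y := by
    intro x y
    simp only [hV]
    have e1 := h0 x y
    have e2 := h1 x y
    have e3 := hε.1
    have e4 := hε.2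
    rcases e1.lt_or_eq with h | h
    · have : 0 ≤ ε * (1 - W x y) := mul_nonneg e3.le (by linarith)
      linarith
    · rw [← h]; linarith
  have hl : ∀ x y, V ε x y ≤ 1 := by
    intro x y
    simp only [hV]
    have e2 := h1 x y
    have e4 := hε.2
    nlinarith
  have hsy : ∀ x y, V ε x y = V ε y x := by
    intro x y
    simp only [hV]
    rw [hs x y]
  exact two_pow hp hl M (hD _ hp hsy)

end fin

section graph

variable {X : Type*} [Fintype X]

/-- two Moebius ladders, for graphs -/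
theorem two_graph [DecidableEq X] (G : SimpleGraph X) [Nonempty X] (M : ℕ)
    (hD : ∀ V : X → X → ℝ, (∀ x y, 0 < V x y) → (∀ x y, V x y = V y x) → TwoD V M) :
    homDensity (SimpleGraph.cycleGraph 4) G ^ (4 * M + 7) ≤
      edgeDensity G ^ (4 * M + 8) * homDensity (moebiusLadder (2 * M + 3)) G ^ 2 := by
  classical
  haveI : NeZero (2 * M + 3) := ⟨by omega⟩
  have hn : 0 < Fintype.card X := Fintype.card_pos
  have hn0 : (0 : ℝ) < Fintype.card X := by exact_mod_cast hn
  have h0 : ∀ x y, 0 ≤ adj G x y := fun x y => by simp only [adj]; split_ifs <;> norm_num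
  have h1 : ∀ x y, adj G x y ≤ 1 := fun x y => by simp only [adj]; split_ifs <;> norm_num
  have hs : ∀ x y, adj G x y = adj G y x := fun x y => by
    simp only [adj, G.adj_comm x y]
  have hp := adj_sum G
  have hp' : ∑ a : X × X, adj G a.1 a.2 = edgeDensity G * (Fintype.card X : ℝ) ^ 2 := by
    rw [Fintype.sum_prod_type, ← hp]; field_simp
  have hfour : homDensity (SimpleGraph.cycleGraph 4) G * (Fintype.card X : ℝ) ^ 4 =
      zc (adj G) := four_density G
  have key := two_le M hD h0 h1 hs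
  rw [hom_ladder]
  unfold ladderDensity
  rw [← ladSum_two]
  rw [← hfour, hp'] at key
  set n : ℝ := (Fintype.card X : ℝ) with hndef
  set T : ℝ := homDensity (SimpleGraph.cycleGraph 4) G with hT
  set p : ℝ := edgeDensity G with hpd
  have e1 : (T * n ^ 4) ^ (4 * M + 7) = T ^ (4 * M + 7) * n ^ (16 * M + 28) := by
    rw [mul_pow, ← pow_mul]; congr 2; ring
  have e2 : (p * n ^ 2) ^ (4 * M + 8) * ladSum (adj G) (2 * M + 3) ^ 2 =
      p ^ (4 * M + 8) * (ladSum (adj G) (2 * M + 3) / n ^ (2 * (2 * M + 3))) ^ 2 *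
        n ^ (16 * M + 28) := by
    have e3 : n ^ (16 * M + 28) = n ^ (2 * (4 * M + 8)) * (n ^ (2 * (2 * M + 3))) ^ 2 := by
      rw [← pow_mul, ← pow_add]; congr 1; ring
    rw [e3, mul_pow, ← pow_mul, div_pow]
    field_simp
  rw [e1, e2] at key
  exact le_of_mul_le_mul_right key (by positivity)

end graph

end Vale.Agent.P050.H177
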